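import Mathlib

set_option linter.all false

section

open IsLocalRing

namespace Vale.Agent.P266.FirstIntegral


theorem height_eq_one_of_isAssociatedPrime {R : Type*} [CommRing R] [IsDomain R]
    [IsNoetherianRing R] [IsIntegrallyClosed R] {h : R} (hh : h ≠ 0) (P : Ideal R)
    [P.IsPrime] {y : R} (hy : ¬ h ∣ y) (hP : ∀ r, r ∈ P ↔ h ∣ r * y) : P.height = 1 := by
  have hhP : h ∈ P := (hP h).mpr (dvd_mul_right _ _)
  -- there is p₀ ∈ P with p₀ y = h u, u ∉ P
  obtain ⟨p₀, hp₀, u, hu, hpu⟩ : ∃ p₀ ∈ P, ∃ u, p₀ * y = h * u ∧ u ∉ P := by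
    by_contra hcon
    push Not at hcon
    let K := FractionRing R
    have hinj : Function.Injective (algebraMap R K) := IsFractionRing.injective R K
    have hhK : algebraMap R K h ≠ 0 := by
      rw [Ne, map_eq_zero_iff _ hinj]; exact hh
    let θ : K := algebraMap R K y / algebraMap R K h
    let N : Submodule R K := Submodule.map (Algebra.linearMap R K) P
    have hint : IsIntegral R θ := by
      refine isIntegral_of_smul_mem_submodule (M := K) N ?_ ?_ θ ?_
      · intro hN
        apply hhK
        have : algebraMap R K h ∈ N := ⟨h, hhP, rfl⟩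
        rw [hN] at this
        exact this
      · exact (IsNoetherian.noetherian P).map _
      · rintro _ ⟨p, hp, rfl⟩
        obtain ⟨v, hv⟩ := (hP p).mp hp
        refine ⟨v, hcon p hp v hv, ?_⟩
        simp only [Algebra.linearMap_apply, smul_eq_mul, θ]
        rw [div_mul_eq_mul_div, eq_div_iff hhK, ← map_mul, ← map_mul]
        congr 1
        rw [mul_comm y p, hv, mul_comm]
    obtain ⟨z, hz⟩ := IsIntegrallyClosed.isIntegral_iff.mp hint
    apply hy
    refine ⟨z, hinj ?_⟩
    rw [map_mul, hz]
    exact (mul_div_cancel₀ _ hhK).symm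
  have hmin : P ∈ (Ideal.span {p₀}).minimalPrimes := by
    refine ⟨⟨inferInstance, (Ideal.span_singleton_le_iff_mem _).mpr hp₀⟩, ?_⟩
    rintro P' ⟨hP'prime, hP'⟩ hle p hp
    obtain ⟨v, hv⟩ := (hP p).mp hp
    have h1 : p * u = p₀ * v := by
      have h2 : h * (p * u) = h * (p₀ * v) := by
        calc h * (p * u) = p * (h * u) := by ring
          _ = p * (p₀ * y) := by rw [hu]
          _ = p₀ * (p * y) := by ring
          _ = p₀ * (h * v) := by rw [hv]
          _ = h * (p₀ * v) := by ring
      exact mul_left_cancel₀ hh h2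
    have h3 : p * u ∈ P' := by
      rw [h1]
      exact Ideal.mul_mem_right _ _ ((Ideal.span_singleton_le_iff_mem _).mp hP')
    rcases hP'prime.mem_or_mem h3 with h4 | h4
    · exact h4
    · exact absurd (hle h4) hpu
  have hle := Ideal.height_le_one_of_isPrincipal_of_mem_minimalPrimes _ _ hmin
  refine le_antisymm hle ?_
  rw [Order.one_le_iff_ne_zero]
  intro h0
  rw [Ideal.height_eq_zero_iff_eq_bot] at h0
  rw [h0] at hhP
  exact hh hhP

theorem dvd_of_forall_height_one {R : Type*} [CommRing R] [IsDomain R] [IsNoetherianRing R]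
    [IsIntegrallyClosed R] {h f : R} (hh : h ≠ 0)
    (H : ∀ (Q : Ideal R) [Q.IsPrime], Q.height = 1 → ∃ s, s ∉ Q ∧ h ∣ s * f) : h ∣ f := by
  by_contra hcon
  have hx : Ideal.Quotient.mk (Ideal.span {h}) f ≠ 0 := by
    rw [Ne, Ideal.Quotient.eq_zero_iff_dvd]
    exact hcon
  obtain ⟨P, hPass, hle⟩ := exists_le_isAssociatedPrime_of_isNoetherianRing R
    (Ideal.Quotient.mk (Ideal.span {h}) f) hx
  obtain ⟨hPp, y, hy⟩ := isAssociatedPrime_iff.mp hPass
  obtain ⟨y, rfl⟩ := Ideal.Quotient.mk_surjective y
  have hcol : ∀ (z r : R), r ∈ (⊥ : Submodule R (R ⧸ Ideal.span {h})).colon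
      {Ideal.Quotient.mk (Ideal.span {h}) z} ↔ h ∣ r * z := by
    intro z r
    rw [Submodule.mem_colon_singleton, Submodule.mem_bot, Algebra.smul_def,
      Ideal.Quotient.algebraMap_eq, ← map_mul, Ideal.Quotient.eq_zero_iff_dvd]
  have hP : ∀ r, r ∈ P ↔ h ∣ r * y := fun r ↦ by rw [hy, hcol]
  have hyn : ¬ h ∣ y := by
    intro hd
    apply hPp.ne_top
    rw [Ideal.eq_top_iff_one, hP, one_mul]
    exact hd
  have hht := height_eq_one_of_isAssociatedPrime hh P hyn hP
  obtain ⟨s, hs, hsf⟩ := H P hht
  exact hs (hle ((hcol f s).mpr hsf))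

theorem isDVR_of_height_eq_one {R : Type*} [CommRing R] [IsDomain R]
    [IsNoetherianRing R] [IsIntegrallyClosed R] (Q : Ideal R) [Q.IsPrime] (hQ : Q.height = 1)
    (V : Type*) [CommRing V] [IsDomain V] [Algebra R V] [IsLocalization.AtPrime V Q] :
    IsDiscreteValuationRing V := by
  have _ : IsLocalRing V := IsLocalization.AtPrime.isLocalRing V Q
  have _ : IsNoetherianRing V := IsLocalization.isNoetherianRing Q.primeCompl V inferInstance
  have _ : IsIntegrallyClosed V := isIntegrallyClosed_of_isLocalization V Q.primeCompl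
    Q.primeCompl_le_nonZeroDivisors
  have h1 : ringKrullDim V = 1 := by
    rw [IsLocalization.AtPrime.ringKrullDim_eq_height Q V, hQ]; rfl
  have h2 := ringKrullDim_eq_one_iff_of_isLocalRing_isDomain.mp h1
  have h3 : IsIntegrallyClosed V ∧ ∃! P : Ideal V, P ≠ ⊥ ∧ P.IsPrime := by
    refine ⟨inferInstance, maximalIdeal V, ⟨?_, inferInstance⟩, ?_⟩
    · intro h
      exact h2.1 (IsLocalRing.isField_iff_maximalIdeal_eq.mpr h)
    · rintro P ⟨hP, hPp⟩
      refine le_antisymm (IsLocalRing.le_maximalIdeal hPp.ne_top) ?_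
      obtain ⟨x, hxP, hx0⟩ := Submodule.exists_mem_ne_zero_of_ne_bot hP
      exact (h2.2 x hx0).trans ((Ideal.IsRadical.radical_le_iff hPp.isRadical).mpr
        ((Ideal.span_singleton_le_iff_mem P).mpr hxP))
  exact ((IsDiscreteValuationRing.TFAE V h2.1).out 0 3).mpr h3

end Vale.Agent.P266.FirstIntegral
end

section

open IsLocalRing TensorProduct Polynomial

namespace Vale.Agent.P266.FirstIntegral

section Dvr

variable (k V : Type*) [Field k] [CharZero k] [CommRing V] [IsDomain V]
  [IsDiscreteValuationRing V] [Algebra k V] [Algebra.EssFiniteType k V]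

omit [CharZero k] [Algebra.EssFiniteType k V] in
theorem aeval_uniformizer_injective {ϖ : V} (hϖ : Irreducible ϖ) :
    Function.Injective (aeval ϖ : k[X] →ₐ[k] V) := by
  rw [injective_iff_map_eq_zero]
  intro p hp
  by_contra hne
  obtain ⟨q, hpq, hq⟩ := (FiniteMultiplicity.of_prime_left (prime_X (R := k)) hne).exists_eq_pow_mul_and_not_dvd
  rw [hpq, map_mul, map_pow, aeval_X, mul_eq_zero] at hp
  rcases hp with hp | hp
  · exact hϖ.ne_zero (eq_zero_of_pow_eq_zero hp)
  · have h1 : aeval ϖ q ∉ maximalIdeal V := by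
      intro hmem
      rw [X_dvd_iff] at hq
      have : aeval ϖ q - algebraMap k V (q.coeff 0) ∈ maximalIdeal V := by
        rw [hϖ.maximalIdeal_eq, Ideal.mem_span_singleton]
        have h2 : X ∣ q - C (q.coeff 0) := by simp [X_dvd_iff]
        obtain ⟨r, hr⟩ := h2
        refine ⟨aeval ϖ r, ?_⟩
        have := congrArg (aeval ϖ) hr
        simpa using this
      have h3 : algebraMap k V (q.coeff 0) ∈ maximalIdeal V := by
        have := Ideal.sub_mem _ hmem this
        simpa using this
      exact h3 ((IsUnit.mk0 _ hq).map (algebraMap k V))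
    exact h1 (hp ▸ Ideal.zero_mem _)

theorem formallySmooth_of_dvr : Algebra.FormallySmooth k V := by
  obtain ⟨ϖ, hϖ⟩ := IsDiscreteValuationRing.exists_irreducible V
  have hm : maximalIdeal V = Ideal.span {ϖ} := hϖ.maximalIdeal_eq
  let _ : Algebra k[X] V := (aeval ϖ : k[X] →ₐ[k] V).toRingHom.toAlgebra
  have _ : IsScalarTower k k[X] V := .of_algebraMap_eq' (aeval ϖ : k[X] →ₐ[k] V).comp_algebraMap.symm
  have hinj : Function.Injective (algebraMap k[X] V) := aeval_uniformizer_injective k V hϖ
  let q : Ideal k[X] := (maximalIdeal V).comap (algebraMap k[X] V)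
  have _ : q.IsPrime := inferInstance
  let R := Localization.AtPrime q
  have hu : ∀ y : q.primeCompl, IsUnit (algebraMap k[X] V y) := by
    intro y
    by_contra h
    exact y.2 h
  let _ : Algebra R V := (IsLocalization.lift (M := q.primeCompl) hu).toAlgebra
  have _ : IsScalarTower k[X] R V := .of_algebraMap_eq' (IsLocalization.lift_comp hu).symm
  have _ : IsScalarTower k R V := .to₁₃₄ k k[X] R V
  have hX : algebraMap k[X] V X = ϖ := aeval_X ϖ
  have _ : IsLocalHom (algebraMap R V) := by
    constructor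
    intro x hx
    obtain ⟨a, s, rfl⟩ := IsLocalization.exists_mk'_eq q.primeCompl x
    have h2 : algebraMap R V (IsLocalization.mk' R a s) * algebraMap k[X] V s = algebraMap k[X] V a := by
      rw [IsScalarTower.algebraMap_apply k[X] R V s, ← map_mul, IsLocalization.mk'_spec,
        ← IsScalarTower.algebraMap_apply]
    have h3 : IsUnit (algebraMap k[X] V a) := by
      rw [← h2]; exact hx.mul (hu s)
    have h4 : a ∈ q.primeCompl := fun h ↦ h h3
    exact (IsLocalization.AtPrime.isUnit_mk'_iff R q a s).mpr h4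
  have _ : IsDedekindDomain R := IsLocalization.AtPrime.isDedekindDomain k[X] q R
  have _ : FaithfulSMul R V := by
    rw [faithfulSMul_iff_algebraMap_injective]
    rw [injective_iff_map_eq_zero]
    intro x hx
    obtain ⟨a, s, rfl⟩ := IsLocalization.exists_mk'_eq q.primeCompl x
    have h2 : algebraMap R V (IsLocalization.mk' R a s) * algebraMap k[X] V s = algebraMap k[X] V a := by
      rw [IsScalarTower.algebraMap_apply k[X] R V s, ← map_mul, IsLocalization.mk'_spec,
        ← IsScalarTower.algebraMap_apply]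
    rw [hx, zero_mul] at h2
    have h3 : a = 0 := hinj (by rw [← h2, map_zero])
    rw [h3, IsLocalization.mk'_zero]
  have _ : Module.Flat R V := inferInstance
  have _ : Algebra.EssFiniteType R V := Algebra.EssFiniteType.of_comp k R V
  have _ : IsNoetherianRing R := inferInstance
  have _ : Algebra.FinitePresentation R (Algebra.EssFiniteType.subalgebra R V) :=
    (Algebra.FinitePresentation.of_finiteType (R := R) (A := Algebra.EssFiniteType.subalgebra R V)).mp
      inferInstance
  have _ : Algebra.FormallySmooth (ResidueField R) (ResidueField R ⊗[R] V) := by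
    have _ : CharZero (ResidueField R) :=
      charZero_of_injective_algebraMap (algebraMap k (ResidueField R)).injective
    have _ : Algebra.EssFiniteType k (ResidueField V) :=
      inferInstanceAs (Algebra.EssFiniteType k (V ⧸ maximalIdeal V))
    have _ : IsScalarTower k (ResidueField R) (ResidueField V) := by
      refine .of_algebraMap_eq fun x ↦ ?_
      rw [IsScalarTower.algebraMap_apply k R (ResidueField R),
        ← IsScalarTower.algebraMap_apply R (ResidueField R) (ResidueField V),
        IsScalarTower.algebraMap_apply R V (ResidueField V),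
        ← IsScalarTower.algebraMap_apply k R V, IsScalarTower.algebraMap_apply k V (ResidueField V)]
    have _ : Algebra.EssFiniteType (ResidueField R) (ResidueField V) :=
      Algebra.EssFiniteType.of_comp k _ _
    have _ : Algebra.FormallySmooth (ResidueField R) (ResidueField V) := inferInstance
    let φ : ResidueField R ⊗[R] V →ₐ[ResidueField R] ResidueField V :=
      Algebra.TensorProduct.lift (Algebra.ofId _ _)
        (IsScalarTower.toAlgHom R V (ResidueField V)) fun _ _ ↦ .all _ _
    have hφ : Function.Bijective φ := by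
      constructor
      · rw [injective_iff_map_eq_zero]
        intro x hx
        obtain ⟨v, rfl⟩ := TensorProduct.mk_surjective R V (ResidueField R)
          (by exact residue_surjective) x
        have h5 : residue V v = 0 := by
          simpa [φ] using hx
        rw [residue_eq_zero_iff, hm, Ideal.mem_span_singleton] at h5
        obtain ⟨w, rfl⟩ := h5
        have h6 : ϖ * w = (algebraMap k[X] R X) • w := by
          rw [Algebra.smul_def, ← IsScalarTower.algebraMap_apply, hX]
        have h7 : residue R (algebraMap k[X] R X) = 0 := by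
          rw [residue_eq_zero_iff]
          refine (IsLocalization.AtPrime.to_map_mem_maximal_iff R q X _).mpr ?_
          change algebraMap k[X] V X ∈ maximalIdeal V
          rw [hX, hm]
          exact Ideal.mem_span_singleton_self _
        simp only [TensorProduct.mk_apply]
        rw [h6, TensorProduct.tmul_smul, TensorProduct.smul_tmul', Algebra.smul_def,
          ResidueField.algebraMap_eq, h7, zero_mul, TensorProduct.zero_tmul]
      · intro y
        obtain ⟨v, rfl⟩ := residue_surjective y
        exact ⟨1 ⊗ₜ v, by simp [φ]⟩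
    exact .of_equiv (AlgEquiv.ofBijective φ hφ).symm
  have h1 : Algebra.FormallySmooth R V :=
    Algebra.FormallySmooth.of_formallySmooth_residueField_tensor
      (R := R) (S := V) (P := Algebra.EssFiniteType.subalgebra R V)
      (Algebra.EssFiniteType.submonoid R V)
  have _ : Algebra.FormallyEtale k[X] R := .of_isLocalization q.primeCompl
  have _ : Algebra.FormallySmooth k R := .comp k k[X] R
  exact .comp k R V

end Dvr
end Vale.Agent.P266.FirstIntegral
end

section

open IsLocalRing TensorProduct Polynomial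

namespace Vale.Agent.P266.FirstIntegral

theorem D_ne_zero_of_transcendental (k K : Type*) [Field k] [CharZero k] [Field K] [Algebra k K]
    [Algebra.EssFiniteType k K] {x : K} (hx : Transcendental k x) :
    KaehlerDifferential.D k K x ≠ 0 := by
  let _ : Algebra k[X] K := (aeval x : k[X] →ₐ[k] K).toRingHom.toAlgebra
  have _ : IsScalarTower k k[X] K := .of_algebraMap_eq' (aeval x : k[X] →ₐ[k] K).comp_algebraMap.symm
  have hinj : Function.Injective (algebraMap k[X] K) := transcendental_iff_injective.mp hx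
  have _ : FaithfulSMul k[X] K := (faithfulSMul_iff_algebraMap_injective _ _).mpr hinj
  let _ : Algebra (FractionRing k[X]) K := FractionRing.liftAlgebra k[X] K
  have _ : IsScalarTower k[X] (FractionRing k[X]) K := inferInstance
  have _ : IsScalarTower k (FractionRing k[X]) K := .to₁₃₄ k k[X] (FractionRing k[X]) K
  have _ : CharZero (FractionRing k[X]) :=
    charZero_of_injective_algebraMap (algebraMap k (FractionRing k[X])).injective
  have _ : Algebra.EssFiniteType (FractionRing k[X]) K := Algebra.EssFiniteType.of_comp k _ _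
  have _ : Algebra.FormallySmooth (FractionRing k[X]) K := inferInstance
  have _ : Algebra.FormallyEtale k[X] (FractionRing k[X]) := .of_isLocalization (nonZeroDivisors _)
  have _ : Algebra.FormallySmooth k[X] K := .comp k[X] (FractionRing k[X]) K
  have h1 : Subsingleton (Algebra.H1Cotangent k[X] K) :=
    ((Algebra.formallySmooth_iff k[X] K).mp inferInstance).2
  have h2 : Function.Injective (KaehlerDifferential.mapBaseChange k k[X] K) := by
    rw [injective_iff_map_eq_zero]
    intro y hy
    obtain ⟨z, hz⟩ := (Algebra.H1Cotangent.exact_δ_mapBaseChange k k[X] K y).mp hy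
    rw [← hz, Subsingleton.elim z 0, map_zero]
  intro h0
  have h3 : KaehlerDifferential.mapBaseChange k k[X] K ((1 : K) ⊗ₜ KaehlerDifferential.D k k[X] X) = 0 := by
    rw [KaehlerDifferential.mapBaseChange_tmul, KaehlerDifferential.map_D, one_smul]
    have : algebraMap k[X] K X = x := aeval_X x
    rw [this, h0]
  have h4 : (1 : K) ⊗ₜ[k[X]] KaehlerDifferential.D k k[X] X = 0 := h2 (by rw [h3, map_zero])
  -- functional
  let φ : Ω[k[X]⁄k] →ₗ[k[X]] k[X] := (Polynomial.derivative' : Derivation k k[X] k[X]).liftKaehlerDifferential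
  have h5 : (1 : K) = 0 := by
    have h6 := congrArg (fun t ↦ (TensorProduct.rid k[X] K) (LinearMap.lTensor K φ t)) h4
    simp [φ] at h6
  exact one_ne_zero h5

section Local

variable (k V : Type*) [Field k] [CharZero k] [CommRing V] [IsLocalRing V] [Algebra k V]
  [Algebra.EssFiniteType k V]

instance : Algebra.EssFiniteType k (ResidueField V) :=
  inferInstanceAs (Algebra.EssFiniteType k (V ⧸ maximalIdeal V))

/-- If `V` is local and formally smooth, every linear map from the differentials of `V` to the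
residue field lifts. -/
theorem exists_linearMap_transcendental [Algebra.FormallySmooth k V] {x : V}
    (hx : Transcendental k (residue V x)) :
    ∃ φ : Ω[V⁄k] →ₗ[V] V, IsUnit (φ (KaehlerDifferential.D k V x)) ∧
      ∀ y ∈ maximalIdeal V, φ (KaehlerDifferential.D k V y) ∈ maximalIdeal V := by
  have h0 := D_ne_zero_of_transcendental k (ResidueField V) hx
  obtain ⟨f, hf⟩ : ∃ f : Module.Dual (ResidueField V) Ω[ResidueField V⁄k],
      f (KaehlerDifferential.D k (ResidueField V) (residue V x)) ≠ 0 := by
    by_contra hcon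
    push Not at hcon
    exact h0 ((Module.forall_dual_apply_eq_zero_iff _ _).mp hcon)
  let g : Ω[V⁄k] →ₗ[V] ResidueField V :=
    (f.restrictScalars V) ∘ₗ KaehlerDifferential.map k k V (ResidueField V)
  obtain ⟨φ, hφ⟩ := Module.projective_lifting_property (Algebra.linearMap V (ResidueField V)) g
    residue_surjective
  have hφ' : ∀ ω, residue V (φ ω) = g ω := fun ω ↦ LinearMap.congr_fun hφ ω
  refine ⟨φ, ?_, ?_⟩
  · by_contra hcon
    have h1 : φ (KaehlerDifferential.D k V x) ∈ maximalIdeal V := hcon
    rw [← residue_eq_zero_iff, hφ'] at h1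
    apply hf
    simpa [g] using h1
  · intro y hy
    rw [← residue_eq_zero_iff, hφ']
    rw [← residue_eq_zero_iff] at hy
    simp [g, hy]

end Local

theorem exists_linearMap_uniformizer (k V : Type*) [Field k] [CharZero k] [CommRing V] [IsDomain V]
    [IsDiscreteValuationRing V] [Algebra k V] [Algebra.EssFiniteType k V]
    {ϖ : V} (hϖ : Irreducible ϖ) :
    ∃ φ : Ω[V⁄k] →ₗ[V] V, IsUnit (φ (KaehlerDifferential.D k V ϖ)) := by
  have _ : Algebra.FormallySmooth k V := formallySmooth_of_dvr k V
  have hm : maximalIdeal V = Ideal.span {ϖ} := hϖ.maximalIdeal_eq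
  have hker : RingHom.ker (algebraMap V (ResidueField V)) = maximalIdeal V := ker_residue
  obtain ⟨l, hl⟩ := (Algebra.FormallySmooth.iff_split_injection (R := k) (P := V)
    (A := ResidueField V) residue_surjective).mp inferInstance
  have hϖk : ϖ ∈ RingHom.ker (algebraMap V (ResidueField V)) := by
    rw [hker, hm]; exact Ideal.mem_span_singleton_self _
  let c := (RingHom.ker (algebraMap V (ResidueField V))).toCotangent ⟨ϖ, hϖk⟩
  let p : V →ₗ[V] (RingHom.ker (algebraMap V (ResidueField V))).Cotangent :=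
    LinearMap.toSpanSingleton V _ c
  have hp : Function.Surjective p := by
    intro z
    obtain ⟨⟨z, hz⟩, rfl⟩ := Ideal.toCotangent_surjective _ z
    have hz' := hz
    rw [hker, hm, Ideal.mem_span_singleton] at hz'
    obtain ⟨w, rfl⟩ := hz'
    refine ⟨w, ?_⟩
    simp only [p, c, LinearMap.toSpanSingleton_apply]
    rw [← map_smul]
    exact congrArg _ (Subtype.ext (mul_comm w ϖ))
  let g : Ω[V⁄k] →ₗ[V] (RingHom.ker (algebraMap V (ResidueField V))).Cotangent :=
    l ∘ₗ TensorProduct.mk V (ResidueField V) Ω[V⁄k] 1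
  obtain ⟨φ, hφ⟩ := Module.projective_lifting_property p g hp
  refine ⟨φ, ?_⟩
  have h1 : φ (KaehlerDifferential.D k V ϖ) • c = c := by
    have h2 := LinearMap.congr_fun hφ (KaehlerDifferential.D k V ϖ)
    have h3 := LinearMap.congr_fun hl c
    simp only [LinearMap.comp_apply, LinearMap.id_apply] at h2 h3
    rw [show p (φ (KaehlerDifferential.D k V ϖ)) = φ (KaehlerDifferential.D k V ϖ) • c from rfl] at h2
    rw [h2]
    exact h3
  by_contra hcon
  have h4 : (φ (KaehlerDifferential.D k V ϖ)) • c = 0 := by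
    have h5 : φ (KaehlerDifferential.D k V ϖ) ∈ maximalIdeal V := hcon
    rw [hm, Ideal.mem_span_singleton] at h5
    obtain ⟨w, hw⟩ := h5
    rw [hw, ← map_smul, Ideal.toCotangent_eq_zero, pow_two]
    simp only [SetLike.val_smul, smul_eq_mul]
    rw [mul_right_comm]
    exact Ideal.mul_mem_right _ _ (Ideal.mul_mem_mul hϖk hϖk)
  rw [h4] at h1
  have h6 := (Ideal.toCotangent_eq_zero _ _).mp h1.symm
  simp only [hker, hm] at h6
  rw [pow_two, Ideal.span_singleton_mul_span_singleton, Ideal.mem_span_singleton] at h6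
  obtain ⟨w, hw⟩ := h6
  have h7 : ϖ * w = 1 := by
    have h8 : ϖ * (ϖ * w - 1) = 0 := by rw [mul_sub, ← mul_assoc, ← hw]; ring
    rcases mul_eq_zero.mp h8 with h | h
    · exact absurd h hϖ.ne_zero
    · exact sub_eq_zero.mp h
  exact hϖ.not_isUnit (IsUnit.of_mul_eq_one _ h7)

end Vale.Agent.P266.FirstIntegral
end

section

open IsLocalRing TensorProduct Polynomial

namespace Vale.Agent.P266.FirstIntegral

section Transfer

variable {k R : Type*} [Field k] [CommRing R] [Algebra k R]

theorem exists_derivation_of_linearMap [Algebra.EssFiniteType k R] (Q : Ideal R) [Q.IsPrime]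
    (V : Type*) [CommRing V] [Algebra R V] [Algebra k V] [IsScalarTower k R V]
    [IsLocalization.AtPrime V Q] (ψ : Ω[V⁄k] →ₗ[V] V) :
    ∃ (D : Derivation k R R) (s : R), s ∉ Q ∧ ∀ a, algebraMap R V (D a) =
      algebraMap R V s * ψ (KaehlerDifferential.D k V (algebraMap R V a)) := by
  have _ : IsNoetherianRing R := Algebra.EssFiniteType.isNoetherianRing k R
  have _ : Module.FinitePresentation R Ω[R⁄k] := Module.finitePresentation_of_finite R _
  let g : Ω[R⁄k] →ₗ[R] V := (ψ.restrictScalars R) ∘ₗ KaehlerDifferential.map k k R V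
  obtain ⟨h, s, hs⟩ := Module.FinitePresentation.exists_lift_of_isLocalizedModule Q.primeCompl
    (Algebra.linearMap R V) g
  refine ⟨h.compDer (KaehlerDifferential.D k R), s, s.2, fun a ↦ ?_⟩
  have := LinearMap.congr_fun hs (KaehlerDifferential.D k R a)
  simpa [g, Submonoid.smul_def, Algebra.smul_def] using this

theorem exists_derivation_extension (M : Submonoid R)
    (V : Type*) [CommRing V] [Algebra R V] [Algebra k V] [IsScalarTower k R V]
    [IsLocalization M V] (D : Derivation k R R) :
    ∃ D' : Derivation k V V, ∀ a, D' (algebraMap R V a) = algebraMap R V (D a) := by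
  have _ : IsLocalizedModule M (KaehlerDifferential.map k k R V) :=
    KaehlerDifferential.isLocalizedModule_map k R V M
  let g : Ω[R⁄k] →ₗ[R] V := (Algebra.linearMap R V) ∘ₗ D.liftKaehlerDifferential
  let h : Ω[V⁄k] →ₗ[R] V := IsLocalizedModule.lift M (KaehlerDifferential.map k k R V) g
    (fun x ↦ by
      rw [Module.End.isUnit_iff]
      exact (IsLocalizedModule.map_units (Algebra.linearMap R V) x |> (Module.End.isUnit_iff _).mp))
  let h' : Ω[V⁄k] →ₗ[V] V := h.extendScalarsOfIsLocalization M V
  refine ⟨h'.compDer (KaehlerDifferential.D k V), fun a ↦ ?_⟩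
  have h1 : h (KaehlerDifferential.map k k R V (KaehlerDifferential.D k R a)) =
      g (KaehlerDifferential.D k R a) :=
    IsLocalizedModule.lift_apply M (KaehlerDifferential.map k k R V) g _ _
  rw [KaehlerDifferential.map_D] at h1
  simpa [h', g] using h1

end Transfer

end Vale.Agent.P266.FirstIntegral
end

section

open IsLocalRing Polynomial

namespace Vale.Agent.P266.FirstIntegral

section A

variable {k R : Type*} [Field k] [CharZero k] [CommRing R] [Algebra k R]
  [Algebra.EssFiniteType k R]

theorem exists_derivation_valuation (Q : Ideal R) [Q.IsPrime]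
    (V : Type*) [CommRing V] [IsDomain V] [IsDiscreteValuationRing V] [Algebra R V] [Algebra k V]
    [IsScalarTower k R V] [IsLocalization.AtPrime V Q]
    {ϖ : V} (hϖ : Irreducible ϖ) (n : ℕ) (u : Vˣ) (f : R)
    (hf : algebraMap R V f = u * ϖ ^ (n + 1)) :
    ∃ (D : Derivation k R R) (w : Vˣ), algebraMap R V (D f) = w * ϖ ^ n := by
  have _ : Algebra.EssFiniteType R V := Algebra.EssFiniteType.of_isLocalization V Q.primeCompl
  have _ : Algebra.EssFiniteType k V := Algebra.EssFiniteType.comp k R V
  obtain ⟨φ, hφ⟩ := exists_linearMap_uniformizer k V hϖ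
  obtain ⟨D, s, hs, hD⟩ := exists_derivation_of_linearMap Q V φ
  have hsu : IsUnit (algebraMap R V s) := IsLocalization.map_units V (⟨s, hs⟩ : Q.primeCompl)
  have hm : maximalIdeal V = Ideal.span {ϖ} := hϖ.maximalIdeal_eq
  -- the unit
  have hn : IsUnit ((n + 1 : ℕ) : V) := by
    have : ((n + 1 : ℕ) : V) = algebraMap k V ((n + 1 : ℕ) : k) := by simp
    rw [this]
    exact (IsUnit.mk0 _ (Nat.cast_ne_zero.mpr (Nat.succ_ne_zero n))).map _
  have hunit : IsUnit (((n + 1 : ℕ) : V) * (u * φ (KaehlerDifferential.D k V ϖ)) +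
      ϖ * φ (KaehlerDifferential.D k V (u : V))) := by
    by_contra hcon
    have h1 : ((n + 1 : ℕ) : V) * (u * φ (KaehlerDifferential.D k V ϖ)) +
      ϖ * φ (KaehlerDifferential.D k V (u : V)) ∈ maximalIdeal V := hcon
    have h2 : ϖ * φ (KaehlerDifferential.D k V (u : V)) ∈ maximalIdeal V := by
      rw [hm]; exact Ideal.mul_mem_right _ _ (Ideal.mem_span_singleton_self _)
    have h3 := (Ideal.add_mem_iff_left _ h2).mp h1
    exact h3 (hn.mul (u.isUnit.mul hφ))
  refine ⟨D, (hsu.mul hunit).unit, ?_⟩
  rw [hD, hf, Derivation.leibniz, Derivation.leibniz_pow]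
  simp only [map_add, map_smul, smul_eq_mul, IsUnit.unit_spec, Nat.add_sub_cancel, map_nsmul,
    nsmul_eq_mul]
  ring

theorem isAlgebraic_of_forall_derivation_mem (Q : Ideal R) [Q.IsPrime]
    (V : Type*) [CommRing V] [IsDomain V] [IsDiscreteValuationRing V] [Algebra R V] [Algebra k V]
    [IsScalarTower k R V] [IsLocalization.AtPrime V Q] {f : R}
    (hf : ∀ D : Derivation k R R, D f ∈ Q) : IsAlgebraic k (residue V (algebraMap R V f)) := by
  have _ : Algebra.EssFiniteType R V := Algebra.EssFiniteType.of_isLocalization V Q.primeCompl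
  have _ : Algebra.EssFiniteType k V := Algebra.EssFiniteType.comp k R V
  have _ : Algebra.FormallySmooth k V := formallySmooth_of_dvr k V
  by_contra hcon
  obtain ⟨φ, hφ, -⟩ := exists_linearMap_transcendental k V (x := algebraMap R V f) hcon
  obtain ⟨D, s, hs, hD⟩ := exists_derivation_of_linearMap Q V φ
  have hsu : IsUnit (algebraMap R V s) := IsLocalization.map_units V (⟨s, hs⟩ : Q.primeCompl)
  have h1 : IsUnit (algebraMap R V (D f)) := by rw [hD]; exact hsu.mul hφ
  exact (IsLocalization.AtPrime.isUnit_to_map_iff V Q (D f)).mp h1 (hf D)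

omit [CharZero k] [Algebra.EssFiniteType k R] in
theorem not_isAlgebraic_of_mem_maximalIdeal [IsLocalRing R] (Q : Ideal R) [Q.IsPrime]
    (V : Type*) [CommRing V] [IsDomain V] [IsLocalRing V] [Algebra R V] [Algebra k V]
    [IsScalarTower k R V] [IsLocalization.AtPrime V Q] {f : R}
    (hf : f ∈ maximalIdeal R) (hfQ : f ∉ Q) : ¬ IsAlgebraic k (residue V (algebraMap R V f)) := by
  rintro ⟨p, hp0, hp⟩
  obtain ⟨q, hpq, hq⟩ :=
    (FiniteMultiplicity.of_prime_left (prime_X (R := k)) hp0).exists_eq_pow_mul_and_not_dvd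
  have hmem : ∀ r : R, residue V (algebraMap R V r) = 0 ↔ r ∈ Q := by
    intro r
    rw [residue_eq_zero_iff, IsLocalization.AtPrime.to_map_mem_maximal_iff V Q r]
  have hfr : residue V (algebraMap R V f) ≠ 0 := by
    rw [Ne, hmem]; exact hfQ
  rw [hpq, map_mul, map_pow, aeval_X, mul_eq_zero] at hp
  rcases hp with hp | hp
  · exact hfr (eq_zero_of_pow_eq_zero hp)
  · have h1 : aeval (residue V (algebraMap R V f)) q = residue V (algebraMap R V (aeval f q)) := by
      have : residue V (algebraMap R V f) = algebraMap R (ResidueField V) f := by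
        rw [IsScalarTower.algebraMap_apply R V (ResidueField V)]; rfl
      rw [this, aeval_algebraMap_apply, IsScalarTower.algebraMap_apply R V (ResidueField V)]; rfl
    rw [h1, hmem] at hp
    have h2 : aeval f q ∈ maximalIdeal R := IsLocalRing.le_maximalIdeal (Ideal.IsPrime.ne_top inferInstance) hp
    rw [X_dvd_iff] at hq
    have h3 : aeval f q - algebraMap k R (q.coeff 0) ∈ maximalIdeal R := by
      have h2 : X ∣ q - C (q.coeff 0) := by simp [X_dvd_iff]
      obtain ⟨r, hr⟩ := h2
      have h4 : aeval f q - algebraMap k R (q.coeff 0) = f * aeval f r := by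
        have := congrArg (aeval f) hr
        simpa using this
      rw [h4]
      exact Ideal.mul_mem_right _ _ hf
    have h4 : algebraMap k R (q.coeff 0) ∈ maximalIdeal R := by
      have := Ideal.sub_mem _ h2 h3
      simpa using this
    exact h4 ((IsUnit.mk0 _ hq).map (algebraMap k R))

end A

end Vale.Agent.P266.FirstIntegral
end

section

open IsLocalRing Polynomial

namespace Vale.Agent.P266.FirstIntegral

theorem not_mem_of_not_mem {k R : Type*} [Field k] [CharZero k] [CommRing R] [IsDomain R]
    [IsLocalRing R] [IsIntegrallyClosed R] [Algebra k R] [Algebra.EssFiniteType k R]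
    (D₀ : Derivation k R R) {f : R} (hf : f ∈ maximalIdeal R)
    (H : ∀ D : Derivation k R R, D₀ f ∣ D f) (Q : Ideal R) [Q.IsPrime] (hQ : Q.height = 1)
    (hfQ : f ∉ Q) : D₀ f ∉ Q := by
  have _ : IsNoetherianRing R := Algebra.EssFiniteType.isNoetherianRing k R
  have _ : IsDiscreteValuationRing (Localization.AtPrime Q) := isDVR_of_height_eq_one Q hQ _
  intro hD
  have h1 : ∀ D : Derivation k R R, D f ∈ Q := fun D ↦ Ideal.mem_of_dvd _ (H D) hD
  exact not_isAlgebraic_of_mem_maximalIdeal Q (Localization.AtPrime Q) hf hfQ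
    (isAlgebraic_of_forall_derivation_mem Q (Localization.AtPrime Q) h1)

theorem valuation_derivation {k R : Type*} [Field k] [CharZero k] [CommRing R] [IsDomain R]
    [Algebra k R] [Algebra.EssFiniteType k R]
    (D₀ : Derivation k R R) {f : R} (hf0 : f ≠ 0)
    (H : ∀ D : Derivation k R R, D₀ f ∣ D f) (Q : Ideal R) [Q.IsPrime] (hfQ : f ∈ Q)
    (V : Type*) [CommRing V] [IsDomain V] [IsDiscreteValuationRing V] [Algebra R V] [Algebra k V]
    [IsScalarTower k R V] [IsLocalization.AtPrime V Q]
    {ϖ : V} (hϖ : Irreducible ϖ) : ∃ (n : ℕ) (u w : Vˣ),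
        algebraMap R V f = u * ϖ ^ (n + 1) ∧ algebraMap R V (D₀ f) = w * ϖ ^ n := by
  have hinj : Function.Injective (algebraMap R V) :=
    IsLocalization.injective V Q.primeCompl_le_nonZeroDivisors
  have hfV : algebraMap R V f ≠ 0 := by
    rw [Ne, map_eq_zero_iff _ hinj]; exact hf0
  obtain ⟨m, u, hu⟩ := IsDiscreteValuationRing.eq_unit_mul_pow_irreducible hfV hϖ
  have hm : m ≠ 0 := by
    rintro rfl
    rw [pow_zero, mul_one] at hu
    have : IsUnit (algebraMap R V f) := hu ▸ u.isUnit
    exact (IsLocalization.AtPrime.isUnit_to_map_iff V Q f).mp this hfQ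
  obtain ⟨n, rfl⟩ := Nat.exists_eq_succ_of_ne_zero hm
  obtain ⟨D, w', hw'⟩ := exists_derivation_valuation (k := k) Q V hϖ n u f hu
  obtain ⟨D₁, hD₁⟩ := exists_derivation_extension Q.primeCompl V D₀
  -- ϖ ^ n divides D₀ f
  have h1 : ϖ ^ n ∣ algebraMap R V (D₀ f) := by
    rw [← hD₁, hu, Derivation.leibniz, Derivation.leibniz_pow]
    simp only [smul_eq_mul, Nat.succ_eq_add_one, Nat.add_sub_cancel, nsmul_eq_mul]
    refine dvd_add ?_ ?_
    · exact Dvd.intro (u * (((n + 1 : ℕ) : V) * D₁ ϖ)) (by ring)
    · exact Dvd.intro (ϖ * D₁ (u : V)) (by ring)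
  have h2 : algebraMap R V (D₀ f) ∣ ϖ ^ n := by
    have : algebraMap R V (D₀ f) ∣ algebraMap R V (D f) := map_dvd (algebraMap R V) (H D)
    rw [hw'] at this
    exact (Units.dvd_mul_left).mp this
  obtain ⟨w, hw⟩ := associated_of_dvd_dvd h1 h2
  exact ⟨n, u, w, hu, by rw [← hw, mul_comm]⟩

theorem core {k R : Type*} [Field k] [CharZero k] [CommRing R] [IsDomain R]
    [IsLocalRing R] [IsIntegrallyClosed R] [Algebra k R] [Algebra.EssFiniteType k R]
    (D₀ : Derivation k R R) {f : R} (hf : f ∈ maximalIdeal R) (hf0 : f ≠ 0)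
    (H : ∀ D : Derivation k R R, D₀ f ∣ D f) : ∃ g ∈ maximalIdeal R, IsUnit (D₀ g) := by
  have _ : IsNoetherianRing R := Algebra.EssFiniteType.isNoetherianRing k R
  -- a height one prime containing f
  obtain ⟨Q, hQmin, -⟩ : ∃ Q ∈ (Ideal.span {f}).minimalPrimes, Q ≤ maximalIdeal R := by
    exact Ideal.exists_minimalPrimes_le ((Ideal.span_singleton_le_iff_mem _).mpr hf)
  have _ : Q.IsPrime := hQmin.1.1
  have hfQ : f ∈ Q := (Ideal.span_singleton_le_iff_mem _).mp hQmin.1.2
  have hQ : Q.height = 1 := by
    refine le_antisymm (Ideal.height_le_one_of_isPrincipal_of_mem_minimalPrimes _ _ hQmin) ?_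
    rw [Order.one_le_iff_ne_zero, Ne, Ideal.height_eq_zero_iff_eq_bot]
    rintro rfl
    exact hf0 hfQ
  let V := Localization.AtPrime Q
  have _ : IsDiscreteValuationRing V := isDVR_of_height_eq_one Q hQ _
  obtain ⟨ϖ, hϖ⟩ := IsDiscreteValuationRing.exists_irreducible V
  have hinj : Function.Injective (algebraMap R V) :=
    IsLocalization.injective V Q.primeCompl_le_nonZeroDivisors
  obtain ⟨n, u, w, hu, hw⟩ := valuation_derivation D₀ hf0 H Q hfQ V hϖ
  have hh0 : D₀ f ≠ 0 := by
    intro h0
    rw [h0, map_zero] at hw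
    exact (mul_ne_zero w.ne_zero (pow_ne_zero _ hϖ.ne_zero)) hw.symm
  -- D₀ f divides f
  have hdvd : D₀ f ∣ f := by
    refine dvd_of_forall_height_one hh0 fun P hP hPh ↦ ?_
    by_cases hfP : f ∈ P
    · have _ : IsDiscreteValuationRing (Localization.AtPrime P) := isDVR_of_height_eq_one P hPh _
      obtain ⟨ϖ', hϖ'⟩ := IsDiscreteValuationRing.exists_irreducible (Localization.AtPrime P)
      obtain ⟨n', u', w', hu', hw'⟩ :=
        valuation_derivation D₀ hf0 H P hfP (Localization.AtPrime P) hϖ'
      have h1 : algebraMap R (Localization.AtPrime P) (D₀ f) ∣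
          algebraMap R (Localization.AtPrime P) f := by
        rw [hu', hw', pow_succ]
        exact ⟨(w'⁻¹ : (Localization.AtPrime P)ˣ) * u' * ϖ', by
          calc (u' : Localization.AtPrime P) * (ϖ' ^ n' * ϖ')
              = (w' * (w'⁻¹ : (Localization.AtPrime P)ˣ)) * (u' * (ϖ' ^ n' * ϖ')) := by
                rw [Units.mul_inv, one_mul]
            _ = _ := by ring⟩
      obtain ⟨x, hx⟩ := h1
      obtain ⟨a, s, rfl⟩ := IsLocalization.exists_mk'_eq P.primeCompl x
      refine ⟨s, s.2, a, ?_⟩
      have hinj' : Function.Injective (algebraMap R (Localization.AtPrime P)) :=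
        IsLocalization.injective _ P.primeCompl_le_nonZeroDivisors
      apply hinj'
      rw [map_mul, map_mul, hx, mul_comm, mul_assoc, IsLocalization.mk'_spec]
    · exact ⟨D₀ f, not_mem_of_not_mem D₀ hf H P hPh hfP, dvd_mul_right _ _⟩
  obtain ⟨g, hg⟩ := hdvd
  -- g has valuation one at Q
  have hgV : algebraMap R V g = (w⁻¹ : Vˣ) * u * ϖ := by
    have h1 : algebraMap R V (D₀ f) * algebraMap R V g = u * ϖ ^ (n + 1) := by
      rw [← map_mul, ← hg, hu]
    have h2 : ((w : V) * ϖ ^ n) * algebraMap R V g = ((w : V) * ϖ ^ n) * ((w⁻¹ : Vˣ) * u * ϖ) := by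
      rw [← hw, h1, hw]
      calc (u : V) * ϖ ^ (n + 1) = ((w : V) * (w⁻¹ : Vˣ)) * (u * ϖ ^ (n + 1)) := by
            rw [Units.mul_inv, one_mul]
        _ = _ := by ring
    exact mul_left_cancel₀ (mul_ne_zero w.ne_zero (pow_ne_zero _ hϖ.ne_zero)) h2
  have hgirr : Irreducible (algebraMap R V g) := by
    rw [hgV]
    have : (((w⁻¹ : Vˣ) : V) * (u : V)) * ϖ = ((w⁻¹ * u : Vˣ) : V) * ϖ := by push_cast; ring
    rw [this]
    exact (irreducible_units_mul _).mpr hϖ
  have hgm : g ∈ maximalIdeal R := by
    by_contra hcon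
    have : IsUnit g := by
      by_contra h; exact hcon h
    exact hgirr.not_isUnit (this.map _)
  refine ⟨g, hgm, ?_⟩
  -- rewrite everything in terms of g
  obtain ⟨n', u', w', hu', hw'⟩ := valuation_derivation D₀ hf0 H Q hfQ V hgirr
  obtain ⟨D₁, hD₁⟩ := exists_derivation_extension Q.primeCompl V D₀
  have h1 : D₁ (algebraMap R V f) = w' * (algebraMap R V g) ^ n' := by rw [hD₁, hw']
  have h3 : (w' : V) = u' := by
    have h4 : algebraMap R V f = algebraMap R V (D₀ f) * algebraMap R V g := by
      rw [← map_mul, ← hg]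
    rw [hu', hw', pow_succ, ← mul_assoc, ] at h4
    exact (mul_right_cancel₀ (pow_ne_zero n' hgirr.ne_zero)
      (mul_right_cancel₀ hgirr.ne_zero h4)).symm
  rw [hu', Derivation.leibniz, Derivation.leibniz_pow] at h1
  simp only [smul_eq_mul, Nat.add_sub_cancel, nsmul_eq_mul] at h1
  rw [hD₁, h3] at h1
  have h5 : (u' : V) * ((((n' + 1 : ℕ) : V)) * algebraMap R V (D₀ g) - 1) =
      - algebraMap R V g * D₁ (u' : V) := by
    have h6 : (algebraMap R V g) ^ n' * ((u' : V) * ((((n' + 1 : ℕ) : V)) * algebraMap R V (D₀ g) - 1)) =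
      (algebraMap R V g) ^ n' * (- algebraMap R V g * D₁ (u' : V)) := by
      linear_combination h1
    exact mul_left_cancel₀ (pow_ne_zero n' hgirr.ne_zero) h6
  have h7 : ((n' + 1 : ℕ) : R) * D₀ g - 1 ∈ Q := by
    by_contra hcon
    have h8 : IsUnit (algebraMap R V (((n' + 1 : ℕ) : R) * D₀ g - 1)) :=
      (IsLocalization.AtPrime.isUnit_to_map_iff V Q _).mpr hcon
    have h9 : IsUnit (- algebraMap R V g * D₁ (u' : V)) := by
      rw [← h5]
      refine u'.isUnit.mul ?_
      simpa using h8
    have h10 : IsUnit (algebraMap R V g) := by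
      have := isUnit_of_mul_isUnit_left h9
      simpa using this
    exact hgirr.not_isUnit h10
  by_contra hcon
  have h8 : D₀ g ∈ maximalIdeal R := hcon
  have h9 : ((n' + 1 : ℕ) : R) * D₀ g - 1 ∈ maximalIdeal R :=
    IsLocalRing.le_maximalIdeal (Ideal.IsPrime.ne_top inferInstance) h7
  have h10 := Ideal.sub_mem _ (Ideal.mul_mem_left _ ((n' + 1 : ℕ) : R) h8) h9
  rw [sub_sub_cancel] at h10
  exact h10 isUnit_one

end Vale.Agent.P266.FirstIntegral
end

section

namespace Vale.Agent.P266.FirstIntegral

/-- The additive group `M × M`, with the scalar multiplication of `R` twisted by a derivation. -/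
def Tw {k R : Type*} [CommRing k] [CommRing R] [Algebra k R] (_D : Derivation k R R)
    (M : Type*) := M × M

namespace Tw

variable {k R : Type*} [CommRing k] [CommRing R] [Algebra k R] (D : Derivation k R R)
  (M : Type*) [AddCommGroup M] [Module R M]

instance : AddCommGroup (Tw D M) := inferInstanceAs (AddCommGroup (M × M))

variable {D M}

def mk (a b : M) : Tw D M := (a, b)
def fst (p : Tw D M) : M := Prod.fst p
def snd (p : Tw D M) : M := Prod.snd p

omit [Module R M] in
@[ext] theorem ext {p q : Tw D M} (h1 : p.fst = q.fst) (h2 : p.snd = q.snd) : p = q :=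
  Prod.ext h1 h2

omit [Module R M] in
@[simp] theorem fst_mk (a b : M) : (mk a b : Tw D M).fst = a := rfl
omit [Module R M] in
@[simp] theorem snd_mk (a b : M) : (mk a b : Tw D M).snd = b := rfl
omit [Module R M] in
@[simp] theorem fst_add (p q : Tw D M) : (p + q).fst = p.fst + q.fst := rfl
omit [Module R M] in
@[simp] theorem snd_add (p q : Tw D M) : (p + q).snd = p.snd + q.snd := rfl
omit [Module R M] in
@[simp] theorem fst_zero : (0 : Tw D M).fst = 0 := rfl
omit [Module R M] in
@[simp] theorem snd_zero : (0 : Tw D M).snd = 0 := rfl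

instance : SMul R (Tw D M) := ⟨fun r p ↦ mk (r • p.fst) (r • p.snd + D r • p.fst)⟩

@[simp] theorem fst_smul (r : R) (p : Tw D M) : (r • p).fst = r • p.fst := rfl
@[simp] theorem snd_smul (r : R) (p : Tw D M) : (r • p).snd = r • p.snd + D r • p.fst := rfl

instance : Module R (Tw D M) where
  one_smul p := by ext <;> simp
  mul_smul r s p := by
    ext
    · simp [mul_smul]
    · simp only [snd_smul, fst_smul, Derivation.leibniz, add_smul, mul_smul, smul_add, smul_eq_mul]
      rw [smul_comm s (D r)]
      abel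
  smul_zero r := by ext <;> simp
  smul_add r p q := by
    ext
    · simp
    · simp only [snd_smul, fst_smul, snd_add, fst_add, smul_add]; abel
  add_smul r s p := by
    ext
    · simp [add_smul]
    · simp only [snd_smul, snd_add, map_add, add_smul]; abel
  zero_smul p := by ext <;> simp

instance : Module k (Tw D M) := Module.compHom (Tw D M) (algebraMap k R)

instance : IsScalarTower k R (Tw D M) where
  smul_assoc c r p := by
    change (c • r) • p = (algebraMap k R c) • (r • p)
    rw [Algebra.smul_def, mul_smul]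

end Tw

variable {k R : Type*} [CommRing k] [CommRing R] [Algebra k R]

/-- The derivation `z ↦ (dz, d(D z))` into the twisted module. -/
noncomputable def twDer (D : Derivation k R R) : Derivation k R (Tw D Ω[R⁄k]) where
  toFun z := Tw.mk (KaehlerDifferential.D k R z) (KaehlerDifferential.D k R (D z))
  map_add' x y := by ext <;> simp
  map_smul' c x := by
    change (Tw.mk (KaehlerDifferential.D k R (c • x)) (KaehlerDifferential.D k R (D (c • x))) :
      Tw D Ω[R⁄k]) = (algebraMap k R c) •
        (Tw.mk (KaehlerDifferential.D k R x) (KaehlerDifferential.D k R (D x)) : Tw D Ω[R⁄k])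
    ext
    · rw [Tw.fst_smul, Tw.fst_mk, Tw.fst_mk, algebraMap_smul, Derivation.map_smul]
    · rw [Tw.snd_smul, Tw.snd_mk, Tw.snd_mk, Tw.fst_mk, Derivation.map_algebraMap, zero_smul,
        add_zero, algebraMap_smul, Derivation.map_smul, Derivation.map_smul]
  map_one_eq_zero' := by
    ext
    · exact (KaehlerDifferential.D k R).map_one_eq_zero
    · change KaehlerDifferential.D k R (D 1) = 0
      rw [D.map_one_eq_zero, map_zero]
  leibniz' x y := by
    ext
    · exact (KaehlerDifferential.D k R).leibniz x y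
    · change KaehlerDifferential.D k R (D (x * y)) =
        (x • KaehlerDifferential.D k R (D y) + D x • KaehlerDifferential.D k R y) +
          (y • KaehlerDifferential.D k R (D x) + D y • KaehlerDifferential.D k R x)
      simp only [Derivation.leibniz, map_add, smul_eq_mul]
      abel

/-- The Lie derivative on differentials exists. -/
theorem exists_lieDerivative (D : Derivation k R R) :
    ∃ L : Ω[R⁄k] →+ Ω[R⁄k], ∀ (r : R) (ω : Ω[R⁄k]), L (r • ω) = r • L ω + D r • ω := by
  let F : Ω[R⁄k] →ₗ[R] Tw D Ω[R⁄k] := (twDer D).liftKaehlerDifferential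
  have hF : ∀ ω, (F ω).fst = ω := by
    intro ω
    have : ω ∈ Submodule.span R (Set.range (KaehlerDifferential.D k R)) := by
      rw [KaehlerDifferential.span_range_derivation]; trivial
    induction this using Submodule.span_induction with
    | mem x h =>
      obtain ⟨z, rfl⟩ := h
      have : F (KaehlerDifferential.D k R z) = twDer D z := Derivation.liftKaehlerDifferential_comp_D _ _
      rw [this]; rfl
    | zero => simp
    | add x y _ _ hx hy => simp [hx, hy]
    | smul a x _ hx => simp [hx]
  refine ⟨⟨⟨fun ω ↦ (F ω).snd, by simp⟩, by simp⟩, fun r ω ↦ ?_⟩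
  change (F (r • ω)).snd = r • (F ω).snd + D r • ω
  rw [map_smul, Tw.snd_smul, hF]

end Vale.Agent.P266.FirstIntegral
end

section

open IsLocalRing TensorProduct Polynomial

namespace Vale.Agent.P266.FirstIntegral

section Lin

variable {k R : Type*} [Field k] [CommRing R] [Algebra k R]

theorem exists_linearMap_transfer [Algebra.EssFiniteType k R] (Q : Ideal R) [Q.IsPrime]
    (V : Type*) [CommRing V] [Algebra R V] [Algebra k V] [IsScalarTower k R V]
    [IsLocalization.AtPrime V Q] (ψ : Ω[V⁄k] →ₗ[V] V) :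
    ∃ (h : Ω[R⁄k] →ₗ[R] R) (s : R), s ∉ Q ∧ ∀ ω, algebraMap R V (h ω) =
      algebraMap R V s * ψ (KaehlerDifferential.map k k R V ω) := by
  have _ : IsNoetherianRing R := Algebra.EssFiniteType.isNoetherianRing k R
  have _ : Module.FinitePresentation R Ω[R⁄k] := Module.finitePresentation_of_finite R _
  let g : Ω[R⁄k] →ₗ[R] V := (ψ.restrictScalars R) ∘ₗ KaehlerDifferential.map k k R V
  obtain ⟨h, s, hs⟩ := Module.FinitePresentation.exists_lift_of_isLocalizedModule Q.primeCompl
    (Algebra.linearMap R V) g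
  refine ⟨h, s, s.2, fun ω ↦ ?_⟩
  have := LinearMap.congr_fun hs ω
  simpa [g, Submonoid.smul_def, Algebra.smul_def] using this

/-- The submodule of differentials killed by all linear functionals. -/
def dualKer (k R : Type*) [Field k] [CommRing R] [Algebra k R] : Submodule R Ω[R⁄k] where
  carrier := {ω | ∀ φ : Ω[R⁄k] →ₗ[R] R, φ ω = 0}
  add_mem' ha hb φ := by rw [map_add, ha φ, hb φ, add_zero]
  zero_mem' φ := map_zero φ
  smul_mem' r ω h φ := by rw [map_smul, h φ, smul_zero]

theorem mem_dualKer {ω : Ω[R⁄k]} : ω ∈ dualKer k R ↔ ∀ φ : Ω[R⁄k] →ₗ[R] R, φ ω = 0 := Iff.rfl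

theorem exists_smul_eq_zero_of_mem_dualKer [CharZero k] [Algebra.EssFiniteType k R] (Q : Ideal R) [Q.IsPrime]
    (V : Type*) [CommRing V] [IsDomain V] [IsDiscreteValuationRing V] [Algebra R V] [Algebra k V]
    [IsScalarTower k R V] [IsLocalization.AtPrime V Q] [FaithfulSMul R V] {ω : Ω[R⁄k]}
    (hω : ω ∈ dualKer k R) : ∃ s, s ∉ Q ∧ s • ω = 0 := by
  have _ : Algebra.EssFiniteType R V := Algebra.EssFiniteType.of_isLocalization V Q.primeCompl
  have _ : Algebra.EssFiniteType k V := Algebra.EssFiniteType.comp k R V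
  have _ : Algebra.FormallySmooth k V := formallySmooth_of_dvr k V
  have h1 : KaehlerDifferential.map k k R V ω = 0 := by
    rw [← Module.forall_dual_apply_eq_zero_iff V]
    intro φ
    obtain ⟨h, s, hs, hh⟩ := exists_linearMap_transfer Q V φ
    have h2 := hh ω
    rw [hω h, map_zero] at h2
    have hsu : IsUnit (algebraMap R V s) := IsLocalization.map_units V (⟨s, hs⟩ : Q.primeCompl)
    exact (hsu.mul_right_eq_zero).mp h2.symm
  have _ : IsLocalizedModule Q.primeCompl (KaehlerDifferential.map k k R V) :=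
    KaehlerDifferential.isLocalizedModule_map k R V Q.primeCompl
  obtain ⟨s, hs⟩ := (IsLocalizedModule.eq_zero_iff Q.primeCompl
    (KaehlerDifferential.map k k R V)).mp h1
  exact ⟨s, s.2, hs⟩

/-- The Lie derivative preserves the submodule. -/
theorem lie_mem_dualKer (D : Derivation k R R) (L : Ω[R⁄k] →+ Ω[R⁄k])
    (hL : ∀ (r : R) (ω : Ω[R⁄k]), L (r • ω) = r • L ω + D r • ω) {ω : Ω[R⁄k]}
    (hω : ω ∈ dualKer k R) : L ω ∈ dualKer k R := by
  intro φ
  let ψ : Ω[R⁄k] →ₗ[R] R :=
    { toFun := fun η ↦ D (φ η) - φ (L η)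
      map_add' := fun a b ↦ by simp only [map_add]; ring
      map_smul' := fun r η ↦ by
        simp only [map_smul, smul_eq_mul, Derivation.leibniz, hL, map_add, RingHom.id_apply]
        ring }
  have h1 : D (φ ω) - φ (L ω) = 0 := hω ψ
  rw [hω φ, map_zero, zero_sub, neg_eq_zero] at h1
  exact h1

theorem dualKer_eq_bot_of_pow [CharZero k] (D : Derivation k R R) {t : R} (ht : IsUnit (D t)) :
    ∀ n : ℕ, (∀ ω ∈ dualKer k R, t ^ n • ω = 0) → dualKer k R = ⊥ := by
  obtain ⟨L, hL⟩ := exists_lieDerivative D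
  intro n
  induction n with
  | zero =>
    intro h
    rw [eq_bot_iff]
    intro ω hω
    have := h ω hω
    rwa [pow_zero, one_smul] at this
  | succ n ih =>
    intro h
    refine ih fun ω hω ↦ ?_
    have h1 := hL (t ^ (n + 1)) ω
    rw [h ω hω, map_zero, h (L ω) (lie_mem_dualKer D L hL hω), zero_add, Derivation.leibniz_pow,
      Nat.add_sub_cancel] at h1
    have hn : IsUnit ((n + 1 : ℕ) : R) := by
      have : ((n + 1 : ℕ) : R) = algebraMap k R ((n + 1 : ℕ) : k) := by simp
      rw [this]
      exact (IsUnit.mk0 _ (Nat.cast_ne_zero.mpr (Nat.succ_ne_zero n))).map _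
    have h2 : (((n + 1 : ℕ) : R) * D t) • (t ^ n • ω) = 0 := by
      rw [h1, smul_smul]
      congr 1
      simp only [smul_eq_mul, nsmul_eq_mul]
      ring
    exact ((hn.mul ht).smul_eq_zero).mp h2

end Lin

end Vale.Agent.P266.FirstIntegral
end

section

open IsLocalRing TensorProduct Polynomial

namespace Vale.Agent.P266.FirstIntegral

section Primes

variable {R : Type*} [CommRing R] [IsDomain R] [IsLocalRing R] [IsNoetherianRing R]

theorem exists_height_one_ge (hdim : ringKrullDim R = 2) (P : Ideal R) [P.IsPrime]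
    (hP : P ≠ maximalIdeal R) : ∃ Q : Ideal R, Q.IsPrime ∧ Q.height = 1 ∧ P ≤ Q ∧
      Q ≠ maximalIdeal R := by
  have hm : (maximalIdeal R).height = 2 := by
    have := IsLocalRing.maximalIdeal_height_eq_ringKrullDim (R := R)
    rw [hdim] at this
    exact WithBot.coe_injective this
  have hne : ∀ Q : Ideal R, Q.height = 1 → Q ≠ maximalIdeal R := by
    rintro Q h rfl
    rw [hm] at h
    exact absurd h (by norm_num)
  by_cases hP0 : P = ⊥
  · have hm0 : maximalIdeal R ≠ ⊥ := by
      intro h
      rw [h, Ideal.height_bot] at hm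
      exact absurd hm (by norm_num)
    obtain ⟨t, htm, ht0⟩ := Submodule.exists_mem_ne_zero_of_ne_bot hm0
    obtain ⟨Q, hQmin, -⟩ : ∃ Q ∈ (Ideal.span {t}).minimalPrimes, Q ≤ maximalIdeal R :=
      Ideal.exists_minimalPrimes_le ((Ideal.span_singleton_le_iff_mem _).mpr htm)
    have _ : Q.IsPrime := hQmin.1.1
    have hfQ : t ∈ Q := (Ideal.span_singleton_le_iff_mem _).mp hQmin.1.2
    have hQ : Q.height = 1 := by
      refine le_antisymm (Ideal.height_le_one_of_isPrincipal_of_mem_minimalPrimes _ _ hQmin) ?_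
      rw [Order.one_le_iff_ne_zero, Ne, Ideal.height_eq_zero_iff_eq_bot]
      rintro rfl
      exact ht0 hfQ
    exact ⟨Q, inferInstance, hQ, hP0 ▸ bot_le, hne Q hQ⟩
  · have h1 : P.height ≠ 0 := by
      rw [Ne, Ideal.height_eq_zero_iff_eq_bot]; exact hP0
    have h2 : P.height < 2 := by
      rw [← hm]
      exact Ideal.height_strict_mono_of_isPrime (lt_of_le_of_ne (le_maximalIdeal (Ideal.IsPrime.ne_top inferInstance)) hP)
    have h3 : P.height = 1 := by
      have : P.height ≠ ⊤ := ne_top_of_lt h2
      lift P.height to ℕ using this with n hn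
      norm_cast at h1 h2 ⊢
      omega
    exact ⟨P, inferInstance, h3, le_rfl, hP⟩

end Primes

section Two

variable {k R : Type*} [Field k] [CharZero k] [CommRing R] [IsDomain R]
    [IsLocalRing R] [IsIntegrallyClosed R] [Algebra k R] [Algebra.EssFiniteType k R]

theorem dualKer_eq_bot (hdim : ringKrullDim R = 2) (D : Derivation k R R) {t : R}
    (htm : t ∈ maximalIdeal R) (ht : IsUnit (D t)) : dualKer k R = ⊥ := by
  classical
  have _ : IsNoetherianRing R := Algebra.EssFiniteType.isNoetherianRing k R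
  have hrad : t ∈ (dualKer k R).annihilator.radical := by
    rw [Ideal.radical_eq_sInf, Ideal.mem_sInf]
    rintro P ⟨hP, hPp⟩
    by_cases hPm : P = maximalIdeal R
    · rw [hPm]; exact htm
    exfalso
    obtain ⟨Q, hQp, hQ, hPQ, -⟩ := exists_height_one_ge hdim P hPm
    have _ : IsDiscreteValuationRing (Localization.AtPrime Q) := isDVR_of_height_eq_one Q hQ _
    have _ : FaithfulSMul R (Localization.AtPrime Q) :=
      (faithfulSMul_iff_algebraMap_injective _ _).mpr
        (IsLocalization.injective _ Q.primeCompl_le_nonZeroDivisors)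
    obtain ⟨S, hS⟩ : (dualKer k R).FG := IsNoetherian.noetherian _
    have hall : ∀ S' : Finset Ω[R⁄k], S' ⊆ S → ∃ s, s ∉ Q ∧ ∀ ω ∈ S', s • ω = 0 := by
      intro S'
      induction S' using Finset.induction_on with
      | empty => exact fun _ ↦ ⟨1, fun h ↦ hQp.ne_top ((Ideal.eq_top_iff_one _).mpr h), by simp⟩
      | insert a S' ha ih =>
        intro hsub
        obtain ⟨s, hs, hs'⟩ := ih ((Finset.subset_insert _ _).trans hsub)
        have haS : a ∈ dualKer k R := by
          rw [← hS]
          exact Submodule.subset_span (hsub (Finset.mem_insert_self _ _))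
        obtain ⟨s₁, hs₁, hs₁'⟩ := exists_smul_eq_zero_of_mem_dualKer Q (Localization.AtPrime Q) haS
        refine ⟨s * s₁, fun h ↦ (hQp.mem_or_mem h).elim hs hs₁, fun ω hω ↦ ?_⟩
        rcases Finset.mem_insert.mp hω with rfl | h
        · rw [mul_smul, hs₁', smul_zero]
        · rw [mul_comm, mul_smul, hs' ω h, smul_zero]
    obtain ⟨s, hs, hs'⟩ := hall S subset_rfl
    apply hs
    apply hPQ
    apply hP
    rw [Submodule.mem_annihilator]
    intro ω hω
    rw [← hS] at hω
    induction hω using Submodule.span_induction with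
    | mem x h => exact hs' x h
    | zero => exact smul_zero _
    | add x y _ _ hx hy => rw [smul_add, hx, hy, add_zero]
    | smul a x _ hx => rw [smul_comm, hx, smul_zero]
  obtain ⟨n, hn⟩ := hrad
  exact dualKer_eq_bot_of_pow D ht n fun ω hω ↦ Submodule.mem_annihilator.mp hn ω hω

end Two

end Vale.Agent.P266.FirstIntegral
end

section

open IsLocalRing TensorProduct Polynomial

namespace Vale.Agent.P266.FirstIntegral

section Two

variable {k R : Type*} [Field k] [CharZero k] [CommRing R] [Algebra k R]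

/-- the Jacobian determinant -/
def jac (D₁ D₂ : Derivation k R R) (x y : R) : R := D₁ x * D₂ y - D₂ x * D₁ y

/-- the ideal generated by all Jacobian determinants -/
def jacIdeal (D₁ D₂ : Derivation k R R) : Ideal R :=
  Ideal.span {z | ∃ x y, z = jac D₁ D₂ x y}

omit [CharZero k] in
theorem derivation_mem_jacIdeal {D₁ D₂ : Derivation k R R}
    (hspan : ∀ D : Derivation k R R, ∃ a c : R, D = a • D₁ + c • D₂) (D : Derivation k R R)
    {z : R} (hz : z ∈ jacIdeal D₁ D₂) : D z ∈ jacIdeal D₁ D₂ := by
  unfold jacIdeal at hz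
  induction hz using Submodule.span_induction with
  | mem x h =>
    obtain ⟨x, y, rfl⟩ := h
    obtain ⟨a₁, c₁, h1⟩ := hspan ⁅D, D₁⁆
    obtain ⟨a₂, c₂, h2⟩ := hspan ⁅D, D₂⁆
    have e1 : ∀ z, D (D₁ z) = D₁ (D z) + (a₁ * D₁ z + c₁ * D₂ z) := by
      intro z
      have := congrArg (fun E : Derivation k R R ↦ E z) h1
      simp only [Derivation.commutator_apply, Derivation.add_apply, Derivation.smul_apply,
        smul_eq_mul] at this
      linear_combination this
    have e2 : ∀ z, D (D₂ z) = D₂ (D z) + (a₂ * D₁ z + c₂ * D₂ z) := by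
      intro z
      have := congrArg (fun E : Derivation k R R ↦ E z) h2
      simp only [Derivation.commutator_apply, Derivation.add_apply, Derivation.smul_apply,
        smul_eq_mul] at this
      linear_combination this
    have e3 : D (jac D₁ D₂ x y) = jac D₁ D₂ (D x) y + jac D₁ D₂ x (D y) +
        (a₁ + c₂) * jac D₁ D₂ x y := by
      simp only [jac, map_sub, Derivation.leibniz, smul_eq_mul, e1, e2]
      ring
    rw [e3]
    refine Ideal.add_mem _ (Ideal.add_mem _ ?_ ?_) (Ideal.mul_mem_left _ _ ?_)
    · exact Ideal.subset_span ⟨_, _, rfl⟩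
    · exact Ideal.subset_span ⟨_, _, rfl⟩
    · exact Ideal.subset_span ⟨_, _, rfl⟩
  | zero => rw [map_zero]; exact Ideal.zero_mem _
  | add x y _ _ hx hy => rw [map_add]; exact Ideal.add_mem _ hx hy
  | smul a x hx' hx =>
    rw [smul_eq_mul, Derivation.leibniz, smul_eq_mul, smul_eq_mul]
    exact Ideal.add_mem _ (Ideal.mul_mem_left _ _ hx) (Ideal.mul_mem_right _ _ hx')

theorem one_mem_of_pow_mem {I : Ideal R} (D : Derivation k R R) (hI : ∀ z ∈ I, D z ∈ I)
    {t : R} (ht : IsUnit (D t)) : ∀ n : ℕ, t ^ n ∈ I → (1 : R) ∈ I := by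
  intro n
  induction n with
  | zero => intro h; simpa using h
  | succ n ih =>
    intro h
    apply ih
    have h1 := hI _ h
    rw [Derivation.leibniz_pow, Nat.add_sub_cancel, smul_eq_mul, nsmul_eq_mul] at h1
    have hn : IsUnit ((n + 1 : ℕ) : R) := by
      have : ((n + 1 : ℕ) : R) = algebraMap k R ((n + 1 : ℕ) : k) := by simp
      rw [this]
      exact (IsUnit.mk0 _ (Nat.cast_ne_zero.mpr (Nat.succ_ne_zero n))).map _
    have h2 : (((n + 1 : ℕ) : R) * D t) * t ^ n ∈ I := by
      convert! h1 using 1; ring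
    exact (Ideal.unit_mul_mem_iff_mem I (hn.mul ht)).mp h2

theorem exists_jac_notMem [IsDomain R] [IsLocalRing R] [Algebra.EssFiniteType k R]
    {D₁ D₂ : Derivation k R R}
    (hspan : ∀ D : Derivation k R R, ∃ a c : R, D = a • D₁ + c • D₂) (Q : Ideal R) [Q.IsPrime]
    (hQm : Q ≠ maximalIdeal R)
    (V : Type*) [CommRing V] [IsDomain V] [IsDiscreteValuationRing V] [Algebra R V] [Algebra k V]
    [IsScalarTower k R V] [IsLocalization.AtPrime V Q] : ∃ x y : R, jac D₁ D₂ x y ∉ Q := by
  have _ : Algebra.EssFiniteType R V := Algebra.EssFiniteType.of_isLocalization V Q.primeCompl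
  have _ : Algebra.EssFiniteType k V := Algebra.EssFiniteType.comp k R V
  have _ : Algebra.FormallySmooth k V := formallySmooth_of_dvr k V
  -- an element outside Q
  obtain ⟨x, hxm, hxQ⟩ : ∃ x ∈ maximalIdeal R, x ∉ Q := by
    by_contra hcon
    push Not at hcon
    exact hQm (le_antisymm (le_maximalIdeal (Ideal.IsPrime.ne_top inferInstance)) hcon)
  have htr : Transcendental k (residue V (algebraMap R V x)) :=
    not_isAlgebraic_of_mem_maximalIdeal Q V hxm hxQ
  -- a uniformizer in R
  obtain ⟨ϖ, hϖ⟩ := IsDiscreteValuationRing.exists_irreducible V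
  obtain ⟨⟨p, s⟩, hps⟩ := IsLocalization.surj Q.primeCompl ϖ
  have hsu : IsUnit (algebraMap R V s) := IsLocalization.map_units V s
  have hp : Irreducible (algebraMap R V p) := by
    rw [← hps, mul_comm]
    have h := (irreducible_units_mul (hsu.unit)).mpr hϖ
    rwa [IsUnit.unit_spec] at h
  obtain ⟨φ₁, hφ₁⟩ := exists_linearMap_uniformizer k V hp
  obtain ⟨φ₂, hφ₂, hφ₂'⟩ := exists_linearMap_transcendental k V htr
  obtain ⟨A, s₁, hs₁, hA⟩ := exists_derivation_of_linearMap Q V φ₁
  obtain ⟨B, s₂, hs₂, hB⟩ := exists_derivation_of_linearMap Q V φ₂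
  have hs₁u : IsUnit (algebraMap R V s₁) := IsLocalization.map_units V (⟨s₁, hs₁⟩ : Q.primeCompl)
  have hs₂u : IsUnit (algebraMap R V s₂) := IsLocalization.map_units V (⟨s₂, hs₂⟩ : Q.primeCompl)
  have hpm : algebraMap R V p ∈ maximalIdeal V := hp.not_isUnit
  refine ⟨p, x, fun hmem ↦ ?_⟩
  obtain ⟨a₁, c₁, h1⟩ := hspan A
  obtain ⟨a₂, c₂, h2⟩ := hspan B
  have e : A p * B x - A x * B p = (a₁ * c₂ - a₂ * c₁) * jac D₁ D₂ p x := by
    rw [h1, h2]
    simp only [jac, Derivation.add_apply, Derivation.smul_apply, smul_eq_mul]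
    ring
  have h3 : A p * B x - A x * B p ∈ Q := by rw [e]; exact Ideal.mul_mem_left _ _ hmem
  have h4 : IsUnit (algebraMap R V (A p * B x - A x * B p)) := by
    rw [map_sub, map_mul, map_mul, hA, hA, hB, hB]
    by_contra hcon
    have h5 : algebraMap R V s₁ * φ₁ (KaehlerDifferential.D k V (algebraMap R V p)) *
        (algebraMap R V s₂ * φ₂ (KaehlerDifferential.D k V (algebraMap R V x))) -
        algebraMap R V s₁ * φ₁ (KaehlerDifferential.D k V (algebraMap R V x)) *
        (algebraMap R V s₂ * φ₂ (KaehlerDifferential.D k V (algebraMap R V p))) ∈ maximalIdeal V := hcon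
    have h6 : algebraMap R V s₁ * φ₁ (KaehlerDifferential.D k V (algebraMap R V x)) *
        (algebraMap R V s₂ * φ₂ (KaehlerDifferential.D k V (algebraMap R V p))) ∈ maximalIdeal V :=
      Ideal.mul_mem_left _ _ (Ideal.mul_mem_left _ _ (hφ₂' _ hpm))
    have h7 := Ideal.add_mem _ h5 h6
    rw [sub_add_cancel] at h7
    exact h7 ((hs₁u.mul hφ₁).mul (hs₂u.mul hφ₂))
  exact (IsLocalization.AtPrime.isUnit_to_map_iff V Q _).mp h4 h3

theorem exists_jac_isUnit [IsDomain R] [IsLocalRing R] [IsIntegrallyClosed R]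
    [Algebra.EssFiniteType k R] (hdim : ringKrullDim R = 2)
    {D₁ D₂ : Derivation k R R}
    (hspan : ∀ D : Derivation k R R, ∃ a c : R, D = a • D₁ + c • D₂)
    (D : Derivation k R R) {t : R} (htm : t ∈ maximalIdeal R) (ht : IsUnit (D t)) :
    ∃ x y : R, IsUnit (jac D₁ D₂ x y) := by
  have _ : IsNoetherianRing R := Algebra.EssFiniteType.isNoetherianRing k R
  have hrad : t ∈ (jacIdeal D₁ D₂).radical := by
    rw [Ideal.radical_eq_sInf, Ideal.mem_sInf]
    rintro P ⟨hP, hPp⟩
    by_cases hPm : P = maximalIdeal R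
    · rw [hPm]; exact htm
    exfalso
    obtain ⟨Q, hQp, hQ, hPQ, hQm⟩ := exists_height_one_ge hdim P hPm
    have _ : IsDiscreteValuationRing (Localization.AtPrime Q) := isDVR_of_height_eq_one Q hQ _
    obtain ⟨x, y, hxy⟩ := exists_jac_notMem hspan Q hQm (Localization.AtPrime Q)
    exact hxy (hPQ (hP (Ideal.subset_span ⟨x, y, rfl⟩)))
  obtain ⟨n, hn⟩ := hrad
  have h1 := one_mem_of_pow_mem D (fun z hz ↦ derivation_mem_jacIdeal hspan D hz) ht n hn
  by_contra hcon
  push Not at hcon
  have h2 : jacIdeal D₁ D₂ ≤ maximalIdeal R := by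
    refine Ideal.span_le.mpr ?_
    rintro _ ⟨x, y, rfl⟩
    exact hcon x y
  exact h2 h1 isUnit_one

end Two

end Vale.Agent.P266.FirstIntegral
end

section

open IsLocalRing TensorProduct Polynomial

namespace Vale.Agent.P266.FirstIntegral

section Two

variable {k R : Type*} [Field k] [CharZero k] [CommRing R] [IsLocalRing R] [Algebra k R]
  [Algebra.EssFiniteType k R]

/-- the retraction onto the cotangent space -/
theorem exists_retraction : ∃ l : ResidueField R ⊗[R] Ω[R⁄k] →ₗ[R]
    (RingHom.ker (algebraMap R (ResidueField R))).Cotangent,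
    l ∘ₗ (KaehlerDifferential.kerCotangentToTensor k R (ResidueField R)) = LinearMap.id := by
  have hsurj : Function.Surjective (IsScalarTower.toAlgHom k R (ResidueField R)).kerSquareLift := by
    intro y
    obtain ⟨v, rfl⟩ := residue_surjective y
    exact ⟨Ideal.Quotient.mk _ v, rfl⟩
  have hnil : IsNilpotent (RingHom.ker (IsScalarTower.toAlgHom k R (ResidueField R)).kerSquareLift) := by
    have h1 : RingHom.ker (IsScalarTower.toAlgHom k R (ResidueField R)).kerSquareLift =
        (RingHom.ker (IsScalarTower.toAlgHom k R (ResidueField R))).cotangentIdeal :=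
      AlgHom.ker_kerSquareLift _
    exact ⟨2, by rw [h1]; exact Ideal.cotangentIdeal_square _⟩
  let g := Algebra.FormallySmooth.liftOfSurjective (AlgHom.id k (ResidueField R))
    (IsScalarTower.toAlgHom k R (ResidueField R)).kerSquareLift hsurj hnil
  have hg : (IsScalarTower.toAlgHom k R (ResidueField R)).kerSquareLift.comp g =
      AlgHom.id k (ResidueField R) :=
    Algebra.FormallySmooth.comp_liftOfSurjective _ _ hsurj hnil
  exact ⟨_, ((retractionKerCotangentToTensorEquivSection (R := k) (P := R) (S := ResidueField R)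
    residue_surjective).symm ⟨g, hg⟩).2⟩

theorem isRegularLocalRing_of_span (hdim : ringKrullDim R = 2) (x y : R)
    (h : ∀ ω : Ω[R⁄k], ∃ a b : R, ω = a • KaehlerDifferential.D k R x +
      b • KaehlerDifferential.D k R y) : IsRegularLocalRing R := by
  have _ : IsNoetherianRing R := Algebra.EssFiniteType.isNoetherianRing k R
  obtain ⟨l, hl⟩ := exists_retraction (k := k) (R := R)
  have hker : RingHom.ker (algebraMap R (ResidueField R)) = maximalIdeal R := ker_residue
  obtain ⟨c, hc⟩ := Ideal.toCotangent_surjective _ (l (1 ⊗ₜ KaehlerDifferential.D k R x))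
  obtain ⟨d, hd⟩ := Ideal.toCotangent_surjective _ (l (1 ⊗ₜ KaehlerDifferential.D k R y))
  have hcm : (c : R) ∈ maximalIdeal R := hker ▸ c.2
  have hdm : (d : R) ∈ maximalIdeal R := hker ▸ d.2
  have key : maximalIdeal R ≤ Ideal.span {(c : R), (d : R)} := by
    refine Submodule.le_of_le_smul_of_le_jacobson_bot (I := maximalIdeal R)
      (IsNoetherian.noetherian _) (IsLocalRing.maximalIdeal_le_jacobson _) ?_
    intro z hz
    obtain ⟨a, b, hab⟩ := h (KaehlerDifferential.D k R z)
    have hz' : z ∈ RingHom.ker (algebraMap R (ResidueField R)) := hker ▸ hz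
    have h1 := LinearMap.congr_fun hl
      ((RingHom.ker (algebraMap R (ResidueField R))).toCotangent ⟨z, hz'⟩)
    rw [LinearMap.comp_apply, LinearMap.id_apply,
      KaehlerDifferential.kerCotangentToTensor_toCotangent] at h1
    simp only [hab, TensorProduct.tmul_add, TensorProduct.tmul_smul, map_add, map_smul] at h1
    rw [← hc, ← hd, ← map_smul, ← map_smul, ← map_add, eq_comm, ← sub_eq_zero, ← map_sub,
      Ideal.toCotangent_eq_zero] at h1
    have h2 : z - (a * c + b * d) ∈ maximalIdeal R ^ 2 := by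
      rw [← hker]
      exact h1
    have h3 : z = (a * c + b * d) + (z - (a * c + b * d)) := by ring
    rw [h3]
    refine Submodule.add_mem_sup ?_ ?_
    · exact Ideal.add_mem _ (Ideal.mul_mem_left _ _ (Ideal.subset_span (by simp)))
        (Ideal.mul_mem_left _ _ (Ideal.subset_span (by simp)))
    · rw [smul_eq_mul, ← pow_two]; exact h2
  have heq : maximalIdeal R = Ideal.span {(c : R), (d : R)} := by
    refine le_antisymm key (Ideal.span_le.mpr ?_)
    rintro z hz
    rcases hz with rfl | hz
    · exact hcm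
    · rw [Set.mem_singleton_iff] at hz
      rw [hz]; exact hdm
  refine IsRegularLocalRing.of_spanFinrank_maximalIdeal_le R ?_
  rw [hdim, heq]
  have h4 : (Submodule.span R {(c : R), (d : R)}).spanFinrank ≤ 2 :=
    (Submodule.spanFinrank_span_le_ncard_of_finite (by simp)).trans (Set.ncard_insert_le _ _ |>.trans (by simp))
  exact_mod_cast h4

end Two

/-- Final local theorem, first part: a vector field not vanishing at the point. -/
theorem isRegularLocalRing_of_isUnit {k R : Type*} [Field k] [CharZero k] [CommRing R] [IsDomain R]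
    [IsLocalRing R] [IsIntegrallyClosed R] [Algebra k R] [Algebra.EssFiniteType k R]
    (hdim : ringKrullDim R = 2) {D₁ D₂ : Derivation k R R}
    (hspan : ∀ D : Derivation k R R, ∃ a c : R, D = a • D₁ + c • D₂)
    (D : Derivation k R R) {t : R} (htm : t ∈ maximalIdeal R) (ht : IsUnit (D t)) :
    IsRegularLocalRing R := by
  obtain ⟨x, y, hxy⟩ := exists_jac_isUnit hdim hspan D htm ht
  have hT := dualKer_eq_bot hdim D htm ht
  obtain ⟨u, hu⟩ := hxy
  refine isRegularLocalRing_of_span (k := k) hdim x y fun ω ↦ ?_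
  let φ₁ := D₁.liftKaehlerDifferential
  let φ₂ := D₂.liftKaehlerDifferential
  have e1 : ∀ z, φ₁ (KaehlerDifferential.D k R z) = D₁ z := D₁.liftKaehlerDifferential_comp_D
  have e2 : ∀ z, φ₂ (KaehlerDifferential.D k R z) = D₂ z := D₂.liftKaehlerDifferential_comp_D
  let a : R := (u⁻¹ : Rˣ) * (φ₁ ω * D₂ y - φ₂ ω * D₁ y)
  let b : R := (u⁻¹ : Rˣ) * (D₁ x * φ₂ ω - D₂ x * φ₁ ω)
  refine ⟨a, b, ?_⟩
  have hu' : (u⁻¹ : Rˣ) * (D₁ x * D₂ y - D₂ x * D₁ y) = 1 := by
    have : (D₁ x * D₂ y - D₂ x * D₁ y) = u := hu.symm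
    rw [this, Units.inv_mul]
  have h0 : ω - (a • KaehlerDifferential.D k R x + b • KaehlerDifferential.D k R y) ∈
      dualKer k R := by
    intro φ
    obtain ⟨p, q, hpq⟩ := hspan (φ.compDer (KaehlerDifferential.D k R))
    have hφ : φ = p • φ₁ + q • φ₂ := by
      apply Derivation.liftKaehlerDifferential_unique
      rw [hpq]
      ext z
      simp [φ₁, φ₂]
    rw [hφ]
    simp only [LinearMap.add_apply, LinearMap.smul_apply, map_sub, map_add, map_smul, e1, e2,
      smul_eq_mul, a, b]
    linear_combination (-p * φ₁ ω - q * φ₂ ω) * hu'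
  rw [hT, Submodule.mem_bot, sub_eq_zero] at h0
  exact h0

/-- The local first integral theorem. -/
theorem isRegularLocalRing_of_first_integral {k R : Type*} [Field k] [CharZero k] [CommRing R]
    [IsDomain R] [IsLocalRing R] [IsIntegrallyClosed R] [Algebra k R] [Algebra.EssFiniteType k R]
    (hdim : ringKrullDim R = 2) {D₁ D₂ : Derivation k R R}
    (hspan : ∀ D : Derivation k R R, ∃ a c : R, D = a • D₁ + c • D₂)
    {f : R} (hf : f ∈ maximalIdeal R) (hf0 : f ≠ 0) (hDf : D₁ f = 0) : IsRegularLocalRing R := by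
  obtain ⟨g, hg, hDg⟩ := core D₂ hf hf0 fun D ↦ by
    obtain ⟨a, c, rfl⟩ := hspan D
    simp [hDf]
  exact isRegularLocalRing_of_isUnit hdim hspan D₂ hg hDg

end Vale.Agent.P266.FirstIntegral
end

section

open IsLocalRing TensorProduct Polynomial

namespace Vale.Agent.P266.FirstIntegral

section Ext

variable {k A : Type*} [Field k] [CommRing A] [Algebra k A] (M : Submonoid A)
  (V : Type*) [CommRing V] [Algebra A V] [Algebra k V] [IsScalarTower k A V] [IsLocalization M V]

include M in
theorem derivation_ext_of_isLocalization {D₁ D₂ : Derivation k V V}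
    (h : ∀ a : A, D₁ (algebraMap A V a) = D₂ (algebraMap A V a)) : D₁ = D₂ := by
  ext v
  obtain ⟨⟨a, s⟩, hs⟩ := IsLocalization.surj M v
  have hsu : IsUnit (algebraMap A V s) := IsLocalization.map_units V s
  have h1 := congrArg D₁ hs
  have h2 := congrArg D₂ hs
  simp only [Derivation.leibniz, smul_eq_mul] at h1 h2
  have h3 : algebraMap A V s * D₁ v = algebraMap A V s * D₂ v := by
    have e1 := h a
    have e2 := h (s : A)
    linear_combination h1 - h2 + e1 - v * e2
  exact hsu.mul_left_cancel h3

/-- Extension of derivations to a localization. -/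
noncomputable def derExt : Derivation k A A →ₗ[A] Derivation k V V where
  toFun D := (exists_derivation_extension M V D).choose
  map_add' D D' := by
    apply derivation_ext_of_isLocalization (A := A) M V
    intro a
    have h1 := (exists_derivation_extension M V (D + D')).choose_spec a
    have h2 := (exists_derivation_extension M V D).choose_spec a
    have h3 := (exists_derivation_extension M V D').choose_spec a
    rw [h1, Derivation.add_apply, Derivation.add_apply, map_add, h2, h3]
  map_smul' r D := by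
    apply derivation_ext_of_isLocalization (A := A) M V
    intro a
    have h1 := (exists_derivation_extension M V (r • D)).choose_spec a
    have h2 := (exists_derivation_extension M V D).choose_spec a
    rw [h1, RingHom.id_apply, Derivation.smul_apply, Derivation.smul_apply, h2, smul_eq_mul,
      map_mul, Algebra.smul_def]

theorem derExt_apply (D : Derivation k A A) (a : A) :
    derExt M V D (algebraMap A V a) = algebraMap A V (D a) :=
  (exists_derivation_extension M V D).choose_spec a

end Ext

section AtPrime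

variable {k A : Type*} [Field k] [CommRing A] [IsDomain A] [Algebra k A] [Algebra.EssFiniteType k A]
  (m : Ideal A) [m.IsPrime]
  (V : Type*) [CommRing V] [Algebra A V] [Algebra k V] [IsScalarTower k A V]
  [IsLocalization.AtPrime V m]

theorem derExt_surj (E : Derivation k V V) :
    ∃ (D : Derivation k A A) (s : A), s ∉ m ∧ s • E = derExt m.primeCompl V D := by
  obtain ⟨D, s, hs, h⟩ := exists_derivation_of_linearMap m V E.liftKaehlerDifferential
  refine ⟨D, s, hs, ?_⟩
  apply derivation_ext_of_isLocalization (A := A) m.primeCompl V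
  intro a
  rw [derExt_apply, h, Derivation.smul_apply, Derivation.liftKaehlerDifferential_comp_D,
    Algebra.smul_def]

omit [Algebra.EssFiniteType k A] in
theorem derExt_injective : Function.Injective (derExt (k := k) m.primeCompl V) := by
  have hinj : Function.Injective (algebraMap A V) :=
    IsLocalization.injective V m.primeCompl_le_nonZeroDivisors
  intro D D' h
  ext a
  apply hinj
  rw [← derExt_apply m.primeCompl V, ← derExt_apply m.primeCompl V, h]

instance isLocalizedModule_derExt :
    IsLocalizedModule m.primeCompl (derExt (k := k) m.primeCompl V) where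
  map_units s := by
    rw [Module.End.isUnit_iff]
    have hsu : IsUnit (algebraMap A V s) := IsLocalization.map_units V s
    constructor
    · intro E E' h
      have h' : (s : A) • E = (s : A) • E' := h
      rw [← algebraMap_smul V (s : A) E, ← algebraMap_smul V (s : A) E'] at h'
      exact hsu.smul_left_cancel.mp h'
    · intro E
      obtain ⟨u, hu⟩ := hsu
      refine ⟨(u⁻¹ : Vˣ) • E, ?_⟩
      change (s : A) • ((u⁻¹ : Vˣ) • E) = E
      rw [← algebraMap_smul V (s : A), ← hu]
      exact smul_inv_smul u E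
  surj E := by
    obtain ⟨D, s, hs, h⟩ := derExt_surj m V E
    exact ⟨⟨D, ⟨s, hs⟩⟩, h⟩
  exists_of_eq {D D'} h := ⟨1, by rw [derExt_injective m V h]⟩

theorem mem_smul_top_of_derExt_mem [m.IsMaximal] [IsLocalRing V] {D : Derivation k A A}
    (hD : derExt m.primeCompl V D ∈
      (maximalIdeal V) • (⊤ : Submodule V (Derivation k V V))) :
    D ∈ m • (⊤ : Submodule A (Derivation k A A)) := by
  have hinj : Function.Injective (algebraMap A V) :=
    IsLocalization.injective V m.primeCompl_le_nonZeroDivisors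
  have key : ∀ E : Derivation k V V, E ∈ (maximalIdeal V) • (⊤ : Submodule V (Derivation k V V)) →
      ∃ (D' : Derivation k A A) (s : A), D' ∈ m • (⊤ : Submodule A (Derivation k A A)) ∧ s ∉ m ∧
        s • E = derExt m.primeCompl V D' := by
    intro E hE
    induction hE using Submodule.smul_induction_on' with
    | smul r hr E hE =>
      obtain ⟨D₁, s₁, hs₁, h₁⟩ := derExt_surj m V E
      obtain ⟨⟨a, s₂⟩, h₂⟩ := IsLocalization.surj m.primeCompl r
      simp only at h₂
      have ha : a ∈ m := by
        rw [← IsLocalization.AtPrime.to_map_mem_maximal_iff V m a, ← h₂]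
        exact Ideal.mul_mem_right _ _ hr
      refine ⟨a • D₁, s₂ * s₁, Submodule.smul_mem_smul ha trivial, ?_, ?_⟩
      · intro h
        rcases (‹m.IsPrime›).mem_or_mem h with h | h
        · exact s₂.2 h
        · exact hs₁ h
      · rw [map_smul, ← h₁, ← algebraMap_smul V a, ← h₂, mul_smul, mul_smul, algebraMap_smul,
          smul_comm s₁ r E, smul_comm (s₂ : A) r]
    | add E E' _ _ ih ih' =>
      obtain ⟨D₁, s₁, hD₁, hs₁, h₁⟩ := ih
      obtain ⟨D₂, s₂, hD₂, hs₂, h₂⟩ := ih'
      refine ⟨s₂ • D₁ + s₁ • D₂, s₁ * s₂, Submodule.add_mem _ (Submodule.smul_mem _ _ hD₁)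
        (Submodule.smul_mem _ _ hD₂), fun h ↦ ?_, ?_⟩
      · rcases (‹m.IsPrime›).mem_or_mem h with h | h
        · exact hs₁ h
        · exact hs₂ h
      · rw [map_add, map_smul, map_smul, ← h₁, ← h₂, smul_add]
        congr 1
        · rw [mul_comm, mul_smul]
        · rw [mul_smul]
  obtain ⟨D', s, hD', hs, h⟩ := key _ hD
  have h1 : s • D = D' := by
    apply derExt_injective (k := k) m V
    rw [map_smul, h]
  obtain ⟨u, v, hv, huv⟩ := (‹m.IsMaximal›).exists_inv hs
  have h3 : D = u • D' + v • D := by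
    rw [← h1, smul_smul, ← add_smul, huv, one_smul]
  rw [h3]
  exact Submodule.add_mem _ (Submodule.smul_mem _ _ hD') (Submodule.smul_mem_smul hv trivial)

end AtPrime

end Vale.Agent.P266.FirstIntegral
end

section

open IsLocalRing TensorProduct Polynomial

namespace Vale.Agent.P266.FirstIntegral

theorem derivation_apply_eq_zero_of_isAlgebraic {B L : Type*} [CommRing B] [CommRing L]
    [IsDomain L] [Algebra B L] [FaithfulSMul B L] [CharZero L] (E : Derivation B L L) {a : L}
    (ha : IsAlgebraic B a) : E a = 0 := by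
  obtain ⟨p, hp0, hp⟩ := ha
  have hinj : Function.Injective (algebraMap B L) := FaithfulSMul.algebraMap_injective B L
  have _ : IsDomain B := hinj.isDomain (algebraMap B L)
  have _ : CharZero B := ⟨fun a b h ↦ by
    have := congrArg (algebraMap B L) h
    simpa using this⟩
  induction hn : p.natDegree using Nat.strong_induction_on generalizing p with
  | _ n ih =>
    have hn0 : p.natDegree ≠ 0 := by
      intro h0
      rw [Polynomial.eq_C_of_natDegree_eq_zero h0] at hp hp0
      rw [aeval_C] at hp
      apply hp0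
      rw [hinj (hp.trans (map_zero _).symm), C_0]
    have h1 : aeval a (derivative p) • E a = 0 := by
      rw [← Derivation.map_aeval, hp, map_zero]
    rcases smul_eq_zero.mp h1 with h2 | h2
    · refine ih (derivative p).natDegree ?_ (derivative p) ?_ h2 rfl
      · rw [← hn]; exact natDegree_derivative_lt hn0
      · intro h3
        exact hn0 (derivative_eq_zero.mp h3)
    · exact h2

theorem ringKrullDim_le_of_isIntegral (B A : Type*) [CommRing B] [CommRing A] [Algebra B A]
    [FaithfulSMul B A] [Algebra.IsIntegral B A] : ringKrullDim B ≤ ringKrullDim A := by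
  refine iSup_le fun l ↦ ?_
  obtain ⟨⟨P, hPp, hP⟩⟩ := Ideal.nonempty_primesOver (S := A) (RelSeries.head l).asIdeal
  obtain ⟨L, hL, -⟩ := Ideal.exists_ltSeries_of_hasGoingUp l P
  rw [← hL]
  exact le_iSup (fun l : LTSeries (PrimeSpectrum A) ↦ (l.length : WithBot ℕ∞)) L

end Vale.Agent.P266.FirstIntegral
end

section

open IsLocalRing TensorProduct Polynomial

namespace Vale.Agent.P266.FirstIntegral

theorem exists_injective_eval {k A : Type*} [Field k] [CharZero k] [CommRing A] [IsDomain A]
    [Algebra k A] [Algebra.FiniteType k A] {n : ℕ} (hdim : ringKrullDim A ≤ n) (m : Ideal A)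
    [m.IsPrime] (V : Type*) [CommRing V] [IsDomain V] [Algebra A V] [Algebra k V]
    [IsScalarTower k A V] [IsLocalization.AtPrime V m] :
    ∃ s : ℕ, s ≤ n ∧ ∃ φ : Derivation k V V →ₗ[V] (Fin s → V), Function.Injective φ := by
  obtain ⟨s, g, hg, hfin⟩ := exists_finite_inj_algHom_of_fg k A
  let _ : Algebra (MvPolynomial (Fin s) k) A := g.toRingHom.toAlgebra
  have _ : FaithfulSMul (MvPolynomial (Fin s) k) A :=
    (faithfulSMul_iff_algebraMap_injective _ _).mpr hg
  have _ : Module.Finite (MvPolynomial (Fin s) k) A := hfin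
  have _ : IsScalarTower k (MvPolynomial (Fin s) k) A := .of_algebraMap_eq' g.comp_algebraMap.symm
  have hsn : s ≤ n := by
    have h1 := ringKrullDim_le_of_isIntegral (MvPolynomial (Fin s) k) A
    rw [MvPolynomial.ringKrullDim_of_isNoetherianRing, ringKrullDim_eq_zero_of_field, zero_add,
      Nat.card_eq_fintype_card, Fintype.card_fin] at h1
    exact_mod_cast h1.trans hdim
  have hinjV : Function.Injective (algebraMap A V) :=
    IsLocalization.injective V m.primeCompl_le_nonZeroDivisors
  let _ : Algebra (MvPolynomial (Fin s) k) V :=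
    ((algebraMap A V).comp (algebraMap (MvPolynomial (Fin s) k) A)).toAlgebra
  have _ : IsScalarTower (MvPolynomial (Fin s) k) A V := .of_algebraMap_eq' rfl
  have _ : IsScalarTower k (MvPolynomial (Fin s) k) V := .of_algebraMap_eq' (by
    rw [IsScalarTower.algebraMap_eq k A V, IsScalarTower.algebraMap_eq (MvPolynomial (Fin s) k) A V,
      RingHom.comp_assoc, ← IsScalarTower.algebraMap_eq k (MvPolynomial (Fin s) k) A])
  have _ : FaithfulSMul (MvPolynomial (Fin s) k) V :=
    (faithfulSMul_iff_algebraMap_injective _ _).mpr (hinjV.comp hg)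
  have _ : CharZero V := charZero_of_injective_algebraMap (algebraMap k V).injective
  let φ : Derivation k V V →ₗ[V] (Fin s → V) :=
    { toFun := fun E i ↦ E (algebraMap (MvPolynomial (Fin s) k) V (MvPolynomial.X i))
      map_add' := fun _ _ ↦ rfl
      map_smul' := fun _ _ ↦ rfl }
  refine ⟨s, hsn, φ, ?_⟩
  rw [injective_iff_map_eq_zero]
  intro E hE
  have hE' : ∀ i, E (algebraMap (MvPolynomial (Fin s) k) V (MvPolynomial.X i)) = 0 :=
    fun i ↦ congrFun hE i
  -- E vanishes on the polynomial ring
  have h1 : E.compAlgebraMap (MvPolynomial (Fin s) k) = 0 := by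
    apply MvPolynomial.derivation_ext
    intro i
    exact hE' i
  have h2 : ∀ b : MvPolynomial (Fin s) k, E (algebraMap _ V b) = 0 := fun b ↦
    congrArg (fun F : Derivation k (MvPolynomial (Fin s) k) V ↦ F b) h1
  let E' : Derivation (MvPolynomial (Fin s) k) V V :=
    Derivation.mk'
      { toFun := E
        map_add' := E.map_add
        map_smul' := fun b v ↦ by
          rw [Algebra.smul_def, Derivation.leibniz, h2, smul_zero, add_zero, RingHom.id_apply,
            algebraMap_smul] }
      (fun a b ↦ E.leibniz a b)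
  apply derivation_ext_of_isLocalization (A := A) m.primeCompl V
  intro a
  have h3 : IsAlgebraic (MvPolynomial (Fin s) k) (algebraMap A V a) := by
    have : IsIntegral (MvPolynomial (Fin s) k) a := Algebra.IsIntegral.isIntegral a
    exact (this.map (IsScalarTower.toAlgHom (MvPolynomial (Fin s) k) A V)).isAlgebraic
  exact derivation_apply_eq_zero_of_isAlgebraic E' h3

end Vale.Agent.P266.FirstIntegral
end

section

open IsLocalRing TensorProduct Polynomial

namespace Vale.Agent.P266.FirstIntegral

theorem isRegularLocalRing_of_height_le_one {A : Type*} [CommRing A] [IsDomain A]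
    [IsNoetherianRing A] [IsIntegrallyClosed A] (p : Ideal A) [p.IsPrime] (hp : p.height ≤ 1) :
    IsRegularLocalRing (Localization.AtPrime p) := by
  rcases eq_or_ne p.height 1 with h | h
  · have _ := isDVR_of_height_eq_one p h (Localization.AtPrime p)
    infer_instance
  · have h0 : p.height = 0 := by
      have hne : p.height ≠ ⊤ := ne_top_of_le_ne_top (by simp) hp
      lift p.height to ℕ using hne with n hn
      norm_cast at hp h ⊢
      omega
    have h1 : p = ⊥ := Ideal.height_eq_zero_iff_eq_bot.mp h0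
    have hdim : ringKrullDim (Localization.AtPrime p) = 0 := by
      rw [IsLocalization.AtPrime.ringKrullDim_eq_height p, h0]; rfl
    have hF : IsField (Localization.AtPrime p) := by
      have : Ring.KrullDimLE 0 (Localization.AtPrime p) := by
        rw [Ring.krullDimLE_iff, hdim]; rfl
      exact Ring.KrullDimLE.isField_of_isDomain
    have : IsPrincipalIdealRing (Localization.AtPrime p) := hF.isPrincipalIdealRing
    infer_instance

theorem exists_span {R N : Type*} [CommRing R] [IsLocalRing R] [AddCommGroup N] [Module R N]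
    (r : ℕ) (hr : r ≤ 2) (b : Module.Basis (Fin r) R N) (D₁ : N)
    (hD : D₁ ∉ (maximalIdeal R) • (⊤ : Submodule R N)) :
    ∃ D₂ : N, ∀ E : N, ∃ a c : R, E = a • D₁ + c • D₂ := by
  obtain ⟨i, hi⟩ : ∃ i, IsUnit (b.repr D₁ i) := by
    by_contra hcon
    push Not at hcon
    apply hD
    rw [← b.sum_repr D₁]
    exact Submodule.sum_mem _ fun i _ ↦ Submodule.smul_mem_smul (hcon i) trivial
  obtain ⟨u, hu⟩ := hi
  interval_cases r
  · exact i.elim0
  · refine ⟨0, fun E ↦ ⟨b.repr E 0 * (u⁻¹ : Rˣ), 0, ?_⟩⟩
    have h1 := b.sum_repr D₁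
    have h2 := b.sum_repr E
    rw [Fin.sum_univ_one] at h1 h2
    have hi0 : i = 0 := Subsingleton.elim _ _
    rw [hi0] at hu
    rw [smul_zero, add_zero, ← h1, ← hu, smul_smul, mul_assoc, Units.inv_mul, mul_one, h2]
  · have h1 := b.sum_repr D₁
    rw [Fin.sum_univ_two] at h1
    fin_cases i
    · simp only [Fin.zero_eta] at hu
      refine ⟨b 1, fun E ↦ ?_⟩
      have h2 := b.sum_repr E
      rw [Fin.sum_univ_two] at h2
      refine ⟨b.repr E 0 * (u⁻¹ : Rˣ), b.repr E 1 - b.repr E 0 * (u⁻¹ : Rˣ) * b.repr D₁ 1, ?_⟩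
      have h3 : b.repr E 0 * (u⁻¹ : Rˣ) * b.repr D₁ 0 = b.repr E 0 := by
        rw [← hu, mul_assoc, Units.inv_mul, mul_one]
      calc E = b.repr E 0 • b 0 + b.repr E 1 • b 1 := h2.symm
        _ = (b.repr E 0 * (u⁻¹ : Rˣ)) • (b.repr D₁ 0 • b 0 + b.repr D₁ 1 • b 1) +
            (b.repr E 1 - b.repr E 0 * (u⁻¹ : Rˣ) * b.repr D₁ 1) • b 1 := by
          rw [smul_add, smul_smul, smul_smul, h3, sub_smul]
          abel
        _ = _ := by rw [h1]
    · simp only [Fin.mk_one] at hu
      refine ⟨b 0, fun E ↦ ?_⟩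
      have h2 := b.sum_repr E
      rw [Fin.sum_univ_two] at h2
      refine ⟨b.repr E 1 * (u⁻¹ : Rˣ), b.repr E 0 - b.repr E 1 * (u⁻¹ : Rˣ) * b.repr D₁ 0, ?_⟩
      have h3 : b.repr E 1 * (u⁻¹ : Rˣ) * b.repr D₁ 1 = b.repr E 1 := by
        rw [← hu, mul_assoc, Units.inv_mul, mul_one]
      calc E = b.repr E 0 • b 0 + b.repr E 1 • b 1 := h2.symm
        _ = (b.repr E 1 * (u⁻¹ : Rˣ)) • (b.repr D₁ 0 • b 0 + b.repr D₁ 1 • b 1) +
            (b.repr E 0 - b.repr E 1 * (u⁻¹ : Rˣ) * b.repr D₁ 0) • b 0 := by
          rw [smul_add, smul_smul, smul_smul, h3, sub_smul]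
          abel
        _ = _ := by rw [h1]

theorem isRegularLocalRing_atPrime {k A : Type*} [Field k] [CharZero k] [IsAlgClosed k]
    [CommRing A] [IsDomain A] [IsIntegrallyClosed A] [Algebra k A] [Algebra.FiniteType k A]
    (hdim : ringKrullDim A = 2) [Module.Projective A (Derivation k A A)]
    (D : Derivation k A A) (f : A) (hf : f ∉ Set.range (algebraMap k A)) (hDf : D f = 0)
    (m : Ideal A) [m.IsMaximal] (hD : D ∉ m • (⊤ : Submodule A (Derivation k A A))) :
    IsRegularLocalRing (Localization.AtPrime m) := by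
  have _ : IsNoetherianRing A := Algebra.FiniteType.isNoetherianRing k A
  by_cases hh : m.height ≤ 1
  · exact isRegularLocalRing_of_height_le_one m hh
  let R := Localization.AtPrime m
  have _ : IsIntegrallyClosed R := isIntegrallyClosed_of_isLocalization R m.primeCompl
    m.primeCompl_le_nonZeroDivisors
  have hdimR : ringKrullDim R = 2 := by
    rw [IsLocalization.AtPrime.ringKrullDim_eq_height m R]
    have h1 : (m.height : WithBot ℕ∞) ≤ ringKrullDim A := Ideal.height_le_ringKrullDim_of_isPrime
    rw [hdim] at h1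
    have h2 : m.height ≤ 2 := WithBot.coe_le_coe.mp h1
    have h3 : m.height = 2 := by
      have hne : m.height ≠ ⊤ := ne_top_of_le_ne_top (by simp) h2
      lift m.height to ℕ using hne with n hn
      norm_cast at hh h2 ⊢
      omega
    rw [h3]; rfl
  have _ : Algebra.EssFiniteType k R := inferInstance
  have _ : Module.Projective R (Derivation k R R) :=
    Module.projective_of_isLocalizedModule m.primeCompl (derExt (k := k) m.primeCompl R)
  obtain ⟨s, hs, φ, hφ⟩ := exists_injective_eval (k := k) (n := 2) hdim.le m R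
  have _ : Module.Finite R (Derivation k R R) := Module.Finite.of_injective φ hφ
  have _ : Module.Free R (Derivation k R R) := Module.free_of_flat_of_isLocalRing
  have hr : Module.finrank R (Derivation k R R) ≤ 2 := by
    refine (LinearMap.finrank_le_finrank_of_injective hφ).trans ?_
    rw [Module.finrank_fin_fun]; exact hs
  obtain ⟨D₂, hD₂⟩ := exists_span _ hr (Module.finBasis R (Derivation k R R))
    (derExt m.primeCompl R D) (fun h ↦ hD (mem_smul_top_of_derExt_mem m R h))
  -- the constant
  obtain ⟨c, hc⟩ : ∃ c : k, f - algebraMap k A c ∈ m := by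
    let _ : Field (A ⧸ m) := Ideal.Quotient.field m
    have _ : Module.Finite k (A ⧸ m) := finite_of_finite_type_of_isJacobsonRing k (A ⧸ m)
    obtain ⟨c, hc⟩ := (IsAlgClosed.algebraMap_bijective_of_isIntegral (k := k) (K := A ⧸ m)).2
      (Ideal.Quotient.mk m f)
    refine ⟨c, ?_⟩
    rw [← Ideal.Quotient.eq_zero_iff_mem, map_sub, ← hc]
    exact sub_self _
  refine isRegularLocalRing_of_first_integral (k := k) (R := R) hdimR
    (D₁ := derExt m.primeCompl R D) (D₂ := D₂) hD₂ (f := algebraMap A R (f - algebraMap k A c))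
    ?_ ?_ ?_
  · exact (IsLocalization.AtPrime.to_map_mem_maximal_iff R m _).mpr hc
  · have hinj : Function.Injective (algebraMap A R) :=
      IsLocalization.injective R m.primeCompl_le_nonZeroDivisors
    rw [Ne, map_eq_zero_iff _ hinj, sub_eq_zero]
    intro h
    exact hf ⟨c, h.symm⟩
  · rw [derExt_apply, map_sub, hDf, Derivation.map_algebraMap, sub_zero, map_zero]

theorem isRegularRing_of_first_integral {k A : Type*} [Field k] [CharZero k] [IsAlgClosed k]
    [CommRing A] [IsDomain A] [IsIntegrallyClosed A] [Algebra k A] [Algebra.FiniteType k A]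
    (hdim : ringKrullDim A = 2) [Module.Projective A (Derivation k A A)]
    (D : Derivation k A A) (α : Derivation k A A →ₗ[A] A) (hα : α D = 1)
    (f : A) (hf : f ∉ Set.range (algebraMap k A)) (hDf : D f = 0) : IsRegularRing A := by
  have _ : IsNoetherianRing A := Algebra.FiniteType.isNoetherianRing k A
  refine ⟨fun p hp ↦ ?_⟩
  by_cases hpm : p.IsMaximal
  · refine isRegularLocalRing_atPrime hdim D f hf hDf p fun hD ↦ hp.ne_top ?_
    rw [Ideal.eq_top_iff_one, ← hα]
    have h1 : Submodule.map α (p • (⊤ : Submodule A (Derivation k A A))) ≤ p := by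
      rw [Submodule.map_smul'']
      exact Submodule.smul_le.mpr fun r hr n _ ↦ by
        rw [smul_eq_mul]; exact Ideal.mul_mem_right _ _ hr
    exact h1 ⟨D, hD, rfl⟩
  · apply isRegularLocalRing_of_height_le_one
    obtain ⟨q, hq, hpq⟩ := p.exists_le_maximal hp.ne_top
    have hlt : p < q := lt_of_le_of_ne hpq fun h ↦ hpm (h ▸ hq)
    have h1 : p.height + 1 ≤ q.height := Ideal.height_add_one_le_of_lt_of_isPrime hlt
    have h2 : (q.height : WithBot ℕ∞) ≤ ringKrullDim A := Ideal.height_le_ringKrullDim_of_isPrime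
    rw [hdim] at h2
    have h3 : q.height ≤ 2 := WithBot.coe_le_coe.mp h2
    have h4 : p.height + 1 ≤ 1 + 1 := h1.trans (h3.trans (by norm_num))
    exact (ENat.add_le_add_iff_right (by simp)).mp h4

end Vale.Agent.P266.FirstIntegral
end

section

/-!
# P266: graded Noether normalization
-/

namespace Vale.Agent.P266

open MvPolynomial

/-- if `z⁻¹` is a root of a polynomial with unit constant coefficient then `z` is integral -/
lemma isIntegral_of_inv_root {S K : Type*} [CommRing S] [Field K] [Algebra S K] {z : K}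
    (P : Polynomial S) (h0 : IsUnit (P.coeff 0)) (hz : Polynomial.aeval z⁻¹ P = 0) :
    IsIntegral S z := by
  nontriviality S
  rcases eq_or_ne z 0 with rfl | hz0
  · exact isIntegral_zero
  have hinv : Invertible z⁻¹ := invertibleOfNonzero (inv_ne_zero hz0)
  have h1 : Polynomial.aeval z P.reverse = 0 := by
    have h2 := (Polynomial.eval₂_reverse_eq_zero_iff (algebraMap S K) z⁻¹ P).2 hz
    have h3 : (⅟(z⁻¹) : K) = z := by rw [invOf_eq_inv, inv_inv]
    rwa [h3] at h2
  have h2 : P.reverse.leadingCoeff = P.coeff 0 := by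
    rw [Polynomial.reverse_leadingCoeff, Polynomial.trailingCoeff_eq_coeff_zero]
    exact h0.ne_zero
  have h3 := isIntegral_leadingCoeff_smul _ _ h1
  rw [h2] at h3
  obtain ⟨u, hu⟩ := h0
  have h4 := h3.smul ((u⁻¹ : Sˣ) : S)
  rwa [smul_smul, ← hu, Units.inv_mul, one_smul] at h4

lemma aeval_const_mul_of_isHomogeneous {R K ι : Type*} [CommRing R] [CommRing K] [Algebra R K]
    {G : MvPolynomial ι R} {d : ℕ} (hG : G.IsHomogeneous d) (c : K) (y : ι → K) :
    aeval (fun i => c * y i) G = c ^ d * aeval y G := by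
  rw [aeval_def, aeval_def, eval₂_eq, eval₂_eq, Finset.mul_sum]
  refine Finset.sum_congr rfl fun m hm => ?_
  have h1 : ∏ i ∈ m.support, (c * y i) ^ m i = c ^ d * ∏ i ∈ m.support, y i ^ m i := by
    simp only [mul_pow]
    rw [Finset.prod_mul_distrib, Finset.prod_pow_eq_pow_sum]
    congr 2
    exact (hG.degree_eq_sum_deg_support hm).symm
  rw [h1]
  ring

lemma isIntegral_trans_sub {K : Type*} [Field K] {S T : Subring K}
    (h : ∀ t ∈ T, IsIntegral S t) {z : K} (hz : IsIntegral T z) : IsIntegral S z := by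
  let C := integralClosure S K
  have hT : ∀ t : T, (t : K) ∈ C := fun t => h t t.2
  let g : T →+* C := (algebraMap T K).codRestrict C.toSubring fun t => hT t
  have h1 : IsIntegral C z := by
    obtain ⟨p, hp, hpz⟩ := hz
    refine ⟨p.map g, hp.map g, ?_⟩
    rw [Polynomial.eval₂_map]
    exact hpz
  have : Algebra.IsIntegral S C := inferInstance
  exact isIntegral_trans (R := S) (A := C) z h1

section GNN

variable {k A : Type*} [Field k] [CharZero k] [CommRing A] [IsDomain A] [Algebra k A]
  (𝒜 : ℕ → Submodule k A) [GradedAlgebra 𝒜]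
  (K₀ K : Type*) [Field K₀] [Field K] [Algebra (𝒜 0) K₀] [IsFractionRing (𝒜 0) K₀]
  [Algebra A K] [IsFractionRing A K] [Algebra K₀ K] [Algebra (𝒜 0) K]
  [IsScalarTower (𝒜 0) A K] [IsScalarTower (𝒜 0) K₀ K]

omit [CharZero k] [IsDomain A] [IsFractionRing (𝒜 0) K₀] [IsFractionRing A K] in
lemma algebraMap_zero_eq (r : 𝒜 0) :
    algebraMap A K (r : A) = algebraMap K₀ K (algebraMap (𝒜 0) K₀ r) := by
  rw [← IsScalarTower.algebraMap_apply (𝒜 0) K₀ K, IsScalarTower.algebraMap_apply (𝒜 0) A K,
    SetLike.GradeZero.algebraMap_apply]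

omit [CharZero k] [IsDomain A] [IsFractionRing (𝒜 0) K₀] [IsFractionRing A K] in
lemma aeval_map_eq {c : ℕ} (y : Fin c → A) (G : MvPolynomial (Fin c) (𝒜 0)) :
    aeval (fun i => algebraMap A K (y i)) (map (algebraMap (𝒜 0) K₀) G) =
      algebraMap A K (aeval y G) := by
  rw [aeval_def, eval₂_map, aeval_def, hom_eval₂]
  have h : (algebraMap K₀ K).comp (algebraMap (𝒜 0) K₀) =
      (algebraMap A K).comp (algebraMap (𝒜 0) A) := by
    rw [← IsScalarTower.algebraMap_eq, ← IsScalarTower.algebraMap_eq]
  rw [h]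

omit [CharZero k] in
/-- algebraic dependence gives a homogeneous relation over the degree zero part -/
lemma exists_homogeneous_relation {w c : ℕ} (hw : 0 < w) (y : Fin c → A) (hy : ∀ i, y i ∈ 𝒜 w)
    (hdep : ¬ AlgebraicIndependent K₀ (fun i => algebraMap A K (y i))) :
    ∃ (d : ℕ) (G : MvPolynomial (Fin c) (𝒜 0)), G.IsHomogeneous d ∧ G ≠ 0 ∧ aeval y G = 0 := by
  classical
  rw [algebraicIndependent_iff] at hdep
  push Not at hdep
  obtain ⟨p, hp, hp0⟩ := hdep
  -- clear denominators
  obtain ⟨b, hb⟩ := IsLocalization.exist_integer_multiples_of_finset (nonZeroDivisors (𝒜 0))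
    (p.support.image fun m => coeff m p)
  have hb' : ∀ m, ∃ r : 𝒜 0, algebraMap (𝒜 0) K₀ r = algebraMap (𝒜 0) K₀ b * coeff m p := by
    intro m
    by_cases hm : m ∈ p.support
    · obtain ⟨r, hr⟩ := hb (coeff m p) (Finset.mem_image_of_mem _ hm)
      exact ⟨r, by rw [hr, Algebra.smul_def]⟩
    · rw [notMem_support_iff.1 hm, mul_zero]
      exact ⟨0, map_zero _⟩
  choose r hr using hb'
  let G : MvPolynomial (Fin c) (𝒜 0) := ∑ m ∈ p.support, monomial m (r m)
  have hGmap : map (algebraMap (𝒜 0) K₀) G = C (algebraMap (𝒜 0) K₀ b) * p := by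
    rw [map_sum]
    conv_rhs => rw [p.as_sum, Finset.mul_sum]
    refine Finset.sum_congr rfl fun m _ => ?_
    rw [map_monomial, hr, C_mul_monomial]
  have hinj : Function.Injective (algebraMap (𝒜 0) K₀) := IsFractionRing.injective (𝒜 0) K₀
  have hnt : Nontrivial (𝒜 0) := (algebraMap (𝒜 0) A).domain_nontrivial
  have hG0 : G ≠ 0 := by
    intro h
    rw [h, map_zero] at hGmap
    have h1 : algebraMap (𝒜 0) K₀ b ≠ 0 := by
      intro h2
      rw [map_eq_zero_iff _ hinj] at h2
      exact nonZeroDivisors.ne_zero b.2 h2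
    have h3 : (C (algebraMap (𝒜 0) K₀ b) : MvPolynomial (Fin c) K₀) ≠ 0 := by
      rwa [Ne, C_eq_zero]
    exact hp0 ((mul_eq_zero.1 hGmap.symm).resolve_left h3)
  have hGy : aeval y G = 0 := by
    apply IsFractionRing.injective A K
    rw [← aeval_map_eq 𝒜 K₀ K, hGmap, map_mul, hp, mul_zero, map_zero]
  -- homogeneous components
  have hcomp : ∀ d, aeval y (homogeneousComponent d G) ∈ 𝒜 (d * w) := by
    intro d
    rw [aeval_def, eval₂_eq]
    refine Submodule.sum_mem _ fun m hm => ?_
    have h1 := (homogeneousComponent_isHomogeneous d G).degree_eq_sum_deg_support hm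
    have h2 : ∏ i ∈ m.support, y i ^ m i ∈ 𝒜 (d * w) := by
      have h3 := SetLike.prod_mem_graded 𝒜 (fun i => m i • w) (fun i => y i ^ m i)
        (F := m.support) (fun i _ => SetLike.pow_mem_graded (m i) (hy i))
      have h4 : ∑ i ∈ m.support, m i • w = d * w := by
        rw [h1, Finset.sum_mul]
        exact Finset.sum_congr rfl fun i _ => smul_eq_mul _ _
      rwa [h4] at h3
    have h5 := SetLike.GradedMul.mul_mem (coeff m (homogeneousComponent d G)).2 h2
    rwa [zero_add] at h5
  have hex : ∃ d, homogeneousComponent d G ≠ 0 := by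
    by_contra h
    push Not at h
    apply hG0
    rw [← sum_homogeneousComponent G]
    exact Finset.sum_eq_zero fun d _ => h d
  obtain ⟨d, hd⟩ := hex
  refine ⟨d, homogeneousComponent d G, homogeneousComponent_isHomogeneous d G, hd, ?_⟩
  have hsum : ∑ i ∈ Finset.range (G.totalDegree + 1), aeval y (homogeneousComponent i G) = 0 := by
    rw [← map_sum, sum_homogeneousComponent, hGy]
  by_cases hdr : d ∈ Finset.range (G.totalDegree + 1)
  · have h6 := congrArg (GradedAlgebra.proj 𝒜 (d * w)) hsum
    rw [map_sum, map_zero, Finset.sum_eq_single_of_mem d hdr, GradedAlgebra.proj_apply,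
      DirectSum.decompose_of_mem_same 𝒜 (hcomp d)] at h6
    · exact h6
    · intro i _ hi
      rw [GradedAlgebra.proj_apply, DirectSum.decompose_of_mem_ne 𝒜 (hcomp i)]
      intro h7
      exact hi (Nat.eq_of_mul_eq_mul_right hw h7)
  · rw [Finset.mem_range, not_lt] at hdr
    rw [homogeneousComponent_eq_zero _ _ (by omega), map_zero]

/-- one reduction step -/
lemma reduce_step {w m : ℕ} (hw : 0 < w) (y : Fin (m + 1) → A) (hy : ∀ i, y i ∈ 𝒜 w)
    (hint : ∀ a : A, IsIntegral (Algebra.adjoin K₀ (Set.range fun i => algebraMap A K (y i)))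
      (algebraMap A K a))
    (hdep : ¬ AlgebraicIndependent K₀ (fun i => algebraMap A K (y i))) :
    ∃ y' : Fin m → A, (∀ i, y' i ∈ 𝒜 w) ∧
      ∀ a : A, IsIntegral (Algebra.adjoin K₀ (Set.range fun i => algebraMap A K (y' i)))
        (algebraMap A K a) := by
  classical
  obtain ⟨d, G, hG, hG0, hGy⟩ := exists_homogeneous_relation 𝒜 K₀ K hw y hy hdep
  have hinj : Function.Injective (algebraMap (𝒜 0) K₀) := IsFractionRing.injective (𝒜 0) K₀
  have hinj' : Function.Injective (algebraMap A K) := IsFractionRing.injective A K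
  have hdom : IsDomain (𝒜 0) := (FaithfulSMul.algebraMap_injective (𝒜 0) A).isDomain
    (algebraMap (𝒜 0) A)
  have hinf : Infinite (𝒜 0) := by
    have : Infinite k := inferInstance
    refine Infinite.of_injective (algebraMap k (𝒜 0)) ?_
    intro a b h
    have h1 := congrArg (fun x : 𝒜 0 => (x : A)) h
    simp only [SetLike.GradeZero.coe_algebraMap] at h1
    exact (algebraMap k A).injective h1
  -- choose the point
  obtain ⟨v, hv⟩ : ∃ v : Fin (m + 1) → 𝒜 0, eval v (G * X (Fin.last m)) ≠ 0 := by
    by_contra h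
    push Not at h
    have h1 : G * X (Fin.last m) = 0 := MvPolynomial.funext fun v => by rw [h v, map_zero]
    exact (mul_ne_zero hG0 (X_ne_zero _)) h1
  rw [map_mul, eval_X] at hv
  set μ := v (Fin.last m) with hμ
  have hμ0 : μ ≠ 0 := right_ne_zero_of_mul hv
  have hGv : eval v G ≠ 0 := left_ne_zero_of_mul hv
  set z : A := y (Fin.last m) with hz
  have hμK : algebraMap A K (μ : A) ≠ 0 := by
    rw [map_ne_zero_iff _ hinj']
    intro h
    exact hμ0 (Subtype.ext h)
  let u : Fin (m + 1) → A := fun i => (μ : A) * y i - (v i : A) * z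
  have hu : ∀ i, u i ∈ 𝒜 w := by
    intro i
    have h1 := SetLike.GradedMul.mul_mem μ.2 (hy i)
    have h2 := SetLike.GradedMul.mul_mem (v i).2 (hy (Fin.last m))
    rw [zero_add] at h1 h2
    exact Submodule.sub_mem _ h1 h2
  have hulast : u (Fin.last m) = 0 := by
    simp only [u, ← hz, ← hμ, sub_self]
  refine ⟨fun i => u i.castSucc, fun i => hu _, ?_⟩
  let S' : Subalgebra K₀ K :=
    Algebra.adjoin K₀ (Set.range fun i : Fin m => algebraMap A K (u i.castSucc))
  have huS : ∀ i, algebraMap A K (u i) ∈ S' := by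
    intro i
    induction i using Fin.lastCases with
    | last => rw [hulast, map_zero]; exact S'.zero_mem
    | cast i => exact Algebra.subset_adjoin ⟨i, rfl⟩
  have hvS : ∀ r : 𝒜 0, algebraMap A K (r : A) ∈ S' := by
    intro r
    rw [algebraMap_zero_eq 𝒜 K₀ K]
    exact S'.algebraMap_mem _
  -- `z` is integral
  have hzint : IsIntegral S' (algebraMap A K z) := by
    rcases eq_or_ne z 0 with h0 | h0
    · rw [h0, map_zero]; exact isIntegral_zero
    have hzK : algebraMap A K z ≠ 0 := by rwa [map_ne_zero_iff _ hinj']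
    let g₀ : 𝒜 0 →+* S' := (algebraMap K₀ S').comp (algebraMap (𝒜 0) K₀)
    let P : Polynomial S' := eval₂ (Polynomial.C.comp g₀)
      (fun i => Polynomial.C (⟨_, hvS (v i)⟩ : S') + Polynomial.C (⟨_, huS i⟩ : S') * Polynomial.X) G
    have hP0 : P.coeff 0 = g₀ (eval v G) := by
      rw [Polynomial.coeff_zero_eq_eval_zero, ← Polynomial.coe_evalRingHom]
      simp only [P]
      rw [hom_eval₂]
      have h1 : (Polynomial.evalRingHom (0 : S')).comp (Polynomial.C.comp g₀) = g₀ := by
        ext r
        simp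
      have h2 : (fun i => Polynomial.evalRingHom (0 : S')
          (Polynomial.C (⟨_, hvS (v i)⟩ : S') +
            Polynomial.C (⟨_, huS i⟩ : S') * Polynomial.X)) = fun i => g₀ (v i) := by
        funext i
        rw [Polynomial.coe_evalRingHom, Polynomial.eval_add, Polynomial.eval_C,
          Polynomial.eval_mul, Polynomial.eval_X, mul_zero, add_zero]
        exact Subtype.ext (algebraMap_zero_eq 𝒜 K₀ K (v i))
      rw [h1, h2]
      have h3 := hom_eval₂ G (RingHom.id (𝒜 0)) g₀ v
      rw [RingHom.comp_id] at h3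
      exact h3.symm
    have hPu : IsUnit (P.coeff 0) := by
      rw [hP0]
      have h1 : IsUnit (algebraMap (𝒜 0) K₀ (eval v G)) := by
        rw [isUnit_iff_ne_zero]
        intro h
        rw [map_eq_zero_iff _ hinj] at h
        exact hGv h
      exact h1.map (algebraMap K₀ S')
    refine isIntegral_of_inv_root P hPu ?_
    have h4 : Polynomial.aeval (algebraMap A K z)⁻¹ P =
        aeval (fun i => ((algebraMap A K (μ : A)) / algebraMap A K z) * algebraMap A K (y i))
          (map (algebraMap (𝒜 0) K₀) G) := by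
      rw [Polynomial.aeval_def, ← Polynomial.coe_eval₂RingHom]
      simp only [P]
      rw [hom_eval₂, aeval_def, eval₂_map]
      congr 1
      · ext r
        simp only [RingHom.comp_apply, Polynomial.coe_eval₂RingHom, Polynomial.eval₂_C, g₀]
        rfl
      · funext i
        rw [Polynomial.coe_eval₂RingHom, Polynomial.eval₂_add, Polynomial.eval₂_mul,
          Polynomial.eval₂_C, Polynomial.eval₂_C, Polynomial.eval₂_X]
        change algebraMap A K (v i : A) + algebraMap A K ((μ : A) * y i - (v i : A) * z) *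
          (algebraMap A K z)⁻¹ = _
        rw [map_sub, map_mul, map_mul]
        field_simp
        ring
    rw [h4, aeval_const_mul_of_isHomogeneous (hG.map _), aeval_map_eq 𝒜 K₀ K, hGy, map_zero,
      mul_zero]
  -- all the `y i` are integral
  have hyint : ∀ i, IsIntegral S' (algebraMap A K (y i)) := by
    intro i
    have h1 : algebraMap A K (y i) = algebraMap K₀ K (algebraMap (𝒜 0) K₀ μ)⁻¹ *
        (algebraMap A K (u i) + algebraMap A K (v i : A) * algebraMap A K z) := by
      rw [map_inv₀, ← algebraMap_zero_eq 𝒜 K₀ K]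
      simp only [u, map_sub, map_mul]
      field_simp
      ring
    rw [h1]
    refine IsIntegral.mul ?_ (IsIntegral.add ?_ (IsIntegral.mul ?_ hzint))
    · exact isIntegral_algebraMap (R := S') (x := algebraMap K₀ S' (algebraMap (𝒜 0) K₀ μ)⁻¹)
    · exact isIntegral_algebraMap (R := S') (x := (⟨_, huS i⟩ : S'))
    · exact isIntegral_algebraMap (R := S') (x := (⟨_, hvS (v i)⟩ : S'))
  intro a
  refine isIntegral_trans_sub (S := S'.toSubring)
    (T := (Algebra.adjoin K₀ (Set.range fun i => algebraMap A K (y i))).toSubring) ?_ (hint a)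
  intro t ht
  have ht' : t ∈ Algebra.adjoin K₀ (Set.range fun i => algebraMap A K (y i)) := ht
  induction ht' using Algebra.adjoin_induction with
  | mem x hx =>
    obtain ⟨i, rfl⟩ := hx
    exact hyint i
  | algebraMap r => exact isIntegral_algebraMap (R := S') (x := algebraMap K₀ S' r)
  | add x y hx hy hx' hy' => exact IsIntegral.add (hx' hx) (hy' hy)
  | mul x y hx hy hx' hy' => exact IsIntegral.mul (hx' hx) (hy' hy)

/-- the starting point -/
lemma exists_start [Algebra.FiniteType k A] : ∃ (w : ℕ) (_ : 0 < w) (c : ℕ) (y : Fin c → A),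
    (∀ i, y i ∈ 𝒜 w) ∧
      ∀ a : A, IsIntegral (Algebra.adjoin K₀ (Set.range fun i => algebraMap A K (y i)))
        (algebraMap A K a) := by
  classical
  have hst : IsScalarTower k (𝒜 0) A :=
    ⟨fun a b c => by
      rw [Algebra.smul_def (a • b), Algebra.smul_def b, SetLike.GradeZero.algebraMap_apply,
        SetLike.GradeZero.algebraMap_apply, Submodule.coe_smul, smul_mul_assoc]⟩
  have hft : Algebra.FiniteType (𝒜 0) A := Algebra.FiniteType.of_restrictScalars_finiteType k _ _
  obtain ⟨s, hs, hs'⟩ := GradedAlgebra.exists_finset_adjoin_eq_top_and_homogeneous_ne_zero 𝒜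
  choose! n hn hn' using hs'
  let w := ∏ i ∈ s, n i
  have hw : 0 < w := Finset.prod_pos fun i hi => Nat.pos_of_ne_zero (hn i hi)
  let e := s.equivFin
  let y : Fin s.card → A := fun i => ((e.symm i : s) : A) ^ (w / n (e.symm i))
  have hdvd : ∀ i ∈ s, n i ∣ w := fun i hi => Finset.dvd_prod_of_mem n hi
  have hy : ∀ i, y i ∈ 𝒜 w := by
    intro i
    have h1 := SetLike.pow_mem_graded (w / n (e.symm i)) (hn' _ (e.symm i).2)
    rwa [smul_eq_mul, Nat.div_mul_cancel (hdvd _ (e.symm i).2)] at h1
  refine ⟨w, hw, s.card, y, hy, ?_⟩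
  intro a
  let S := Algebra.adjoin K₀ (Set.range fun i => algebraMap A K (y i))
  have ha : a ∈ Algebra.adjoin (𝒜 0) (s : Set A) := by rw [hs]; trivial
  induction ha using Algebra.adjoin_induction with
  | mem x hx =>
    have h1 : 0 < w / n x := Nat.div_pos (Nat.le_of_dvd hw (hdvd x hx))
      (Nat.pos_of_ne_zero (hn x hx))
    refine IsIntegral.of_pow h1 ?_
    have h2 : algebraMap A K x ^ (w / n x) = algebraMap A K (y (e ⟨x, hx⟩)) := by
      simp only [y, Equiv.symm_apply_apply, map_pow]
    rw [h2]
    exact isIntegral_algebraMap (R := S)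
      (x := (⟨_, Algebra.subset_adjoin ⟨e ⟨x, hx⟩, rfl⟩⟩ : S))
  | algebraMap r =>
    rw [SetLike.GradeZero.algebraMap_apply, algebraMap_zero_eq 𝒜 K₀ K]
    exact isIntegral_algebraMap (R := S) (x := algebraMap K₀ S (algebraMap (𝒜 0) K₀ r))
  | add x y _ _ hx hy => rw [map_add]; exact IsIntegral.add hx hy
  | mul x y _ _ hx hy => rw [map_mul]; exact IsIntegral.mul hx hy

/-- graded Noether normalization over the fraction field of the degree zero part,
all coordinates of the same degree. -/
theorem graded_noether [Algebra.FiniteType k A] :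
    ∃ (w : ℕ) (_ : 0 < w) (c : ℕ) (x : Fin c → A), (∀ i, x i ∈ 𝒜 w) ∧
      AlgebraicIndependent K₀ (fun i => algebraMap A K (x i)) ∧
      ∀ a : A, IsIntegral (Algebra.adjoin K₀ (Set.range fun i => algebraMap A K (x i)))
        (algebraMap A K a) := by
  classical
  obtain ⟨w, hw, c₀, y₀, hy₀, hint₀⟩ := exists_start 𝒜 K₀ K
  have hex : ∃ c : ℕ, ∃ y : Fin c → A, (∀ i, y i ∈ 𝒜 w) ∧
      ∀ a : A, IsIntegral (Algebra.adjoin K₀ (Set.range fun i => algebraMap A K (y i)))
        (algebraMap A K a) := ⟨c₀, y₀, hy₀, hint₀⟩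
  obtain ⟨c, ⟨y, hy, hint⟩, hmin⟩ : ∃ c : ℕ, (∃ y : Fin c → A, (∀ i, y i ∈ 𝒜 w) ∧
      ∀ a : A, IsIntegral (Algebra.adjoin K₀ (Set.range fun i => algebraMap A K (y i)))
        (algebraMap A K a)) ∧ ∀ m < c, ¬ ∃ y : Fin m → A, (∀ i, y i ∈ 𝒜 w) ∧
      ∀ a : A, IsIntegral (Algebra.adjoin K₀ (Set.range fun i => algebraMap A K (y i)))
        (algebraMap A K a) :=
    ⟨Nat.find hex, Nat.find_spec hex, fun m hm => Nat.find_min hex hm⟩
  refine ⟨w, hw, c, y, hy, ?_, hint⟩
  by_contra hdep
  rcases c with _ | m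
  · apply hdep
    rw [algebraicIndependent_empty_type_iff]
    exact (algebraMap K₀ K).injective
  · exact hmin m (Nat.lt_succ_self m) (reduce_step 𝒜 K₀ K hw y hy hint hdep)

end GNN

end Vale.Agent.P266
end
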