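import Mathlib

set_option linter.all false

section

/-!
# P266: a derivation preserving a DVR, looked at in a finite extension (local part)
-/

namespace Vale.Agent.P266

open Polynomial

section Local

lemma val_mul_lt_one {Γ : Type*} [LinearOrderedCommGroupWithZero Γ] {a b : Γ}
    (ha : a ≤ 1) (hb : b < 1) : a * b < 1 :=
  (mul_le_of_le_one_left' ha).trans_lt hb

variable {K Γ R₀ : Type*} [Field K] [LinearOrderedCommGroupWithZero Γ] [CommRing R₀]
  [Algebra R₀ K] (v : Valuation K Γ)

/-- the value of a derivation at `P(r)`, modulo the maximal ideal -/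
lemma val_deriv_aeval (_hR₀ : ∀ a : R₀, v (algebraMap R₀ K a) ≤ 1) (δ : Derivation ℤ K K)
    (hδ : ∀ a : R₀, v (δ (algebraMap R₀ K a)) < 1) {r : K} (hr : v r ≤ 1) (p : R₀[X]) :
    v (δ (aeval r p) - aeval r (derivative p) * δ r) < 1 := by
  induction p using Polynomial.induction_on' with
  | add p q hp hq =>
    have : δ (aeval r (p + q)) - aeval r (derivative (p + q)) * δ r =
        (δ (aeval r p) - aeval r (derivative p) * δ r) +
        (δ (aeval r q) - aeval r (derivative q) * δ r) := by
      simp only [map_add]; ring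
    rw [this]
    exact Valuation.map_add_lt v hp hq
  | monomial n a =>
    have h1 : δ (aeval r (monomial n a)) - aeval r (derivative (monomial n a)) * δ r =
        r ^ n * δ (algebraMap R₀ K a) := by
      rw [aeval_monomial, Derivation.leibniz, derivative_monomial, aeval_monomial,
        Derivation.leibniz_pow]
      simp only [smul_eq_mul, nsmul_eq_mul, map_mul, map_natCast]
      ring
    rw [h1, map_mul, map_pow]
    exact val_mul_lt_one (pow_le_one' hr n) (hδ a)

theorem val_pi_deriv_lt_one (t : K) (ht : v t < 1) (ht0 : t ≠ 0)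
    (hdisc : ∀ x, v x < 1 → v x ≤ v t)
    (hR₀ : ∀ a : R₀, v (algebraMap R₀ K a) ≤ 1) (θ : Derivation ℤ K K)
    (hθ : ∀ a : R₀, ∃ b : R₀, θ (algebraMap R₀ K a) = algebraMap R₀ K b)
    (π : R₀) (e : ℕ) (he : 1 ≤ e) (ε : K) (hε : v ε = 1)
    (hπ : algebraMap R₀ K π = ε * t ^ e) (hve : v (e : K) = 1)
    (hfin : ∃ M : ℕ, ∀ r, v r ≤ 1 → v (t ^ M * θ r) ≤ 1)
    (hres : ∀ r, v r ≤ 1 → ∃ p : R₀[X], v (aeval r p) < 1 ∧ v (aeval r (derivative p)) = 1) :
    ∀ r, v r ≤ 1 → v (algebraMap R₀ K π * θ r) < 1 := by
  classical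
  have hε0 : ε ≠ 0 := by
    intro h
    rw [h, map_zero] at hε
    exact zero_ne_one hε
  have hvπ : v (algebraMap R₀ K π) < 1 := by
    rw [hπ, map_mul, map_pow, hε, one_mul]
    exact pow_lt_one₀ zero_le ht (by omega)
  have hex : ∃ M : ℕ, ∀ r, v r ≤ 1 → v (t ^ M * (algebraMap R₀ K π * θ r)) ≤ 1 := by
    obtain ⟨M, hM⟩ := hfin
    refine ⟨M, fun r hr => ?_⟩
    have : t ^ M * (algebraMap R₀ K π * θ r) = algebraMap R₀ K π * (t ^ M * θ r) := by ring
    rw [this, map_mul]
    exact mul_le_one' hvπ.le (hM r hr)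
  -- the key claim
  have key : ∀ M : ℕ, (∀ r, v r ≤ 1 → v (t ^ M * (algebraMap R₀ K π * θ r)) ≤ 1) →
      ∀ r, v r ≤ 1 → v (t ^ M * (algebraMap R₀ K π * θ r)) < 1 := by
    intro M hM
    set c : K := t ^ M * algebraMap R₀ K π with hc
    let δ : Derivation ℤ K K := c • θ
    have hδapp : ∀ x, δ x = t ^ M * (algebraMap R₀ K π * θ x) := by
      intro x
      change c • θ x = _
      rw [smul_eq_mul, hc, mul_assoc]
    have hvt : v (t ^ M) ≤ 1 := by rw [map_pow]; exact pow_le_one' ht.le M
    have hδR₀ : ∀ a : R₀, v (δ (algebraMap R₀ K a)) < 1 := by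
      intro a
      obtain ⟨b, hb⟩ := hθ a
      rw [hδapp, hb, map_mul, map_mul]
      exact val_mul_lt_one hvt (mul_lt_one_of_lt_of_le hvπ (hR₀ b))
    -- `δ t` has positive valuation
    have hδt : v (δ t) < 1 := by
      obtain ⟨b, hb⟩ := hθ π
      -- e ε δ t = t (t^M ε θ π - δ ε)
      have h1 : θ (algebraMap R₀ K π) = ε * (e * t ^ (e - 1) * θ t) + t ^ e * θ ε := by
        rw [hπ, Derivation.leibniz, Derivation.leibniz_pow]
        simp only [smul_eq_mul, nsmul_eq_mul]
        ring
      have h2 : (e : K) * ε * δ t = t * (t ^ M * ε * θ (algebraMap R₀ K π) - δ ε) := by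
        rw [hδapp, hδapp, h1, hπ]
        obtain ⟨e', rfl⟩ : ∃ e', e = e' + 1 := ⟨e - 1, by omega⟩
        rw [Nat.add_sub_cancel]
        ring
      have h3 : v (e * ε * δ t) < 1 := by
        rw [h2, map_mul]
        refine mul_lt_one_of_lt_of_le ht ?_
        refine (Valuation.map_sub v _ _).trans (max_le ?_ ?_)
        · rw [map_mul, map_mul, hε, mul_one, hb]
          exact mul_le_one' hvt (hR₀ b)
        · rw [hδapp]
          exact hM ε hε.le
      rwa [map_mul, map_mul, hve, hε, one_mul, one_mul] at h3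
    intro r hr
    rw [← hδapp]
    obtain ⟨p, hp1, hp2⟩ := hres r hr
    have h4 := val_deriv_aeval v hR₀ δ hδR₀ hr p
    have h5 : v (δ (aeval r p)) < 1 := by
      have h6 : aeval r p = t * (aeval r p / t) := by field_simp
      have h7 : v (aeval r p / t) ≤ 1 := by
        rw [map_div₀]
        exact div_le_one_of_le₀ (hdisc _ hp1) zero_le
      rw [h6, Derivation.leibniz, smul_eq_mul, smul_eq_mul]
      refine Valuation.map_add_lt v ?_ ?_
      · rw [map_mul]
        refine mul_lt_one_of_lt_of_le ht ?_
        rw [hδapp]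
        exact hM _ h7
      · rw [map_mul]
        exact val_mul_lt_one h7 hδt
    have h8 : aeval r (derivative p) * δ r =
        δ (aeval r p) - (δ (aeval r p) - aeval r (derivative p) * δ r) := by ring
    have h9 : v (aeval r (derivative p) * δ r) < 1 := by
      rw [h8]
      exact Valuation.map_sub_lt v h5 h4
    rwa [map_mul, hp2, one_mul] at h9
  have hmin := Nat.find_spec hex
  have hkey := key _ hmin
  rcases Nat.eq_zero_or_pos (Nat.find hex) with h0 | hpos
  · intro r hr
    have := hkey r hr
    rwa [h0, pow_zero, one_mul] at this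
  · exfalso
    have hlt : Nat.find hex - 1 < Nat.find hex := by omega
    refine Nat.find_min hex hlt fun r hr => ?_
    have h1 := hdisc _ (hkey r hr)
    obtain ⟨m, hm⟩ : ∃ m, Nat.find hex = m + 1 := ⟨Nat.find hex - 1, by omega⟩
    rw [hm] at h1 ⊢
    rw [Nat.add_sub_cancel]
    have h2 : t ^ (m + 1) * (algebraMap R₀ K π * θ r) =
        t * (t ^ m * (algebraMap R₀ K π * θ r)) := by ring
    rw [h2, map_mul] at h1
    have hvt0 : 0 < v t := (Valuation.pos_iff v).2 ht0
    exact le_of_mul_le_mul_left (by simpa using h1) hvt0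

end Local

end Vale.Agent.P266
end

section

/-!
# P266: traces down to a discrete valuation ring
-/

namespace Vale.Agent.P266

open IsDedekindDomain IsDedekindDomain.HeightOneSpectrum

section TraceDVR

variable {R₀ L K C : Type*} [CommRing R₀] [IsDomain R₀] [IsDiscreteValuationRing R₀]
  [Field L] [Algebra R₀ L] [IsFractionRing R₀ L] [Field K] [Algebra L K] [FiniteDimensional L K]
  [Algebra.IsSeparable L K] [Algebra R₀ K] [IsScalarTower R₀ L K] [CommRing C]
  [Algebra R₀ C] [Algebra C K] [IsScalarTower R₀ C K] [IsIntegralClosure C R₀ K]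
  [IsDedekindDomain C] [IsFractionRing C K]

include L in
theorem trace_mem_maximalIdeal (y : K) (hy : ∀ Q : HeightOneSpectrum C, Q.valuation K y < 1) :
    ∃ r ∈ IsLocalRing.maximalIdeal R₀, Algebra.trace L K y = algebraMap R₀ L r := by
  obtain ⟨c, rfl⟩ := mem_integers_of_valuation_le_one (R := C) K y fun Q => (hy Q).le
  have hinj : Function.Injective (algebraMap R₀ C) := by
    have h1 : Function.Injective (algebraMap R₀ K) := by
      rw [IsScalarTower.algebraMap_eq R₀ L K]
      exact (algebraMap L K).injective.comp (IsFractionRing.injective R₀ L)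
    rw [IsScalarTower.algebraMap_eq R₀ C K] at h1
    exact Function.Injective.of_comp h1
  have hfin : Module.Finite R₀ C := IsIntegralClosure.finite R₀ L K C
  have : Module.IsTorsionFree R₀ C := by
    rw [Module.isTorsionFree_iff_algebraMap_injective]
    exact hinj
  have hfree : Module.Free R₀ C := Module.free_of_finite_type_torsion_free'
  obtain ⟨N, hN⟩ : ∃ N : ℕ, c ^ N ∈ Ideal.map (algebraMap R₀ C) (IsLocalRing.maximalIdeal R₀) := by
    have h1 : c ∈ (Ideal.map (algebraMap R₀ C) (IsLocalRing.maximalIdeal R₀)).radical := by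
      rw [Ideal.radical_eq_sInf, Ideal.mem_sInf]
      rintro P ⟨hP1, hP2⟩
      have hPne : P ≠ ⊥ := by
        rintro rfl
        obtain ⟨π, hπ⟩ := IsDiscreteValuationRing.exists_irreducible R₀
        have h2 : π ∈ IsLocalRing.maximalIdeal R₀ := by
          rw [IsLocalRing.mem_maximalIdeal]
          exact hπ.not_isUnit
        have h3 := hP1 (Ideal.mem_map_of_mem _ h2)
        rw [Ideal.mem_bot, map_eq_zero_iff _ hinj] at h3
        exact hπ.ne_zero h3
      have h4 := hy ⟨P, hP2, hPne⟩
      rwa [valuation_lt_one_iff_mem] at h4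
    exact h1
  let := Ideal.Quotient.field (IsLocalRing.maximalIdeal R₀)
  have hnil : IsNilpotent (Ideal.Quotient.mk
      (Ideal.map (algebraMap R₀ C) (IsLocalRing.maximalIdeal R₀)) c) := by
    refine ⟨N, ?_⟩
    rw [← map_pow]
    exact Ideal.Quotient.eq_zero_iff_mem.2 hN
  have htr := Algebra.trace_quotient_mk (R := R₀) (S := C) c
  have hnil2 := Algebra.isNilpotent_trace_of_isNilpotent
    (R := R₀ ⧸ IsLocalRing.maximalIdeal R₀) hnil
  rw [htr] at hnil2
  have h5 := hnil2.eq_zero
  rw [Ideal.Quotient.eq_zero_iff_mem] at h5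
  refine ⟨_, h5, ?_⟩
  have : IsLocalization (Algebra.algebraMapSubmonoid C (nonZeroDivisors R₀)) K :=
    IsIntegralClosure.isLocalization R₀ L K C
  exact Algebra.trace_localization R₀ (nonZeroDivisors R₀) c

end TraceDVR

end Vale.Agent.P266
end

section

/-!
# P266: a derivation preserving a DVR, in a finite extension
-/

namespace Vale.Agent.P266

open IsDedekindDomain IsDedekindDomain.HeightOneSpectrum Polynomial

section General

variable {K R₀ : Type*} {Γ : Type*} [Field K] [LinearOrderedCommGroupWithZero Γ] [CommRing R₀]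
  [Algebra R₀ K] (v : Valuation K Γ)

lemma val_aeval_sub_lt (hR₀ : ∀ a : R₀, v (algebraMap R₀ K a) ≤ 1) {a b : K} (ha : v a ≤ 1)
    (hb : v b ≤ 1) (hab : v (a - b) < 1) (p : R₀[X]) : v (aeval a p - aeval b p) < 1 := by
  induction p using Polynomial.induction_on' with
  | add p q hp hq =>
    have : aeval a (p + q) - aeval b (p + q) =
        (aeval a p - aeval b p) + (aeval a q - aeval b q) := by
      simp only [map_add]; ring
    rw [this]
    exact Valuation.map_add_lt v hp hq
  | monomial n c =>
    have h1 : aeval a (monomial n c) - aeval b (monomial n c) =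
        algebraMap R₀ K c * (∑ i ∈ Finset.range n, a ^ i * b ^ (n - 1 - i)) * (a - b) := by
      rw [aeval_monomial, aeval_monomial, mul_assoc, (Commute.all a b).geom_sum₂_mul]
      ring
    rw [h1, map_mul]
    refine val_mul_lt_one ?_ hab
    rw [map_mul]
    refine mul_le_one' (hR₀ c) (Valuation.map_sum_le v fun i _ => ?_)
    rw [map_mul, map_pow, map_pow]
    exact mul_le_one' (pow_le_one' ha _) (pow_le_one' hb _)

end General

section DVRDer

variable {R₀ L K C : Type*} [CommRing R₀] [IsDomain R₀] [IsDiscreteValuationRing R₀]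
  [Field L] [Algebra R₀ L] [IsFractionRing R₀ L] [Field K] [Algebra L K] [FiniteDimensional L K]
  [Algebra.IsSeparable L K] [Algebra R₀ K] [IsScalarTower R₀ L K] [CommRing C]
  [Algebra R₀ C] [Algebra C K] [IsScalarTower R₀ C K] [IsIntegralClosure C R₀ K]
  [IsDedekindDomain C] [IsFractionRing C K]

include L in
theorem val_pi_mul_lt_one (hQ : ∀ n : ℕ, n ≠ 0 → IsUnit (n : R₀))
    (θ : Derivation ℤ K K)
    (hθ : ∀ a : R₀, ∃ b : R₀, θ (algebraMap R₀ K a) = algebraMap R₀ K b)
    (π : R₀) (hπ : Irreducible π) (Q : HeightOneSpectrum C) :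
    ∀ r, Q.valuation K r ≤ 1 → Q.valuation K (algebraMap R₀ K π * θ r) < 1 := by
  classical
  set v := Q.valuation K with hv
  have hinjK : Function.Injective (algebraMap R₀ K) := by
    rw [IsScalarTower.algebraMap_eq R₀ L K]
    exact (algebraMap L K).injective.comp (IsFractionRing.injective R₀ L)
  have hint : Algebra.IsIntegral R₀ C := IsIntegralClosure.isIntegral_algebra R₀ K
  have hR₀ : ∀ a : R₀, v (algebraMap R₀ K a) ≤ 1 := by
    intro a
    rw [IsScalarTower.algebraMap_apply R₀ C K]
    exact Q.valuation_le_one _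
  have hC : ∀ c : C, v (algebraMap C K c) ≤ 1 := fun c => Q.valuation_le_one c
  -- `Q` lies over the maximal ideal
  have hcomap : Q.asIdeal.comap (algebraMap R₀ C) = IsLocalRing.maximalIdeal R₀ := by
    have h1 : (Q.asIdeal.comap (algebraMap R₀ C)).IsMaximal := by
      have := Q.isMaximal
      exact Ideal.isMaximal_comap_of_isIntegral_of_isMaximal Q.asIdeal
    exact IsLocalRing.eq_maximalIdeal h1
  have hmem : ∀ a : R₀, a ∈ IsLocalRing.maximalIdeal R₀ → v (algebraMap R₀ K a) < 1 := by
    intro a ha
    rw [IsScalarTower.algebraMap_apply R₀ C K, hv, valuation_lt_one_iff_mem]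
    rw [← hcomap] at ha
    exact ha
  have hunit : ∀ a : R₀, IsUnit a → v (algebraMap R₀ K a) = 1 := by
    intro a ha
    obtain ⟨u, rfl⟩ := ha
    refine le_antisymm (hR₀ _) ?_
    have h1 : v (algebraMap R₀ K (u : R₀)) * v (algebraMap R₀ K ((u⁻¹ : R₀ˣ) : R₀)) = 1 := by
      rw [← map_mul, ← map_mul, Units.mul_inv, map_one, map_one]
    rw [← h1]
    exact mul_le_of_le_one_right' (hR₀ _)
  obtain ⟨t, ht⟩ := Q.valuation_exists_uniformizer' K
  have ht' : v (algebraMap C K t) = WithZero.exp (-1) := ht
  have ht1 : v (algebraMap C K t) < 1 := by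
    rw [ht', ← WithZero.exp_zero, WithZero.exp_lt_exp]; norm_num
  have ht0 : algebraMap C K t ≠ 0 := by
    intro h
    rw [h, map_zero] at ht'
    exact WithZero.exp_ne_zero ht'.symm
  have hdisc : ∀ x, v x < 1 → v x ≤ v (algebraMap C K t) := by
    intro x hx
    rw [ht']
    rcases eq_or_ne (v x) 0 with h0 | h0
    · rw [h0]; exact zero_le
    · rw [← WithZero.exp_log h0] at hx ⊢
      rw [← WithZero.exp_zero, WithZero.exp_lt_exp] at hx
      rw [WithZero.exp_le_exp]
      omega
  have hπv : v (algebraMap R₀ K π) < 1 := hmem π (by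
    rw [IsLocalRing.mem_maximalIdeal]; exact hπ.not_isUnit)
  have hπ0 : v (algebraMap R₀ K π) ≠ 0 := by
    rw [Valuation.ne_zero_iff]
    intro h
    exact hπ.ne_zero (hinjK (by rw [h, map_zero]))
  obtain ⟨e, he, he'⟩ : ∃ e : ℕ, 1 ≤ e ∧ v (algebraMap R₀ K π) = v (algebraMap C K t) ^ e := by
    refine ⟨(-(WithZero.log (v (algebraMap R₀ K π)))).toNat, ?_, ?_⟩
    · rw [← WithZero.exp_log hπ0, ← WithZero.exp_zero, WithZero.exp_lt_exp] at hπv
      omega
    · rw [← WithZero.exp_log hπ0, ← WithZero.exp_zero, WithZero.exp_lt_exp] at hπv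
      rw [ht', ← WithZero.exp_nsmul]
      conv_lhs => rw [← WithZero.exp_log hπ0]
      congr 1
      simp only [nsmul_eq_mul]
      rw [Int.toNat_of_nonneg (by omega)]
      ring
  have hε1 : v (algebraMap R₀ K π / algebraMap C K t ^ e) = 1 := by
    rw [map_div₀, map_pow, he', div_self]
    exact pow_ne_zero _ (by rw [ht']; exact WithZero.exp_ne_zero)
  refine val_pi_deriv_lt_one v (algebraMap C K t) ht1 ht0 hdisc hR₀ θ hθ π e he
    (algebraMap R₀ K π / algebraMap C K t ^ e) hε1 (by field_simp) ?_ ?_ ?_
  · -- `e` is a unit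
    have := hunit (e : R₀) (hQ e (by omega))
    rwa [map_natCast] at this
  · -- finiteness
    have hfin : Module.Finite R₀ C := IsIntegralClosure.finite R₀ L K C
    obtain ⟨s, hs⟩ := hfin.fg_top
    have hb : ∀ x : K, ∃ n : ℕ, ∀ m, n ≤ m → v (algebraMap C K t ^ m * x) ≤ 1 := by
      intro x
      rcases eq_or_ne (v x) 0 with h0 | h0
      · exact ⟨0, fun m _ => by rw [map_mul, h0, mul_zero]; exact zero_le⟩
      · refine ⟨(WithZero.log (v x)).toNat, fun m hm => ?_⟩
        rw [map_mul, map_pow, ht', ← WithZero.exp_nsmul]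
        conv_lhs => rw [← WithZero.exp_log h0]
        rw [← WithZero.exp_add, ← WithZero.exp_zero, WithZero.exp_le_exp]
        simp only [nsmul_eq_mul]
        have : WithZero.log (v x) ≤ m := by
          have := Int.self_le_toNat (WithZero.log (v x))
          omega
        linarith
    choose n hn using hb
    refine ⟨s.sup fun c => n (θ (algebraMap C K c)), ?_⟩
    set M := s.sup fun c => n (θ (algebraMap C K c)) with hM
    have h1 : ∀ c : C, v (algebraMap C K t ^ M * θ (algebraMap C K c)) ≤ 1 := by
      intro c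
      have hc : c ∈ Submodule.span R₀ (s : Set C) := by rw [hs]; trivial
      induction hc using Submodule.span_induction with
      | mem c hc => exact hn _ _ (Finset.le_sup (f := fun c => n (θ (algebraMap C K c))) hc)
      | zero => simp
      | add a b _ _ ha hb =>
        rw [map_add, map_add, mul_add]
        exact Valuation.map_add_le v ha hb
      | smul a c _ hc =>
        obtain ⟨b, hb⟩ := hθ a
        have h2 : algebraMap C K t ^ M * θ (algebraMap C K (a • c)) =
            algebraMap R₀ K a * (algebraMap C K t ^ M * θ (algebraMap C K c)) +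
            algebraMap C K t ^ M * (algebraMap C K c * algebraMap R₀ K b) := by
          rw [Algebra.smul_def, map_mul, ← IsScalarTower.algebraMap_apply, Derivation.leibniz, hb]
          simp only [smul_eq_mul]
          ring
        rw [h2]
        refine Valuation.map_add_le v ?_ ?_
        · rw [map_mul]
          exact mul_le_one' (hR₀ a) hc
        · rw [map_mul, map_mul, map_pow]
          exact mul_le_one' (pow_le_one' ht1.le _) (mul_le_one' (hC c) (hR₀ b))
    intro r hr
    obtain ⟨c, ⟨d, hd⟩, hcd⟩ := Q.exists_primeCompl_mul_eq_of_integer r hr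
    have hd1 : v (algebraMap C K d) = 1 := by
      rw [hv, valuation_eq_one_iff_notMem]
      exact hd
    have h3 : algebraMap C K d * (algebraMap C K t ^ M * θ r) =
        algebraMap C K t ^ M * θ (algebraMap C K c) -
        r * (algebraMap C K t ^ M * θ (algebraMap C K d)) := by
      have h4 : θ (algebraMap C K c) = r * θ (algebraMap C K d) + algebraMap C K d * θ r := by
        rw [← hcd, Derivation.leibniz]
        rfl
      rw [h4]; ring
    have h5 : v (algebraMap C K d * (algebraMap C K t ^ M * θ r)) ≤ 1 := by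
      rw [h3]
      refine (Valuation.map_sub v _ _).trans (max_le (h1 c) ?_)
      rw [map_mul]
      exact mul_le_one' hr (h1 d)
    rwa [map_mul, hd1, one_mul] at h5
  · -- residual algebraicity
    intro r hr
    obtain ⟨c, hc⟩ := Q.exists_valuation_sub_lt_of_integer hr 1
    have hc' : v (algebraMap C K c - r) < 1 := by simpa using hc
    have hle : IsLocalRing.maximalIdeal R₀ ≤ Q.asIdeal.comap (algebraMap R₀ C) := hcomap.ge
    let : Algebra (R₀ ⧸ IsLocalRing.maximalIdeal R₀) (C ⧸ Q.asIdeal) :=
      Ideal.Quotient.algebraQuotientOfLEComap hle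
    let := Ideal.Quotient.field (IsLocalRing.maximalIdeal R₀)
    have := Q.isMaximal
    let := Ideal.Quotient.field Q.asIdeal
    have hmk : ∀ p : R₀[X], aeval (Ideal.Quotient.mk Q.asIdeal c)
        (p.map (Ideal.Quotient.mk (IsLocalRing.maximalIdeal R₀))) =
        Ideal.Quotient.mk Q.asIdeal (aeval c p) := by
      intro p
      rw [aeval_def, eval₂_map, aeval_def, hom_eval₂]
      rfl
    have hcint : IsIntegral (R₀ ⧸ IsLocalRing.maximalIdeal R₀) (Ideal.Quotient.mk Q.asIdeal c) := by
      obtain ⟨p, hp1, hp2⟩ := Algebra.IsIntegral.isIntegral (R := R₀) c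
      refine ⟨p.map (Ideal.Quotient.mk _), hp1.map _, ?_⟩
      rw [← aeval_def, hmk, aeval_def, hp2, map_zero]
    have hchar : CharZero (R₀ ⧸ IsLocalRing.maximalIdeal R₀) := by
      refine charZero_of_inj_zero fun n hn => ?_
      by_contra h
      have h1 := (hQ n h).map (Ideal.Quotient.mk (IsLocalRing.maximalIdeal R₀))
      rw [map_natCast, hn] at h1
      exact not_isUnit_zero h1
    have hsep : (minpoly (R₀ ⧸ IsLocalRing.maximalIdeal R₀)
        (Ideal.Quotient.mk Q.asIdeal c)).Separable := (minpoly.irreducible hcint).separable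
    obtain ⟨p, hp⟩ := Polynomial.map_surjective
      (Ideal.Quotient.mk (IsLocalRing.maximalIdeal R₀)) Ideal.Quotient.mk_surjective
      (minpoly (R₀ ⧸ IsLocalRing.maximalIdeal R₀) (Ideal.Quotient.mk Q.asIdeal c))
    have h1 : v (algebraMap C K (aeval c p)) < 1 := by
      rw [hv, valuation_lt_one_iff_mem, ← Ideal.Quotient.eq_zero_iff_mem, ← hmk, hp,
        minpoly.aeval]
    have h2 : v (algebraMap C K (aeval c (derivative p))) = 1 := by
      rw [hv, valuation_eq_one_iff_notMem, ← Ideal.Quotient.eq_zero_iff_mem, ← hmk,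
        ← derivative_map, hp]
      exact hsep.aeval_derivative_ne_zero (minpoly.aeval _ _)
    have h3 : v (algebraMap C K c) ≤ 1 := hC c
    have h4 : ∀ q : R₀[X], v (aeval r q - algebraMap C K (aeval c q)) < 1 := by
      intro q
      rw [← aeval_algebraMap_apply]
      refine val_aeval_sub_lt v hR₀ hr h3 ?_ q
      rwa [Valuation.map_sub_swap]
    refine ⟨p, ?_, ?_⟩
    · have : aeval r p = (aeval r p - algebraMap C K (aeval c p)) + algebraMap C K (aeval c p) := by
        ring
      rw [this]
      exact Valuation.map_add_lt v (h4 p) h1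
    · have : aeval r (derivative p) = (aeval r (derivative p) -
          algebraMap C K (aeval c (derivative p))) + algebraMap C K (aeval c (derivative p)) := by
        ring
      rw [this, Valuation.map_add_eq_of_lt_right v (by rw [h2]; exact h4 _), h2]

end DVRDer

end Vale.Agent.P266
end

section

/-!
# P266: extending linear forms on the derivation module to the fraction field
-/

namespace Vale.Agent.P266

section OmegaExt

variable {k A K : Type*} [Field k] [CommRing A] [IsDomain A] [Algebra k A]
  [Field K] [Algebra A K] [IsFractionRing A K] [Algebra k K] [IsScalarTower k A K]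

omit [IsDomain A] in
/-- a derivation `A → K` with values in `A` comes from a derivation of `A` -/
theorem exists_der_of_range (D : Derivation k A K)
    (h : ∀ a, D a ∈ (algebraMap A K).range) :
    ∃ D₀ : Derivation k A A, ∀ a, algebraMap A K (D₀ a) = D a := by
  have hinj : Function.Injective (algebraMap A K) := IsFractionRing.injective A K
  choose g hg using h
  refine ⟨Derivation.mk' { toFun := g, map_add' := fun a b => hinj ?_,
                           map_smul' := fun c a => hinj ?_ } fun a b => hinj ?_, fun a => hg a⟩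
  · rw [map_add, hg, hg, hg, map_add]
  · rw [hg, RingHom.id_apply, Derivation.map_smul, Algebra.smul_def c (g a), map_mul, hg,
      ← IsScalarTower.algebraMap_apply, Algebra.smul_def]
  · change algebraMap A K (g (a * b)) = algebraMap A K (a • g b + b • g a)
    rw [hg, Derivation.leibniz, smul_eq_mul, smul_eq_mul, map_add, map_mul, map_mul, hg, hg,
      Algebra.smul_def, Algebra.smul_def]

omit [IsDomain A] [IsFractionRing A K] [IsScalarTower k A K] in
/-- if a derivation is integral on generators, it is integral -/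
theorem der_range_of_adjoin (D : Derivation k A K) (s : Set A)
    (hs : Algebra.adjoin k s = ⊤) (h : ∀ a ∈ s, D a ∈ (algebraMap A K).range) (a : A) :
    D a ∈ (algebraMap A K).range := by
  have ha : a ∈ Algebra.adjoin k s := by rw [hs]; trivial
  induction ha using Algebra.adjoin_induction with
  | mem x hx => exact h x hx
  | algebraMap r => rw [Derivation.map_algebraMap]; exact zero_mem _
  | add x y _ _ hx hy => rw [map_add]; exact add_mem hx hy
  | mul x y _ _ hx hy =>
    rw [Derivation.leibniz, Algebra.smul_def, Algebra.smul_def]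
    exact add_mem (mul_mem ⟨x, rfl⟩ hy) (mul_mem ⟨y, rfl⟩ hx)

/-- the base change map `Der(A, A) → Der(A, K)` -/
noncomputable abbrev derToFrac (k A K : Type*) [Field k] [CommRing A] [Algebra k A]
    [Field K] [Algebra A K] [Algebra k K] [IsScalarTower k A K] :
    Derivation k A A →ₗ[A] Derivation k A K :=
  (Algebra.linearMap A K).compDer

omit [IsDomain A] [IsFractionRing A K] in
lemma derToFrac_apply (D : Derivation k A A) (a : A) :
    derToFrac k A K D a = algebraMap A K (D a) := rfl

instance isLocalizedModule_derToFrac [Algebra.FiniteType k A] :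
    IsLocalizedModule (nonZeroDivisors A) (derToFrac k A K) where
  map_units := by
    intro x
    have hx : algebraMap A K (x : A) ≠ 0 := by
      have := nonZeroDivisors.ne_zero x.2
      intro h
      exact this ((map_eq_zero_iff _ (IsFractionRing.injective A K)).1 h)
    rw [Module.End.isUnit_iff]
    have happ : ∀ D : Derivation k A K, (algebraMap A (Module.End A (Derivation k A K))) (x : A) D =
        (algebraMap A K (x : A)) • D := fun D => by
      rw [Module.algebraMap_end_apply, algebraMap_smul]
    constructor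
    · intro D D' h
      rw [happ, happ] at h
      have := congrArg (fun E => (algebraMap A K (x : A))⁻¹ • E) h
      simp only [smul_smul, inv_mul_cancel₀ hx, one_smul] at this
      exact this
    · intro D
      refine ⟨(algebraMap A K (x : A))⁻¹ • D, ?_⟩
      rw [happ, smul_smul, mul_inv_cancel₀ hx, one_smul]
  surj := by
    classical
    intro D
    obtain ⟨s, hs⟩ := (Algebra.FiniteType.out (R := k) (A := A))
    obtain ⟨b, hb⟩ := IsLocalization.exist_integer_multiples_of_finset (nonZeroDivisors A)
      (s.image D)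
    have h1 : ∀ a, (((b : A) • D : Derivation k A K)) a ∈ (algebraMap A K).range := by
      refine der_range_of_adjoin _ (s : Set A) hs ?_
      intro a ha
      exact hb (D a) (Finset.mem_image_of_mem _ ha)
    obtain ⟨D₀, hD₀⟩ := exists_der_of_range _ h1
    refine ⟨(D₀, b), ?_⟩
    ext a
    rw [derToFrac_apply, hD₀]
    rfl
  exists_of_eq := by
    intro D D' h
    refine ⟨1, ?_⟩
    congr 1
    ext a
    refine IsFractionRing.injective A K ?_
    rw [← derToFrac_apply, h, derToFrac_apply]

/-- extension of linear forms -/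
theorem exists_omegaExt [Algebra.FiniteType k A] (ω : Derivation k A A →ₗ[A] A) :
    ∃ Ω : Derivation k K K →ₗ[K] K, ∀ (D : Derivation k K K) (D₀ : Derivation k A A),
      (∀ a, D (algebraMap A K a) = algebraMap A K (D₀ a)) → Ω D = algebraMap A K (ω D₀) := by
  have hu : ∀ x : nonZeroDivisors A, IsUnit ((algebraMap A (Module.End A K)) x) :=
    IsLocalizedModule.map_units (S := nonZeroDivisors A) (Algebra.linearMap A K)
  let ω' : Derivation k A K →ₗ[A] K :=
    IsLocalizedModule.lift (nonZeroDivisors A) (derToFrac k A K)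
      ((Algebra.linearMap A K).comp ω) hu
  let ω'' : Derivation k A K →ₗ[K] K :=
    ω'.extendScalarsOfIsLocalization (nonZeroDivisors A) K
  let res : Derivation k K K →ₗ[K] Derivation k A K :=
    { toFun := fun D => D.compAlgebraMap A
      map_add' := fun _ _ => rfl
      map_smul' := fun _ _ => rfl }
  refine ⟨ω''.comp res, ?_⟩
  intro D D₀ h
  have h1 : res D = derToFrac k A K D₀ := by
    ext a
    exact h a
  change ω' (res D) = _
  rw [h1]
  exact IsLocalizedModule.lift_apply (nonZeroDivisors A) (derToFrac k A K) _ hu D₀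

end OmegaExt

end Vale.Agent.P266
end

section

/-!
# P266: the trace of `Ω θ` is integral at a DVR
-/

namespace Vale.Agent.P266

open IsDedekindDomain IsDedekindDomain.HeightOneSpectrum Polynomial

section Frac

variable {A K R₀ : Type*} [CommRing A] [IsDomain A] [IsIntegrallyClosed A]
  [Field K] [Algebra A K] [IsFractionRing A K] [CommRing R₀] [Algebra R₀ K]

/-- elements of `A` which are units of `R₀` -/
def UnitIn (R₀ : Type*) {A : Type*} (K : Type*) [CommRing A] [Field K] [Algebra A K] [CommRing R₀]
    [Algebra R₀ K] (s : A) : Prop := ∃ u : R₀ˣ, algebraMap A K s = algebraMap R₀ K u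

omit [IsDomain A] [IsIntegrallyClosed A] [IsFractionRing A K] in
lemma UnitIn.one : UnitIn R₀ K (1 : A) := ⟨1, by simp⟩

omit [IsDomain A] [IsIntegrallyClosed A] [IsFractionRing A K] in
lemma UnitIn.mul {s t : A} (hs : UnitIn R₀ K s) (ht : UnitIn R₀ K t) : UnitIn R₀ K (s * t) := by
  obtain ⟨u, hu⟩ := hs
  obtain ⟨w, hw⟩ := ht
  exact ⟨u * w, by rw [map_mul, hu, hw, Units.val_mul, map_mul]⟩

omit [IsDomain A] [IsIntegrallyClosed A] [IsFractionRing A K] in
lemma exists_unitIn_finset {X : Type*} (g : X → K) (F : Finset X)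
    (h : ∀ x ∈ F, ∃ s : A, UnitIn R₀ K s ∧ ∃ a : A, algebraMap A K a = algebraMap A K s * g x) :
    ∃ s : A, UnitIn R₀ K s ∧ ∀ x ∈ F, ∃ a : A, algebraMap A K a = algebraMap A K s * g x := by
  classical
  induction F using Finset.induction_on with
  | empty => exact ⟨1, UnitIn.one, by simp⟩
  | insert x F hx ih =>
    obtain ⟨s, hs, hs'⟩ := ih fun y hy => h y (Finset.mem_insert_of_mem hy)
    obtain ⟨t, ht, a, ha⟩ := h x (Finset.mem_insert_self _ _)
    refine ⟨s * t, hs.mul ht, ?_⟩
    intro y hy
    rcases Finset.mem_insert.1 hy with rfl | hy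
    · exact ⟨s * a, by rw [map_mul, map_mul, ha]; ring⟩
    · obtain ⟨b, hb⟩ := hs' y hy
      exact ⟨t * b, by rw [map_mul, map_mul, hb]; ring⟩

/-- elements integral over `R₀` are fractions of `A` with denominators units in `R₀`. -/
lemma exists_unitIn_of_isIntegral
    (hR : ∀ r : R₀, ∃ s : A, UnitIn R₀ K s ∧
      ∃ a : A, algebraMap A K a = algebraMap A K s * algebraMap R₀ K r)
    (c : K) (hc : IsIntegral R₀ c) :
    ∃ s : A, UnitIn R₀ K s ∧ ∃ a : A, algebraMap A K a = algebraMap A K s * c := by
  classical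
  obtain ⟨p, hp, hpc⟩ := hc
  obtain ⟨s, hs, hs'⟩ := exists_unitIn_finset (A := A) (fun i : ℕ => algebraMap R₀ K (p.coeff i))
    (Finset.range p.natDegree) (fun i _ => hR _)
  choose! a ha using hs'
  refine ⟨s, hs, ?_⟩
  have hint : IsIntegral A (algebraMap A K s * c) := by
    rcases Nat.eq_zero_or_pos p.natDegree with h0 | hpos
    · exfalso
      have hp1 : p = 1 := hp.natDegree_eq_zero.1 h0
      rw [hp1, eval₂_one] at hpc
      exact one_ne_zero hpc
    set n := p.natDegree with hn
    let q : A[X] := X ^ n + ∑ i ∈ Finset.range n, C (a i * s ^ (n - 1 - i)) * X ^ i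
    refine ⟨q, ?_, ?_⟩
    · refine monic_X_pow_add ?_
      rw [degree_lt_iff_coeff_zero]
      intro m hm
      rw [finsetSum_coeff]
      refine Finset.sum_eq_zero fun i hi => ?_
      rw [coeff_C_mul_X_pow, if_neg]
      have := Finset.mem_range.1 hi
      omega
    · rw [eval₂_eq_sum_range] at hpc
      rw [Finset.sum_range_succ, ← hn] at hpc
      have hlc : p.coeff n = 1 := hp.coeff_natDegree
      rw [hlc, map_one, one_mul] at hpc
      simp only [q, eval₂_add, eval₂_pow, eval₂_X, eval₂_finsetSum, eval₂_mul, eval₂_C,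
        map_mul, map_pow]
      have h1 : ∀ i ∈ Finset.range n, algebraMap A K (a i) * algebraMap A K s ^ (n - 1 - i) *
          (algebraMap A K s * c) ^ i =
          algebraMap A K s ^ n * (algebraMap R₀ K (p.coeff i) * c ^ i) := by
        intro i hi
        rw [ha i hi]
        have hi' := Finset.mem_range.1 hi
        have h2 : algebraMap A K s ^ n = algebraMap A K s * algebraMap A K s ^ (n - 1 - i) *
            algebraMap A K s ^ i := by
          rw [← pow_succ', ← pow_add]
          congr 1
          omega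
        rw [h2, mul_pow]
        ring
      rw [Finset.sum_congr rfl h1, ← Finset.mul_sum, mul_pow, ← mul_add]
      rw [add_comm (c ^ n), hpc, mul_zero]
  obtain ⟨b, hb⟩ := IsIntegrallyClosed.isIntegral_iff.1 hint
  exact ⟨b, hb⟩

end Frac

section Main

variable {k A K R₀ L : Type*} [Field k] [CommRing A] [IsDomain A] [IsIntegrallyClosed A]
  [Algebra k A] [Algebra.FiniteType k A] [Field K] [Algebra A K] [IsFractionRing A K]
  [Algebra k K] [IsScalarTower k A K]
  [CommRing R₀] [IsDomain R₀] [IsDiscreteValuationRing R₀]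
  [Field L] [Algebra R₀ L] [IsFractionRing R₀ L] [Algebra L K] [FiniteDimensional L K]
  [Algebra.IsSeparable L K] [Algebra R₀ K] [IsScalarTower R₀ L K]

theorem trace_omega_mem_dvr
    (hA : ∀ a : A, IsIntegral R₀ (algebraMap A K a))
    (hR : ∀ r : R₀, ∃ s : A, UnitIn R₀ K s ∧
      ∃ a : A, algebraMap A K a = algebraMap A K s * algebraMap R₀ K r)
    (hQ : ∀ n : ℕ, n ≠ 0 → IsUnit (n : R₀))
    (θ : Derivation k K K)
    (hθ : ∀ a : R₀, ∃ b : R₀, θ (algebraMap R₀ K a) = algebraMap R₀ K b)
    (Ω : Derivation k K K →ₗ[K] K)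
    (hΩ : ∀ D : Derivation k K K, (∀ a : A, D (algebraMap A K a) ∈ (algebraMap A K).range) →
      Ω D ∈ (algebraMap A K).range) :
    ∃ r : R₀, Algebra.trace L K (Ω θ) = algebraMap R₀ L r := by
  classical
  let C := integralClosure R₀ K
  have hCD : IsDedekindDomain C := integralClosure.isDedekindDomain R₀ L K
  have hCF : IsFractionRing C K := integralClosure.isFractionRing_of_finite_extension L K
  obtain ⟨π, hπ⟩ := IsDiscreteValuationRing.exists_irreducible R₀
  have hπK : algebraMap R₀ K π ≠ 0 := by
    rw [IsScalarTower.algebraMap_apply R₀ L K]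
    intro h
    rw [map_eq_zero, map_eq_zero_iff _ (IsFractionRing.injective R₀ L)] at h
    exact hπ.ne_zero h
  have hval : ∀ Q : HeightOneSpectrum C, Q.valuation K (algebraMap R₀ K π * Ω θ) < 1 := by
    intro Q
    have hC : ∀ c : C, Q.valuation K (algebraMap C K c) ≤ 1 := fun c => Q.valuation_le_one c
    have hAC : ∀ a : A, ∃ c : C, algebraMap C K c = algebraMap A K a := fun a =>
      ⟨⟨algebraMap A K a, hA a⟩, rfl⟩
    have hRC : ∀ a : R₀, ∃ c : C, algebraMap C K c = algebraMap R₀ K a := fun a =>
      ⟨algebraMap R₀ C a, rfl⟩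
    have hunit : ∀ s : A, UnitIn R₀ K s → Q.valuation K (algebraMap A K s) = 1 := by
      rintro s ⟨u, hu⟩
      rw [hu]
      obtain ⟨c, hc⟩ := hRC u
      obtain ⟨c', hc'⟩ := hRC (u⁻¹ : R₀ˣ)
      refine le_antisymm (hc ▸ hC c) ?_
      have h1 : Q.valuation K (algebraMap R₀ K (u : R₀)) *
          Q.valuation K (algebraMap R₀ K ((u⁻¹ : R₀ˣ) : R₀)) = 1 := by
        rw [← map_mul, ← map_mul, Units.mul_inv, map_one, map_one]
      rw [← h1]
      exact mul_le_of_le_one_right' (hc' ▸ hC c')
    have hmain := val_pi_mul_lt_one (L := L) (C := C) hQ (θ.restrictScalars ℤ) hθ π hπ Q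
    obtain ⟨t, ht⟩ := Q.valuation_exists_uniformizer' K
    have ht' : Q.valuation K (algebraMap C K t) = WithZero.exp (-1) := ht
    have ht0 : algebraMap C K t ≠ 0 := by
      intro h
      rw [h, map_zero] at ht'
      exact WithZero.exp_ne_zero ht'.symm
    have ht1 : Q.valuation K (algebraMap C K t) < 1 := by
      rw [ht', ← WithZero.exp_zero, WithZero.exp_lt_exp]; norm_num
    have hdisc : ∀ x, Q.valuation K x < 1 → Q.valuation K (x / algebraMap C K t) ≤ 1 := by
      intro x hx
      rw [map_div₀, ht']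
      rcases eq_or_ne (Q.valuation K x) 0 with h0 | h0
      · rw [h0, zero_div]; exact zero_le
      · refine div_le_one_of_le₀ ?_ zero_le
        rw [← WithZero.exp_log h0] at hx ⊢
        rw [← WithZero.exp_zero, WithZero.exp_lt_exp] at hx
        rw [WithZero.exp_le_exp]
        omega
    let D : Derivation k K K := (algebraMap R₀ K π / algebraMap C K t) • θ
    have hD : ∀ r, Q.valuation K r ≤ 1 → Q.valuation K (D r) ≤ 1 := by
      intro r hr
      have h1 : D r = (algebraMap R₀ K π * θ r) / algebraMap C K t := by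
        change (algebraMap R₀ K π / algebraMap C K t) • θ r = _
        rw [smul_eq_mul]; ring
      rw [h1]
      exact hdisc _ (hmain r hr)
    -- clear denominators
    obtain ⟨S, hS⟩ := (Algebra.FiniteType.out (R := k) (A := A))
    have h2 : ∀ a ∈ S, ∃ d : C, d ∈ Q.asIdeal.primeCompl ∧
        ∃ c : C, algebraMap C K c = algebraMap C K d * D (algebraMap A K a) := by
      intro a _
      have h3 : Q.valuation K (algebraMap A K a) ≤ 1 := by
        obtain ⟨c, hc⟩ := hAC a
        exact hc ▸ hC c
      obtain ⟨n, d, hd⟩ := Q.exists_primeCompl_mul_eq_of_integer _ (hD _ h3)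
      exact ⟨d, d.2, n, by rw [← hd, mul_comm]⟩
    choose! d hd c hc using h2
    set e : C := ∏ a ∈ S, d a with he
    have heQ : e ∈ Q.asIdeal.primeCompl := Submonoid.prod_mem _ fun a ha => hd a ha
    have hev : Q.valuation K (algebraMap C K e) = 1 := by
      rw [valuation_eq_one_iff_notMem]
      exact heQ
    have hec : ∀ a ∈ S, ∃ c' : C, algebraMap C K c' = algebraMap C K e * D (algebraMap A K a) := by
      intro a ha
      refine ⟨(∏ b ∈ S.erase a, d b) * c a, ?_⟩
      rw [map_mul, hc a ha, he, ← Finset.mul_prod_erase S d ha, map_mul]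
      ring
    -- now multiply by an element of `A` which is a unit in `R₀`
    have hCA : ∀ x : K, IsIntegral R₀ x →
        ∃ s : A, UnitIn R₀ K s ∧ ∃ a : A, algebraMap A K a = algebraMap A K s * x :=
      fun x hx => exists_unitIn_of_isIntegral hR x hx
    obtain ⟨s, hs, a₀, ha₀⟩ := hCA (algebraMap C K e) e.2
    obtain ⟨s', hs', hs''⟩ := exists_unitIn_finset (A := A)
      (fun a => algebraMap C K e * D (algebraMap A K a)) S (by
        intro a ha
        obtain ⟨c', hc'⟩ := hec a ha
        exact hCA _ (hc' ▸ c'.2))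
    let D' : Derivation k K K := (algebraMap A K (s * s') * algebraMap C K e) • D
    have hD' : ∀ a : A, D' (algebraMap A K a) ∈ (algebraMap A K).range := by
      have h5 := der_range_of_adjoin (A := A) (D'.compAlgebraMap A) (S : Set A) hS (by
        intro a ha
        obtain ⟨b, hb⟩ := hs'' a ha
        refine ⟨s * b, ?_⟩
        rw [map_mul, hb]
        change _ = (algebraMap A K (s * s') * algebraMap C K e) • D (algebraMap A K a)
        rw [smul_eq_mul, map_mul]
        ring)
      exact h5
    obtain ⟨b, hb⟩ := hΩ D' hD'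
    have h6 : Q.valuation K (Ω D') ≤ 1 := by
      rw [← hb]
      obtain ⟨c', hc'⟩ := hAC b
      exact hc' ▸ hC c'
    have h7 : Q.valuation K (Ω D) ≤ 1 := by
      rw [map_smul, smul_eq_mul, map_mul, map_mul, hunit _ (hs.mul hs'), hev, one_mul,
        one_mul] at h6
      exact h6
    have h8 : algebraMap R₀ K π * Ω θ = algebraMap C K t * Ω D := by
      rw [map_smul, smul_eq_mul]
      field_simp
    rw [h8, map_mul]
    exact mul_lt_one_of_lt_of_le ht1 h7
  obtain ⟨r, hr, hr'⟩ := trace_mem_maximalIdeal (R₀ := R₀) (L := L) (C := C) _ hval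
  rw [hπ.maximalIdeal_eq, Ideal.mem_span_singleton] at hr
  obtain ⟨r', rfl⟩ := hr
  refine ⟨r', ?_⟩
  have hπL : algebraMap R₀ L π ≠ 0 := by
    intro h
    rw [map_eq_zero_iff _ (IsFractionRing.injective R₀ L)] at h
    exact hπ.ne_zero h
  have h9 : algebraMap R₀ K π * Ω θ = algebraMap R₀ L π • Ω θ := by
    rw [Algebra.smul_def, ← IsScalarTower.algebraMap_apply]
  rw [h9, map_smul, smul_eq_mul, map_mul] at hr'
  exact mul_left_cancel₀ hπL hr'

end Main

end Vale.Agent.P266
end

section

/-!
# P266: the trace of `Ω θ` is integral over a factorial ring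
-/

namespace Vale.Agent.P266

section UFD

variable {k A K B L : Type*} [Field k] [CommRing A] [IsDomain A] [IsIntegrallyClosed A]
  [Algebra k A] [Algebra.FiniteType k A] [Field K] [Algebra A K] [IsFractionRing A K]
  [Algebra k K] [IsScalarTower k A K]
  [CommRing B] [IsDomain B] [UniqueFactorizationMonoid B] [IsNoetherianRing B]
  [Field L] [Algebra B L] [IsFractionRing B L] [Algebra L K] [FiniteDimensional L K]
  [Algebra.IsSeparable L K] [Algebra B K] [IsScalarTower B L K]

theorem trace_omega_mem
    (hA : ∀ a : A, IsIntegral B (algebraMap A K a))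
    (hB : ∀ b : B, ∃ s : A, UnitIn B K s ∧
      ∃ a : A, algebraMap A K a = algebraMap A K s * algebraMap B K b)
    (hQ : ∀ n : ℕ, n ≠ 0 → IsUnit (n : B))
    (θ : Derivation k K K)
    (hθ : ∀ a : B, ∃ b : B, θ (algebraMap B K a) = algebraMap B K b)
    (Ω : Derivation k K K →ₗ[K] K)
    (hΩ : ∀ D : Derivation k K K, (∀ a : A, D (algebraMap A K a) ∈ (algebraMap A K).range) →
      Ω D ∈ (algebraMap A K).range) :
    ∃ b : B, Algebra.trace L K (Ω θ) = algebraMap B L b := by
  classical
  set c := Algebra.trace L K (Ω θ) with hc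
  have hBL : Function.Injective (algebraMap B L) := IsFractionRing.injective B L
  -- at every prime element
  have hloc : ∀ π : B, Prime π → ∃ x y : B, ¬ π ∣ y ∧ c * algebraMap B L y = algebraMap B L x := by
    intro π hπ
    let P : Ideal B := Ideal.span {π}
    have hP : P.IsPrime := (Ideal.span_singleton_prime hπ.ne_zero).2 hπ
    let R₀ := Localization.AtPrime P
    have hinj₀ : Function.Injective (algebraMap B R₀) :=
      IsLocalization.injective R₀ P.primeCompl_le_nonZeroDivisors
    have hu : ∀ y : P.primeCompl, IsUnit (algebraMap B L y) := by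
      intro y
      rw [isUnit_iff_ne_zero]
      intro h
      rw [map_eq_zero_iff _ hBL] at h
      exact y.2 (h ▸ P.zero_mem)
    let _ : Algebra R₀ L := (IsLocalization.lift (M := P.primeCompl) hu).toAlgebra
    have hst : IsScalarTower B R₀ L :=
      IsScalarTower.of_algebraMap_eq' (IsLocalization.lift_comp (M := P.primeCompl) hu).symm
    let _ : Algebra R₀ K := ((algebraMap L K).comp (algebraMap R₀ L)).toAlgebra
    have hst2 : IsScalarTower R₀ L K := IsScalarTower.of_algebraMap_eq' rfl
    have hst3 : IsScalarTower B R₀ K := IsScalarTower.of_algebraMap_eq fun b => by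
      rw [IsScalarTower.algebraMap_apply R₀ L K, ← IsScalarTower.algebraMap_apply B R₀ L,
        ← IsScalarTower.algebraMap_apply]
    have hdom : IsDomain R₀ := inferInstance
    have hfr : IsFractionRing R₀ L :=
      IsFractionRing.isFractionRing_of_isDomain_of_isLocalization P.primeCompl R₀ L
    have hnf : ¬ IsField R₀ := by
      intro hf
      have h1 : algebraMap B R₀ π ≠ 0 := by
        intro h
        exact hπ.ne_zero (hinj₀ (by rw [h, map_zero]))
      obtain ⟨z, hz⟩ := hf.mul_inv_cancel h1
      have h2 : IsUnit (algebraMap B R₀ π) := IsUnit.of_mul_eq_one _ hz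
      rw [IsLocalization.AtPrime.isUnit_to_map_iff R₀ P] at h2
      exact h2 (Ideal.mem_span_singleton_self π)
    have hmax : IsLocalRing.maximalIdeal R₀ = Ideal.span {algebraMap B R₀ π} := by
      rw [← Localization.AtPrime.map_eq_maximalIdeal (I := P), Ideal.map_span,
        Set.image_singleton]
    have hdvr : IsDiscreteValuationRing R₀ := by
      refine ((IsDiscreteValuationRing.TFAE R₀ hnf).out 0 4).2 ?_
      rw [hmax]
      exact ⟨⟨_, rfl⟩⟩
    have H1 : ∀ r : R₀, ∃ s : A, UnitIn R₀ K s ∧
        ∃ a : A, algebraMap A K a = algebraMap A K s * algebraMap R₀ K r := by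
      intro r
      obtain ⟨x, y, rfl⟩ := IsLocalization.exists_mk'_eq P.primeCompl r
      obtain ⟨s, hs, hs'⟩ := exists_unitIn_finset (A := A) (R₀ := B) (K := K)
        (fun b : B => algebraMap B K b) {x, (y : B)} (fun b _ => hB b)
      obtain ⟨a₁, ha₁⟩ := hs' x (by simp)
      obtain ⟨a₂, ha₂⟩ := hs' y (by simp)
      obtain ⟨u, hu'⟩ := hs
      have hyu : IsUnit (algebraMap B R₀ (y : B)) := IsLocalization.map_units R₀ y
      obtain ⟨w, hw⟩ := hyu
      refine ⟨a₂, ⟨Units.map (algebraMap B R₀).toMonoidHom u * w, ?_⟩, a₁, ?_⟩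
      · rw [ha₂, hu', Units.val_mul, map_mul, hw]
        simp only [RingHom.toMonoidHom_eq_coe, Units.coe_map, MonoidHom.coe_coe]
        rw [← IsScalarTower.algebraMap_apply, ← IsScalarTower.algebraMap_apply]
      · rw [ha₁, ha₂, mul_assoc, IsScalarTower.algebraMap_apply B R₀ K (y : B), ← map_mul,
          mul_comm (algebraMap B R₀ (y : B)), IsLocalization.mk'_spec,
          ← IsScalarTower.algebraMap_apply B R₀ K]
    have H2 : ∀ n : ℕ, n ≠ 0 → IsUnit (n : R₀) := by
      intro n hn
      have := (hQ n hn).map (algebraMap B R₀)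
      rwa [map_natCast] at this
    have H3 : ∀ a : R₀, ∃ b : R₀, θ (algebraMap R₀ K a) = algebraMap R₀ K b := by
      intro r
      obtain ⟨x, y, rfl⟩ := IsLocalization.exists_mk'_eq P.primeCompl r
      obtain ⟨x', hx'⟩ := hθ x
      obtain ⟨y', hy'⟩ := hθ y
      have hmk : ∀ (a : B) (b : P.primeCompl), algebraMap R₀ K (IsLocalization.mk' R₀ a b) =
          algebraMap B K a / algebraMap B K (b : B) := by
        intro a b
        have hbK : algebraMap B K (b : B) ≠ 0 := by
          rw [IsScalarTower.algebraMap_apply B L K]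
          intro h
          rw [map_eq_zero] at h
          exact (hu b).ne_zero h
        rw [eq_div_iff hbK, IsScalarTower.algebraMap_apply B R₀ K (b : B), ← map_mul,
          IsLocalization.mk'_spec, ← IsScalarTower.algebraMap_apply]
      have hyK : algebraMap B K (y : B) ≠ 0 := by
        rw [IsScalarTower.algebraMap_apply B L K]
        intro h
        rw [map_eq_zero] at h
        exact (hu y).ne_zero h
      refine ⟨IsLocalization.mk' R₀ (x' * y - x * y') (y * y), ?_⟩
      rw [hmk, hmk, Derivation.leibniz_div, hx', hy']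
      simp only [smul_eq_mul, Submonoid.coe_mul, map_mul, map_sub]
      field_simp
    obtain ⟨r, hr⟩ := trace_omega_mem_dvr (R₀ := R₀) (L := L) (A := A)
      (fun a => (hA a).tower_top) H1 H2 θ H3 Ω hΩ
    obtain ⟨x, y, rfl⟩ := IsLocalization.exists_mk'_eq P.primeCompl r
    refine ⟨x, y, fun h => y.2 (Ideal.mem_span_singleton.2 h), ?_⟩
    rw [hc, hr, IsScalarTower.algebraMap_apply B R₀ L, IsScalarTower.algebraMap_apply B R₀ L,
      ← map_mul, IsLocalization.mk'_spec]
  -- conclude by unique factorization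
  obtain ⟨x, y, hy0, hxy⟩ : ∃ x y : B, y ≠ 0 ∧ c * algebraMap B L y = algebraMap B L x := by
    obtain ⟨⟨x, y⟩, h⟩ := IsLocalization.surj (nonZeroDivisors B) c
    exact ⟨x, y, nonZeroDivisors.ne_zero y.2, h⟩
  induction y using UniqueFactorizationMonoid.induction_on_prime generalizing x with
  | h₁ => exact absurd rfl hy0
  | h₂ y hy =>
    obtain ⟨u, rfl⟩ := hy
    refine ⟨x * (u⁻¹ : Bˣ), ?_⟩
    rw [map_mul, ← hxy, mul_assoc, ← map_mul, Units.mul_inv, map_one, mul_one]
  | h₃ y p hy hp ih =>
    obtain ⟨x', y', hy', hxy'⟩ := hloc p hp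
    -- p ∣ x
    have h1 : x * y' = x' * (p * y) := by
      apply hBL
      rw [map_mul, map_mul, ← hxy, ← hxy']
      ring
    have h2 : p ∣ x := by
      have h3 : p ∣ x * y' := by
        rw [h1]
        exact Dvd.dvd.mul_left (Dvd.intro _ rfl) _
      exact (hp.dvd_or_dvd h3).resolve_right hy'
    obtain ⟨x₁, rfl⟩ := h2
    refine ih x₁ hy ?_
    have hpL : algebraMap B L p ≠ 0 := by
      intro h
      rw [map_eq_zero_iff _ hBL] at h
      exact hp.ne_zero h
    apply mul_left_cancel₀ hpL
    rw [← map_mul, ← hxy, map_mul]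
    ring

end UFD

end Vale.Agent.P266
end

section

/-!
# P266: extension and uniqueness of derivations along formally etale maps
-/

namespace Vale.Agent.P266

open TensorProduct

/-- derivations extend along formally etale maps -/
theorem exists_der_ext (R : Type*) {S T : Type*} [CommRing R] [CommRing S] [CommRing T]
    [Algebra R S] [Algebra R T] [Algebra S T] [IsScalarTower R S T] [Algebra.FormallyEtale S T]
    (d : Derivation R S T) :
    ∃ D : Derivation R T T, ∀ s, D (algebraMap S T s) = d s := by
  let g : Ω[S⁄R] →ₗ[S] T := d.liftKaehlerDifferential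
  let g' : T ⊗[S] Ω[S⁄R] →ₗ[T] T := LinearMap.liftBaseChange T g
  let h : Ω[T⁄R] →ₗ[T] T :=
    g' ∘ₗ (KaehlerDifferential.tensorKaehlerEquivOfFormallyEtale R S T).symm.toLinearMap
  refine ⟨h.compDer (KaehlerDifferential.D R T), ?_⟩
  intro s
  change g' ((KaehlerDifferential.tensorKaehlerEquivOfFormallyEtale R S T).symm
    (KaehlerDifferential.D R T (algebraMap S T s))) = d s
  rw [KaehlerDifferential.tensorKaehlerEquivOfFormallyEtale_symm_D_algebraMap]
  simp [g', g]

/-- uniqueness along formally unramified maps -/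
theorem der_eq_zero_of_unramified {R S T : Type*} [CommRing R] [CommRing S] [CommRing T]
    [Algebra R T] [Algebra S T] [Algebra.FormallyUnramified S T]
    (D : Derivation R T T) (h : ∀ s : S, D (algebraMap S T s) = 0) : D = 0 := by
  let D' : Derivation S T T := Derivation.mk'
    { toFun := D
      map_add' := map_add D
      map_smul' := fun s t => by
        have h1 : ∀ x : T, s • x = algebraMap S T s * x := fun x => Algebra.smul_def s x
        rw [h1, Derivation.leibniz, h, smul_zero, add_zero, RingHom.id_apply, h1, smul_eq_mul] }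
    (fun a b => D.leibniz a b)
  have h1 : D' = 0 := by
    have hsub : Subsingleton (Ω[T⁄S]) := inferInstance
    have : D'.liftKaehlerDifferential = 0 := by
      refine LinearMap.ext fun x => ?_
      rw [Subsingleton.elim x 0, map_zero, map_zero]
    rw [← D'.liftKaehlerDifferential_comp, this]
    rfl
  ext t
  exact congrArg (fun E => E t) h1

end Vale.Agent.P266
end

section

/-!
# P266: from an Euler decomposition to a retract of a polynomial ring
-/

namespace Vale.Agent.P266

open MvPolynomial DirectSum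

/-- descending an algebra map along a surjection -/
theorem exists_descend {R P A Q : Type*} [CommSemiring R] [Semiring P] [Semiring A] [Semiring Q]
    [Algebra R P] [Algebra R A] [Algebra R Q] (f : P →ₐ[R] A) (hf : Function.Surjective f)
    (g : P →ₐ[R] Q) (h : ∀ p q, f p = f q → g p = g q) :
    ∃ s : A →ₐ[R] Q, ∀ p, s (f p) = g p := by
  choose t ht using hf
  have key : ∀ p, g (t (f p)) = g p := fun p => h _ _ (ht _)
  refine ⟨{ toFun := fun a => g (t a), map_one' := ?_, map_mul' := ?_, map_zero' := ?_,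
            map_add' := ?_, commutes' := ?_ }, key⟩
  · rw [← map_one f, key, map_one]
  · intro a b
    rw [← ht a, ← ht b, ← map_mul f, key, key, key, map_mul]
  · change g (t 0) = 0
    rw [← map_zero f, key, map_zero]
  · intro a b
    change g (t (a + b)) = g (t a) + g (t b)
    rw [← ht a, ← ht b, ← map_add f, key, key, key, map_add]
  · intro r
    rw [← f.commutes, key, g.commutes]

section Retract

variable {k A : Type*} [Field k] [CharZero k] [CommRing A] [Algebra k A]
  (𝒜 : ℕ → Submodule k A) [GradedAlgebra 𝒜]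

/-- A decomposition of the Euler derivation in terms of homogeneous derivations of
negative degree. -/
structure EulerData (ι : Type*) [Fintype ι] where
  l : ι → ℕ
  lpos : ∀ α, 0 < l α
  f : ι → A
  f_mem : ∀ α, f α ∈ 𝒜 (l α)
  δ : ι → Derivation (𝒜 0) A A
  δ_mem : ∀ α n a, a ∈ 𝒜 n → l α ≤ n → δ α a ∈ 𝒜 (n - l α)
  δ_zero : ∀ α n a, a ∈ 𝒜 n → n < l α → δ α a = 0
  euler : ∀ n a, a ∈ 𝒜 n → ∑ α, f α * δ α a = (n : A) * a

variable {𝒜} {ι : Type*} [Fintype ι] (E : EulerData 𝒜 ι)

namespace EulerData

/-- projection to degree zero -/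
noncomputable abbrev ε (𝒜 : ℕ → Submodule k A) [GradedAlgebra 𝒜] : A →+* 𝒜 0 :=
  GradedRing.projZeroRingHom' 𝒜

omit [CharZero k] in
lemma ε_of_mem_pos {n : ℕ} (hn : 0 < n) {a : A} (ha : a ∈ 𝒜 n) : ε 𝒜 a = 0 := by
  ext
  rw [GradedRing.coe_projZeroRingHom'_apply, GradedRing.projZeroRingHom_apply,
    decompose_of_mem_ne 𝒜 ha hn.ne']
  rfl

omit [CharZero k] in
lemma ε_of_mem_zero {a : A} (ha : a ∈ 𝒜 0) : (ε 𝒜 a : A) = a := by
  rw [GradedRing.coe_projZeroRingHom'_apply, GradedRing.projZeroRingHom_apply,
    decompose_of_mem_same 𝒜 ha]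

omit [CharZero k] in
lemma ε_coe (r : 𝒜 0) : ε 𝒜 (r : A) = r := GradedRing.projZeroRingHom'_apply_coe 𝒜 r

/-- the matrix of degree zero parts -/
noncomputable def N (γ α : ι) : 𝒜 0 := ε 𝒜 (E.δ γ (E.f α))

omit [CharZero k] in
lemma N_eq_zero {γ α : ι} (h : E.l γ ≠ E.l α) : E.N γ α = 0 := by
  rcases lt_or_gt_of_ne h with h | h
  · exact ε_of_mem_pos (Nat.sub_pos_of_lt h) (E.δ_mem γ _ _ (E.f_mem α) h.le)
  · rw [N, E.δ_zero γ _ _ (E.f_mem α) h, map_zero]

omit [CharZero k] in
lemma εδ_eq_zero {γ : ι} {n : ℕ} {a : A} (ha : a ∈ 𝒜 n) (h : E.l γ ≠ n) :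
    ε 𝒜 (E.δ γ a) = 0 := by
  rcases lt_or_gt_of_ne h with h | h
  · exact ε_of_mem_pos (Nat.sub_pos_of_lt h) (E.δ_mem γ _ _ ha h.le)
  · rw [E.δ_zero γ _ _ ha h, map_zero]

omit [CharZero k] in
/-- for `a` homogeneous, `n ε(δ_γ a) = ∑ N_{γα} ε(δ_α a)`. -/
lemma N_mul {n : ℕ} {a : A} (ha : a ∈ 𝒜 n) (γ : ι) :
    ∑ α, E.N γ α * ε 𝒜 (E.δ α a) = (n : 𝒜 0) * ε 𝒜 (E.δ γ a) := by
  have h := congrArg (fun x => ε 𝒜 (E.δ γ x)) (E.euler n a ha)
  simp only [map_sum, Derivation.leibniz, smul_eq_mul, map_add, map_mul] at h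
  have h1 : ∀ α, ε 𝒜 (E.f α) = 0 := fun α => ε_of_mem_pos (E.lpos α) (E.f_mem α)
  simp only [h1, zero_mul, zero_add, Derivation.map_natCast, map_zero, mul_zero, add_zero,
    map_natCast] at h
  rw [← h]
  exact Finset.sum_congr rfl fun α _ => mul_comm _ _

/-- the inverse of the integer `l α` -/
noncomputable def linv (α : ι) : 𝒜 0 := algebraMap k (𝒜 0) ((E.l α : k)⁻¹)

lemma l_mul_linv (α : ι) : (E.l α : 𝒜 0) * E.linv α = 1 := by
  have : (E.l α : 𝒜 0) = algebraMap k (𝒜 0) (E.l α : k) := by rw [map_natCast]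
  rw [this, linv, ← map_mul, mul_inv_cancel₀, map_one]
  exact_mod_cast (E.lpos α).ne'

/-- the idempotent matrix -/
noncomputable def e (γ α : ι) : 𝒜 0 := E.N γ α * E.linv α

omit [CharZero k] in
lemma e_eq_zero {γ α : ι} (h : E.l γ ≠ E.l α) : E.e γ α = 0 := by
  rw [e, E.N_eq_zero h, zero_mul]

lemma N_eq (γ α : ι) : E.N γ α = E.e γ α * (E.l α : 𝒜 0) := by
  rw [e, mul_assoc, mul_comm (E.linv α), l_mul_linv, mul_one]

omit [CharZero k] in
lemma linv_eq {γ α : ι} (h : E.l γ = E.l α) : E.linv γ = E.linv α := by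
  rw [linv, linv, h]

lemma e_mul_e (γ β : ι) : ∑ α, E.e γ α * E.e α β = E.e γ β := by
  have h := E.N_mul (E.f_mem β) γ
  have h2 : ∀ α, E.e γ α * E.e α β = (E.N γ α * ε 𝒜 (E.δ α (E.f β))) * (E.linv β * E.linv β) := by
    intro α
    by_cases hαβ : E.l α = E.l β
    · rw [e, e, E.linv_eq hαβ, N, N]
      ring
    · rw [E.e_eq_zero hαβ, E.εδ_eq_zero (E.f_mem β) hαβ]
      ring
  rw [Finset.sum_congr rfl fun α _ => h2 α, ← Finset.sum_mul, h, e, N]
  calc _ = ε 𝒜 (E.δ γ (E.f β)) * E.linv β * ((E.l β : 𝒜 0) * E.linv β) := by ring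
    _ = _ := by rw [l_mul_linv, mul_one]

/-- corrected generators -/
noncomputable def f' (α : ι) : A := ∑ γ, (E.e γ α : A) * E.f γ

omit [CharZero k] in
lemma f'_mem (α : ι) : E.f' α ∈ 𝒜 (E.l α) := by
  refine Submodule.sum_mem _ fun γ _ => ?_
  by_cases h : E.l γ = E.l α
  · have := SetLike.GradedMul.mul_mem (E.e γ α).2 (E.f_mem γ)
    rwa [zero_add, h] at this
  · rw [E.e_eq_zero h]
    simp

lemma e_f' (α : ι) : ∑ γ, (E.e γ α : A) * E.f' γ = E.f' α := by
  simp only [f', Finset.mul_sum]
  rw [Finset.sum_comm]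
  refine Finset.sum_congr rfl fun γ _ => ?_
  rw [← E.e_mul_e γ α]
  have : ((∑ β, E.e γ β * E.e β α : 𝒜 0) : A) = ∑ β, (E.e γ β : A) * (E.e β α : A) := by
    simp
  rw [this, Finset.sum_mul]
  exact Finset.sum_congr rfl fun β _ => by ring

lemma εδ_f' (γ α : ι) : ε 𝒜 (E.δ γ (E.f' α)) = E.N γ α := by
  have h0 : ∀ β, E.δ γ ((E.e β α : A) * E.f β) = (E.e β α : A) * E.δ γ (E.f β) := by
    intro β
    have := (E.δ γ).map_smul (E.e β α) (E.f β)
    simpa [Algebra.smul_def] using this
  rw [f', map_sum, map_sum]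
  simp only [h0, map_mul, ε_coe]
  have h := E.N_mul (E.f_mem α) γ
  have h2 : ∀ β, E.e β α * ε 𝒜 (E.δ γ (E.f β)) =
      (E.N γ β * ε 𝒜 (E.δ β (E.f α))) * E.linv α := by
    intro β
    rw [e, N, N]; ring
  rw [Finset.sum_congr rfl fun β _ => h2 β, ← Finset.sum_mul, h, N]
  calc _ = ε 𝒜 (E.δ γ (E.f α)) * ((E.l α : 𝒜 0) * E.linv α) := by ring
    _ = _ := by rw [l_mul_linv, mul_one]

/-- the map from the polynomial ring -/
noncomputable def φ : MvPolynomial ι (𝒜 0) →ₐ[𝒜 0] A := aeval E.f'

/-- the linear idempotent substitution -/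
noncomputable def s : MvPolynomial ι (𝒜 0) →ₐ[𝒜 0] MvPolynomial ι (𝒜 0) :=
  aeval fun α => ∑ γ, C (E.e γ α) * X γ

lemma φ_s (p : MvPolynomial ι (𝒜 0)) : E.φ (E.s p) = E.φ p := by
  have : E.φ.comp E.s = E.φ := by
    ext α
    simp only [AlgHom.coe_comp, Function.comp_apply, s, aeval_X, map_sum, map_mul, φ, aeval_C]
    simpa using E.e_f' α
  exact congrArg (fun g => g p) this

lemma s_s (p : MvPolynomial ι (𝒜 0)) : E.s (E.s p) = E.s p := by
  have : E.s.comp E.s = E.s := by
    ext1 α
    simp only [AlgHom.coe_comp, Function.comp_apply, s, aeval_X, map_sum, map_mul, aeval_C]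
    simp only [MvPolynomial.algebraMap_eq, Finset.mul_sum]
    rw [Finset.sum_comm]
    refine Finset.sum_congr rfl fun γ _ => ?_
    rw [← E.e_mul_e γ α, map_sum, Finset.sum_mul]
    exact Finset.sum_congr rfl fun β _ => by rw [C_mul]; ring
  exact congrArg (fun g => g p) this

/-- surjectivity of `φ` -/
lemma φ_surjective : Function.Surjective E.φ := by
  have key : ∀ n : ℕ, ∀ a ∈ 𝒜 n, a ∈ E.φ.range := by
    intro n
    induction n using Nat.strong_induction_on with
    | _ n ih =>
    rcases Nat.eq_zero_or_pos n with rfl | hn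
    · intro a ha
      exact ⟨C ⟨a, ha⟩, by simp [φ]⟩
    have hinv : ∀ m : ℕ, 0 < m → ∀ a : A, (m : A) * a ∈ E.φ.range → a ∈ E.φ.range := by
      intro m hm a ha
      have h1 : (algebraMap k (𝒜 0) ((m : k)⁻¹) : A) * ((m : A) * a) = a := by
        rw [← mul_assoc]
        have : (algebraMap k (𝒜 0) ((m : k)⁻¹) : A) * (m : A) = 1 := by
          rw [SetLike.GradeZero.coe_algebraMap, ← map_natCast (algebraMap k A), ← map_mul,
            inv_mul_cancel₀, map_one]
          exact_mod_cast hm.ne'
        rw [this, one_mul]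
      rw [← h1]
      exact mul_mem ⟨C (algebraMap k (𝒜 0) ((m : k)⁻¹)), by simp [φ]⟩ ha
    -- first the generators of degree `n`
    have hgen : ∀ α, E.l α = n → E.f α ∈ E.φ.range := by
      intro α hα
      refine hinv _ (E.lpos α) _ ?_
      rw [← E.euler _ _ (E.f_mem α)]
      rw [← Finset.sum_filter_add_sum_filter_not _ (fun β => E.l β = E.l α)]
      refine add_mem ?_ ?_
      · -- the degree `n` part is `l α * f' α`
        have : ∑ β with E.l β = E.l α, E.f β * E.δ β (E.f α) = (E.l α : A) * E.f' α := by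
          rw [f', Finset.mul_sum, ← Finset.sum_filter_add_sum_filter_not Finset.univ
            (fun β => E.l β = E.l α) (fun β => (E.l α : A) * ((E.e β α : A) * E.f β))]
          have h0 : ∑ β with ¬ E.l β = E.l α, (E.l α : A) * ((E.e β α : A) * E.f β) = 0 := by
            refine Finset.sum_eq_zero fun β hβ => ?_
            rw [E.e_eq_zero (Finset.mem_filter.1 hβ).2]
            simp
          rw [h0, add_zero]
          refine Finset.sum_congr rfl fun β hβ => ?_
          have hβ' := (Finset.mem_filter.1 hβ).2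
          have h1 : (E.δ β (E.f α)) = (E.N β α : A) := by
            rw [N, ε_of_mem_zero]
            have := E.δ_mem β _ _ (E.f_mem α) hβ'.le
            rwa [hβ', Nat.sub_self] at this
          rw [h1, E.N_eq β α]
          simp only [SetLike.GradeZero.coe_natCast, SetLike.GradeZero.coe_mul]
          ring
        rw [this]
        exact mul_mem (natCast_mem _ _) ⟨X α, by simp [φ]⟩
      · refine sum_mem fun β hβ => ?_
        have hβ' := (Finset.mem_filter.1 hβ).2
        rcases lt_or_gt_of_ne hβ' with h | h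
        · refine mul_mem (ih _ (hα ▸ h) _ (E.f_mem β)) (ih _ ?_ _ (E.δ_mem β _ _ (E.f_mem α) h.le))
          have := E.lpos β
          omega
        · rw [E.δ_zero β _ _ (E.f_mem α) h, mul_zero]
          exact zero_mem _
    intro a ha
    refine hinv _ hn _ ?_
    rw [← E.euler _ _ ha]
    refine sum_mem fun β _ => ?_
    rcases lt_trichotomy (E.l β) n with h | h | h
    · refine mul_mem (ih _ h _ (E.f_mem β)) (ih _ ?_ _ (E.δ_mem β _ _ ha h.le))
      have := E.lpos β
      omega
    · refine mul_mem (hgen β h) (ih 0 hn _ ?_)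
      have := E.δ_mem β _ _ ha h.le
      rwa [h, Nat.sub_self] at this
    · rw [E.δ_zero β _ _ ha h, mul_zero]
      exact zero_mem _
  intro a
  have : a ∈ E.φ.range := by
    classical
    rw [← DirectSum.sum_support_decompose 𝒜 a]
    exact sum_mem fun n _ => key n _ (SetLike.coe_mem _)
  exact this

/-- the key linear algebra step -/
lemma eq_zero_of_fixed (u : ι → A) (h1 : ∀ γ, ∑ α, E.δ γ (E.f' α) * u α = 0)
    (h2 : ∀ γ, ∑ β, (E.e γ β : A) * u β = u γ) : u = 0 := by
  classical
  by_contra hu
  have hne : (Finset.univ.filter fun α => u α ≠ 0).Nonempty := by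
    by_contra h
    rw [Finset.not_nonempty_iff_eq_empty, Finset.filter_eq_empty_iff] at h
    exact hu (funext fun α => by simpa using h (Finset.mem_univ α))
  obtain ⟨γ, hγ, hmax⟩ := Finset.exists_max_image _ E.l hne
  refine (Finset.mem_filter.1 hγ).2 ?_
  have hz : ∀ α, E.l γ < E.l α → u α = 0 := by
    intro α hα
    by_contra h
    exact absurd (hmax α (Finset.mem_filter.2 ⟨Finset.mem_univ _, h⟩)) (not_le.2 hα)
  have key : ∀ α, E.δ γ (E.f' α) * u α = (E.l γ : A) * ((E.e γ α : A) * u α) := by
    intro α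
    rcases lt_trichotomy (E.l γ) (E.l α) with h | h | h
    · rw [hz α h]; ring
    · have hmem := E.δ_mem γ _ _ (E.f'_mem α) h.le
      rw [h, Nat.sub_self] at hmem
      have h3 : E.δ γ (E.f' α) = (E.N γ α : A) := by
        rw [← E.εδ_f' γ α, ε_of_mem_zero hmem]
      rw [h3, E.N_eq γ α, h]
      simp only [SetLike.GradeZero.coe_natCast, SetLike.GradeZero.coe_mul]
      ring
    · rw [E.δ_zero γ _ _ (E.f'_mem α) h, E.e_eq_zero h.ne']
      simp
  have h3 : (E.l γ : A) * u γ = 0 := by
    rw [← h1 γ, Finset.sum_congr rfl fun α _ => key α, ← Finset.mul_sum, h2 γ]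
  have h4 : (algebraMap k A ((E.l γ : k)⁻¹)) * ((E.l γ : A) * u γ) = u γ := by
    rw [← mul_assoc, ← map_natCast (algebraMap k A), ← map_mul, inv_mul_cancel₀, map_one, one_mul]
    exact_mod_cast (E.lpos γ).ne'
  rw [← h4, h3, mul_zero]

omit [CharZero k] in
lemma pderiv_s (p : MvPolynomial ι (𝒜 0)) (γ : ι) :
    pderiv γ (E.s p) = ∑ β, C (E.e γ β) * E.s (pderiv β p) := by
  classical
  induction p using MvPolynomial.induction_on with
  | C a => simp [s]
  | add p q hp hq =>
    simp only [map_add, hp, hq, mul_add, Finset.sum_add_distrib]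
  | mul_X p α hp =>
    rw [map_mul, pderiv_mul, hp]
    simp only [pderiv_mul, map_add, map_mul, mul_add, Finset.sum_add_distrib]
    congr 1
    · rw [Finset.sum_mul]
      exact Finset.sum_congr rfl fun β _ => by ring
    · simp only [s, aeval_X, map_sum, pderiv_mul, pderiv_C, zero_mul, zero_add, pderiv_X,
        Pi.single_apply]
      simp [Finset.sum_ite_eq, mul_comm, apply_ite]

omit [CharZero k] in
lemma φ_pderiv (D : Derivation (𝒜 0) A A) (p : MvPolynomial ι (𝒜 0)) :
    D (E.φ p) = ∑ α, D (E.f' α) * E.φ (pderiv α p) := by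
  classical
  induction p using MvPolynomial.induction_on with
  | C a =>
    have : E.φ (C a) = algebraMap (𝒜 0) A a := by simp [φ]
    rw [this, Derivation.map_algebraMap]
    simp
  | add p q hp hq =>
    simp only [map_add, hp, hq, mul_add, Finset.sum_add_distrib]
  | mul_X p α hp =>
    rw [map_mul, Derivation.leibniz, hp]
    simp only [pderiv_mul, map_add, map_mul, mul_add, Finset.sum_add_distrib]
    rw [add_comm]
    congr 1
    · rw [smul_eq_mul, Finset.mul_sum]
      exact Finset.sum_congr rfl fun β _ => by ring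
    · simp [φ, pderiv_X, Pi.single_apply, apply_ite, mul_comm]

/-- injectivity of `φ` on the image of `s` -/
lemma eq_zero_of_φ_eq_zero : ∀ (n : ℕ) (p : MvPolynomial ι (𝒜 0)), p.totalDegree ≤ n →
    E.φ p = 0 → E.s p = p → p = 0 := by
  classical
  intro n
  induction n with
  | zero =>
    intro p hp hφ _
    rw [Nat.le_zero, totalDegree_eq_zero_iff_eq_C] at hp
    rw [hp] at hφ ⊢
    have : E.φ (C (coeff 0 p)) = ((coeff 0 p : 𝒜 0) : A) := by simp [φ]
    rw [this] at hφ
    have h0 : coeff 0 p = 0 := by exact_mod_cast hφ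
    rw [h0, C_0]
  | succ n ih =>
    intro p hp hφ hs
    have hpd : ∀ γ, ∑ β, C (E.e γ β) * E.s (pderiv β p) = pderiv γ p := by
      intro γ
      rw [← E.pderiv_s, hs]
    have hu : (fun α => E.φ (pderiv α p)) = 0 := by
      refine E.eq_zero_of_fixed _ (fun γ => ?_) (fun γ => ?_)
      · rw [← E.φ_pderiv, hφ, map_zero]
      · have := congrArg E.φ (hpd γ)
        rw [← this, map_sum]
        refine Finset.sum_congr rfl fun β _ => ?_
        rw [map_mul, φ_s]
        simp [φ]
    have hz : ∀ α, pderiv α p = 0 := by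
      intro α
      refine ih _ ?_ (congrFun hu α) ?_
      · refine Finset.sup_le fun m hm => ?_
        have hm' : coeff m (pderiv α p) ≠ 0 := mem_support_iff.1 hm
        rw [coeff_pderiv] at hm'
        have h1 : coeff (m + Finsupp.single α 1) p ≠ 0 := left_ne_zero_of_mul hm'
        have h2 := (le_totalDegree (mem_support_iff.2 h1)).trans hp
        rw [Finsupp.sum_add_index' (fun _ => rfl) (fun _ _ _ => rfl),
          Finsupp.sum_single_index rfl] at h2
        omega
      · rw [← hpd α, map_sum]
        refine Finset.sum_congr rfl fun β _ => ?_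
        rw [map_mul, s_s]
        simp [s]
    have hc : p = C (coeff 0 p) := by
      refine MvPolynomial.ext _ _ fun m => ?_
      rw [coeff_C]
      split_ifs with hm
      · rw [← hm]
      · have : ∃ i, m i ≠ 0 := by
          by_contra h
          push Not at h
          exact hm (Finsupp.ext fun i => (h i).symm)
        obtain ⟨i, hi⟩ := this
        have h1 := congrArg (coeff (m - Finsupp.single i 1)) (hz i)
        rw [coeff_pderiv, coeff_zero, tsub_add_cancel_of_le (by
          rw [Finsupp.single_le_iff]; omega)] at h1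
        have h3 : ∀ j : ℕ, j + 1 = m i → ((j : 𝒜 0) + 1) = (m i : 𝒜 0) := by
          intro j hj
          rw [← hj]; push_cast; rfl
        rw [h3 _ (by rw [Finsupp.tsub_apply, Finsupp.single_eq_same]; omega)] at h1
        have h4 : (m i : 𝒜 0) * algebraMap k (𝒜 0) ((m i : k)⁻¹) = 1 := by
          rw [← map_natCast (algebraMap k (𝒜 0)), ← map_mul, mul_inv_cancel₀, map_one]
          exact_mod_cast hi
        calc coeff m p = coeff m p * ((m i : 𝒜 0) * algebraMap k (𝒜 0) ((m i : k)⁻¹)) := by
              rw [h4, mul_one]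
          _ = 0 := by rw [← mul_assoc, h1, zero_mul]
    rw [hc] at hφ ⊢
    have : E.φ (C (coeff 0 p)) = ((coeff 0 p : 𝒜 0) : A) := by simp [φ]
    rw [this] at hφ
    have h0 : coeff 0 p = 0 := by exact_mod_cast hφ
    rw [h0, C_0]

lemma exists_sec : ∃ σ : A →ₐ[𝒜 0] MvPolynomial ι (𝒜 0), ∀ p, σ (E.φ p) = E.s p :=
  exists_descend E.φ E.φ_surjective E.s fun p q hpq => by
    have h1 : E.φ (p - q) = 0 := by rw [map_sub, hpq, sub_self]
    have h2 : E.s (p - q) = 0 :=
      E.eq_zero_of_φ_eq_zero _ _ le_rfl (by rw [φ_s, h1]) (E.s_s _)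
    have h3 : E.s p = E.s (p - q) + E.s q := by rw [← map_add, sub_add_cancel]
    rw [h3, h2, zero_add]

/-- the section -/
noncomputable def sec : A →ₐ[𝒜 0] MvPolynomial ι (𝒜 0) := E.exists_sec.choose

lemma sec_φ (p : MvPolynomial ι (𝒜 0)) : E.sec (E.φ p) = E.s p :=
  E.exists_sec.choose_spec p

lemma φ_sec (a : A) : E.φ (E.sec a) = a := by
  obtain ⟨p, rfl⟩ := E.φ_surjective a
  rw [sec_φ, φ_s]

end EulerData

end Retract

end Vale.Agent.P266
end

section

/-!
# P266: consequences of being a retract of a polynomial ring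
-/

namespace Vale.Agent.P266

open MvPolynomial

universe u v w

theorem finitePresentation_of_retract {R : Type u} {A : Type v} {ι : Type w} [CommRing R]
    [CommRing A] [Algebra R A] [Finite ι] [IsNoetherianRing R]
    (φ : MvPolynomial ι R →ₐ[R] A) (h : Function.Surjective φ) :
    Algebra.FinitePresentation R A := by
  have : Algebra.FiniteType R A := Algebra.FiniteType.of_surjective φ h
  exact Algebra.FinitePresentation.of_finiteType.1 this

theorem smooth_of_retract {R : Type u} {A : Type v} {ι : Type w} [CommRing R] [CommRing A]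
    [Algebra R A] [Finite ι] [IsNoetherianRing R] (σ : A →ₐ[R] MvPolynomial ι R)
    (φ : MvPolynomial ι R →ₐ[R] A) (h : ∀ a, φ (σ a) = a) : Algebra.Smooth R A := by
  have h1 : Algebra.FinitePresentation R A :=
    finitePresentation_of_retract φ fun a => ⟨σ a, h a⟩
  have h2 : Algebra.FormallySmooth R A := by
    refine Algebra.FormallySmooth.of_split φ
      ((Ideal.Quotient.mkₐ R (RingHom.ker φ.toRingHom ^ 2)).comp σ) ?_
    ext a
    simp only [AlgHom.coe_comp, Function.comp_apply, AlgHom.coe_id, id_eq]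
    conv_rhs => rw [← h a]
    rfl
  exact { formallySmooth := h2, finitePresentation := h1 }

theorem projective_of_retract {R : Type u} {A : Type v} {ι : Type w} [CommRing R] [CommRing A]
    [Algebra R A] (σ : A →ₐ[R] MvPolynomial ι R)
    (φ : MvPolynomial ι R →ₐ[R] A) (h : ∀ a, φ (σ a) = a) : Module.Projective R A :=
  Module.Projective.of_split σ.toLinearMap φ.toLinearMap (LinearMap.ext h)

theorem projective_trans {R : Type u} {A : Type v} {P : Type w} [CommRing R] [CommRing A]
    [Algebra R A] [AddCommGroup P] [Module A P] [Module R P] [IsScalarTower R A P]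
    [Module.Projective A P] [Module.Projective R A] : Module.Projective R P := by
  classical
  obtain ⟨s, hs⟩ := (Module.projective_def'.1 (inferInstance : Module.Projective A P))
  have : Module.Projective R (P →₀ A) :=
    Module.Projective.of_equiv (finsuppLEquivDirectSum R A P).symm
  exact Module.Projective.of_split (M := P →₀ A) (s.restrictScalars R)
    ((Finsupp.linearCombination A id).restrictScalars R) (LinearMap.ext fun x => congrArg (fun f => f x) hs)

/-- coefficientwise action of an additive map on polynomials -/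
noncomputable def coeffMap {k R ι : Type*} [CommRing k] [CommRing R] [Algebra k R]
    (D : Derivation k R R) (p : MvPolynomial ι R) : MvPolynomial ι R :=
  ∑ m ∈ p.support, monomial m (D (coeff m p))

lemma coeff_coeffMap {k R ι : Type*} [CommRing k] [CommRing R] [Algebra k R]
    (D : Derivation k R R) (p : MvPolynomial ι R) (m : ι →₀ ℕ) :
    coeff m (coeffMap D p) = D (coeff m p) := by
  classical
  rw [coeffMap, coeff_sum]
  simp only [coeff_monomial]
  rw [Finset.sum_ite_eq' p.support m (fun m => D (coeff m p))]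
  split_ifs with h
  · rfl
  · rw [notMem_support_iff.1 h, map_zero]

/-- the extended derivation, as a map from the retract -/
noncomputable def extDer {k R A ι : Type*} [CommRing k] [CommRing R] [CommRing A] [Algebra k R]
    [Algebra k A] [Algebra R A] [IsScalarTower k R A] (σ : A →ₐ[R] MvPolynomial ι R)
    (φ : MvPolynomial ι R →ₐ[R] A) (h : ∀ a, φ (σ a) = a) :
    Derivation k R R →ₗ[R] Derivation k A A where
  toFun D := Derivation.mk'
    { toFun := fun a => φ (coeffMap D (σ a))
      map_add' := fun a b => by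
        rw [← map_add φ]
        congr 1
        ext m
        simp only [coeff_coeffMap, coeff_add, map_add]
      map_smul' := fun c a => by
        rw [RingHom.id_apply]
        have h1 : c • φ (coeffMap D (σ a)) = φ (c • coeffMap D (σ a)) := by
          rw [← algebraMap_smul R c, ← algebraMap_smul R c, map_smul]
        rw [h1]
        congr 1
        ext m
        have h2 : σ (c • a) = c • σ a := by
          rw [← algebraMap_smul R c, ← algebraMap_smul R c, map_smul]
        rw [coeff_coeffMap, h2, coeff_smul, coeff_smul, coeff_coeffMap, D.map_smul] }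
    (fun a b => by
      change φ (coeffMap D (σ (a * b))) = a • φ (coeffMap D (σ b)) + b • φ (coeffMap D (σ a))
      have h1 : coeffMap D (σ (a * b)) = σ a * coeffMap D (σ b) + σ b * coeffMap D (σ a) := by
        classical
        ext m
        rw [coeff_coeffMap, map_mul, coeff_mul, map_sum, coeff_add, coeff_mul, mul_comm (σ b),
          coeff_mul, ← Finset.sum_add_distrib]
        refine Finset.sum_congr rfl fun x _ => ?_
        rw [coeff_coeffMap, coeff_coeffMap, Derivation.leibniz, smul_eq_mul, smul_eq_mul]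
        ring
      rw [h1, map_add, map_mul, map_mul, h, h, smul_eq_mul, smul_eq_mul])
  map_add' D D' := by
    ext a
    change φ (coeffMap (D + D') (σ a)) = φ (coeffMap D (σ a)) + φ (coeffMap D' (σ a))
    rw [← map_add φ]
    congr 1
    ext m
    simp only [coeff_coeffMap, coeff_add, Derivation.add_apply]
  map_smul' r D := by
    ext a
    change φ (coeffMap (r • D) (σ a)) = r • φ (coeffMap D (σ a))
    rw [← map_smul φ]
    congr 1
    ext m
    simp only [coeff_coeffMap, coeff_smul, Derivation.smul_apply]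

lemma extDer_algebraMap {k R A ι : Type*} [CommRing k] [CommRing R] [CommRing A] [Algebra k R]
    [Algebra k A] [Algebra R A] [IsScalarTower k R A] (σ : A →ₐ[R] MvPolynomial ι R)
    (φ : MvPolynomial ι R →ₐ[R] A) (h : ∀ a, φ (σ a) = a) (D : Derivation k R R) (r : R) :
    extDer σ φ h D (algebraMap R A r) = algebraMap R A (D r) := by
  change φ (coeffMap D (σ (algebraMap R A r))) = _
  have : coeffMap D (σ (algebraMap R A r)) = C (D r) := by
    classical
    ext m
    rw [coeff_coeffMap, σ.commutes, algebraMap_eq, coeff_C, coeff_C]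
    split_ifs
    · rfl
    · exact map_zero D
  rw [this, ← algebraMap_eq, φ.commutes]

/-- restriction of derivations along a retraction of rings -/
noncomputable def resDer {k R A : Type*} [CommRing k] [CommRing R] [CommRing A] [Algebra k R]
    [Algebra k A] [Algebra R A] [IsScalarTower k R A] (ε : A →ₐ[R] R) :
    Derivation k A A →ₗ[R] Derivation k R R where
  toFun D := Derivation.mk' ((ε.toLinearMap.restrictScalars k).comp
      ((D : A →ₗ[k] A).comp (Algebra.linearMap R A |>.restrictScalars k)))
    (fun a b => by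
      change ε (D (algebraMap R A (a * b))) =
        a • ε (D (algebraMap R A b)) + b • ε (D (algebraMap R A a))
      rw [map_mul, Derivation.leibniz, map_add, smul_eq_mul, smul_eq_mul, map_mul, map_mul,
        ε.commutes, ε.commutes]
      rfl)
  map_add' D D' := by
    ext a
    change ε ((D + D') (algebraMap R A a)) = ε (D (algebraMap R A a)) + ε (D' (algebraMap R A a))
    rw [← map_add, Derivation.add_apply]
  map_smul' r D := by
    ext a
    change ε ((r • D) (algebraMap R A a)) = r • ε (D (algebraMap R A a))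
    rw [← map_smul, Derivation.smul_apply]

theorem projective_derivation_of_retract {k : Type*} {R : Type u} {A : Type v} {ι : Type w}
    [CommRing k] [CommRing R] [CommRing A] [Algebra k R]
    [Algebra k A] [Algebra R A] [IsScalarTower k R A] (σ : A →ₐ[R] MvPolynomial ι R)
    (φ : MvPolynomial ι R →ₐ[R] A) (h : ∀ a, φ (σ a) = a) (ε : A →ₐ[R] R)
    [Module.Projective A (Derivation k A A)] :
    Module.Projective R (Derivation k R R) := by
  have := projective_of_retract σ φ h
  have : Module.Projective R (Derivation k A A) := projective_trans (A := A)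
  refine Module.Projective.of_split (extDer σ φ h) (resDer ε) ?_
  ext D r
  change ε (extDer σ φ h D (algebraMap R A r)) = D r
  rw [extDer_algebraMap, ε.commutes]
  rfl

end Vale.Agent.P266
end

section

/-!
# P266: homogeneous components of derivations, the Euler derivation, and `EulerData`
-/

namespace Vale.Agent.P266

open DirectSum

section Homog

variable {k A : Type*} [Field k] [CommRing A] [Algebra k A]
  (𝒜 : ℕ → Submodule k A) [GradedAlgebra 𝒜]

/-- the linear map given on homogeneous components -/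
noncomputable def gradedLinear (g : ∀ n, 𝒜 n →ₗ[k] A) : A →ₗ[k] A :=
  (DirectSum.toModule k ℕ A g) ∘ₗ (decomposeLinearEquiv 𝒜).toLinearMap

lemma gradedLinear_of_mem (g : ∀ n, 𝒜 n →ₗ[k] A) {n : ℕ} {a : A} (ha : a ∈ 𝒜 n) :
    gradedLinear 𝒜 g a = g n ⟨a, ha⟩ := by
  have : decompose 𝒜 a = lof k ℕ (fun i => 𝒜 i) n ⟨a, ha⟩ := decompose_of_mem 𝒜 ha
  rw [gradedLinear, LinearMap.comp_apply, LinearEquiv.coe_coe, decomposeLinearEquiv_apply, this,
    toModule_lof]

/-- a derivation given on homogeneous components -/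
noncomputable def gradedDer (g : ∀ n, 𝒜 n →ₗ[k] A)
    (h : ∀ (m n : ℕ) (a : 𝒜 m) (b : 𝒜 n),
      gradedLinear 𝒜 g ((a : A) * b) = (a : A) * g n b + (b : A) * g m a) :
    Derivation k A A :=
  Derivation.mk' (gradedLinear 𝒜 g) (by
    intro a b
    rw [smul_eq_mul, smul_eq_mul]
    refine DirectSum.Decomposition.inductionOn 𝒜 ?_ ?_ ?_ a
    · simp
    · intro m a
      refine DirectSum.Decomposition.inductionOn 𝒜 ?_ ?_ ?_ b
      · simp
      · intro n b
        rw [h, gradedLinear_of_mem 𝒜 g b.2, gradedLinear_of_mem 𝒜 g a.2]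
      · intro b b' hb hb'
        rw [mul_add, map_add, hb, hb', map_add]
        ring
    · intro a a' ha ha'
      rw [add_mul, map_add, ha, ha', map_add]
      ring)

lemma gradedDer_of_mem (g : ∀ n, 𝒜 n →ₗ[k] A) (h) {n : ℕ} {a : A} (ha : a ∈ 𝒜 n) :
    gradedDer 𝒜 g h a = g n ⟨a, ha⟩ :=
  gradedLinear_of_mem 𝒜 g ha

/-- the Euler derivation -/
noncomputable def eulerDer : Derivation k A A :=
  gradedDer 𝒜 (fun n => (n : k) • (𝒜 n).subtype) (by
    intro m n a b
    rw [gradedLinear_of_mem 𝒜 _ (SetLike.GradedMul.mul_mem a.2 b.2)]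
    simp only [LinearMap.smul_apply, Submodule.subtype_apply, Algebra.smul_def, map_natCast,
      Nat.cast_add, map_add]
    ring)

lemma eulerDer_of_mem {n : ℕ} {a : A} (ha : a ∈ 𝒜 n) : eulerDer 𝒜 a = (n : A) * a := by
  rw [eulerDer, gradedDer_of_mem 𝒜 _ _ ha]
  simp [Algebra.smul_def]

/-- the component of degree `-l` of a derivation -/
noncomputable def compDer (D : Derivation k A A) (l : ℕ) (_hl : 0 < l) : Derivation k A A :=
  gradedDer 𝒜 (fun n => if l ≤ n then
      (GradedAlgebra.proj 𝒜 (n - l)) ∘ₗ (D : A →ₗ[k] A) ∘ₗ (𝒜 n).subtype else 0) (by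
    intro m n a b
    have hpa : ∀ x : A, m + n - l < m →
        ((decompose 𝒜 ((a : A) * x) (m + n - l) : 𝒜 _) : A) = 0 := fun x hx =>
      coe_decompose_mul_of_left_mem_of_not_le 𝒜 a.2 (not_le.2 hx)
    have hpb : ∀ x : A, m + n - l < n →
        ((decompose 𝒜 ((b : A) * x) (m + n - l) : 𝒜 _) : A) = 0 := fun x hx =>
      coe_decompose_mul_of_left_mem_of_not_le 𝒜 b.2 (not_le.2 hx)
    have hpa' : ∀ x : A, l ≤ n →
        ((decompose 𝒜 ((a : A) * x) (m + n - l) : 𝒜 _) : A) =
          a * (decompose 𝒜 x (n - l) : 𝒜 _) := fun x hx => by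
      have h0 : m + n - l - m = n - l := by omega
      rw [coe_decompose_mul_of_left_mem_of_le 𝒜 a.2 (by omega), h0]
    have hpb' : ∀ x : A, l ≤ m →
        ((decompose 𝒜 ((b : A) * x) (m + n - l) : 𝒜 _) : A) =
          b * (decompose 𝒜 x (m - l) : 𝒜 _) := fun x hx => by
      have h0 : m + n - l - n = m - l := by omega
      rw [coe_decompose_mul_of_left_mem_of_le 𝒜 b.2 (by omega), h0]
    rw [gradedLinear_of_mem 𝒜 _ (SetLike.GradedMul.mul_mem a.2 b.2)]
    by_cases h1 : l ≤ m + n
    · rw [if_pos h1]
      simp only [LinearMap.coe_comp, Function.comp_apply, Submodule.subtype_apply,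
        Derivation.coeFn_coe, Derivation.leibniz, smul_eq_mul, map_add, GradedAlgebra.proj_apply]
      congr 1
      · by_cases h2 : l ≤ n
        · rw [if_pos h2, hpa' _ h2]
          rfl
        · rw [if_neg h2, hpa _ (by omega)]
          simp
      · by_cases h2 : l ≤ m
        · rw [if_pos h2, hpb' _ h2]
          rfl
        · rw [if_neg h2, hpb _ (by omega)]
          simp
    · rw [if_neg h1, if_neg (by omega), if_neg (by omega)]
      simp)

lemma compDer_of_le (D : Derivation k A A) (l : ℕ) (hl : 0 < l) {n : ℕ} {a : A} (ha : a ∈ 𝒜 n)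
    (h : l ≤ n) : compDer 𝒜 D l hl a = (decompose 𝒜 (D a) (n - l) : 𝒜 _) := by
  rw [compDer, gradedDer_of_mem 𝒜 _ _ ha, if_pos h]
  rfl

lemma compDer_of_lt (D : Derivation k A A) (l : ℕ) (hl : 0 < l) {n : ℕ} {a : A} (ha : a ∈ 𝒜 n)
    (h : n < l) : compDer 𝒜 D l hl a = 0 := by
  rw [compDer, gradedDer_of_mem 𝒜 _ _ ha, if_neg (not_le.2 h)]
  rfl

/-- a derivation killing degree zero, as a relative derivation -/
noncomputable def relDer (D : Derivation k A A) (h : ∀ r : 𝒜 0, D (r : A) = 0) :
    Derivation (𝒜 0) A A :=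
  Derivation.mk' { toFun := D
                   map_add' := map_add D
                   map_smul' := fun r a => by
                    have h1 : ∀ x : A, r • x = (r : A) * x := fun x => Algebra.smul_def r x
                    rw [h1, Derivation.leibniz, h, smul_zero, add_zero, RingHom.id_apply, h1,
                      smul_eq_mul] }
    (fun a b => D.leibniz a b)

lemma relDer_apply (D : Derivation k A A) (h) (a : A) : relDer 𝒜 D h a = D a := rfl

open EulerData in
/-- if the Euler derivation is a finite combination `∑ f_i D_i` with the `f_i` of zero degree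
zero part, we get `EulerData`. -/
theorem exists_eulerData {J : Type*} [Fintype J] (f : J → A) (D : J → Derivation k A A)
    (hf : ∀ j, ε 𝒜 (f j) = 0) (hE : eulerDer 𝒜 = ∑ j, f j • D j) :
    ∃ (ι : Type) (_ : Fintype ι), Nonempty (EulerData 𝒜 ι) := by
  classical
  -- a bound for the degrees of the `f j`
  obtain ⟨M, hM⟩ : ∃ M : ℕ, ∀ j, ∀ n, M ≤ n → (decompose 𝒜 (f j) n : A) = 0 := by
    refine ⟨Finset.univ.sup (fun j => (decompose 𝒜 (f j)).support.sup (fun n => n + 1)), ?_⟩
    intro j n hn
    by_contra h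
    have h1 : n ∈ (decompose 𝒜 (f j)).support := by
      rw [DFinsupp.mem_support_iff]
      intro h2
      exact h (by rw [h2]; rfl)
    have h2 : n + 1 ≤ (decompose 𝒜 (f j)).support.sup (fun n => n + 1) :=
      Finset.le_sup (f := fun n => n + 1) h1
    have h3 : (decompose 𝒜 (f j)).support.sup (fun n => n + 1) ≤
        Finset.univ.sup (fun j => (decompose 𝒜 (f j)).support.sup (fun n => n + 1)) :=
      Finset.le_sup (f := fun j => (decompose 𝒜 (f j)).support.sup (fun n => n + 1))
        (Finset.mem_univ j)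
    omega
  have hker : ∀ (D : Derivation k A A) (l : ℕ) (hl : 0 < l) (r : 𝒜 0),
      compDer 𝒜 D l hl (r : A) = 0 := fun D l hl r => compDer_of_lt 𝒜 D l hl r.2 hl
  obtain ⟨e⟩ := Fintype.truncEquivFin J
  let ι := Fin (Fintype.card J) × Fin M
  refine ⟨ι, inferInstance, ⟨?_⟩⟩
  refine
    { l := fun α => α.2.1 + 1
      lpos := fun α => Nat.succ_pos _
      f := fun α => (decompose 𝒜 (f (e.symm α.1)) (α.2.1 + 1) : 𝒜 _)
      f_mem := fun α => SetLike.coe_mem _
      δ := fun α => relDer 𝒜 (compDer 𝒜 (D (e.symm α.1)) (α.2.1 + 1) (Nat.succ_pos _))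
        (hker _ _ _)
      δ_mem := fun α n a ha h => by
        rw [relDer_apply, compDer_of_le 𝒜 _ _ _ ha h]
        exact SetLike.coe_mem _
      δ_zero := fun α n a ha h => by
        rw [relDer_apply, compDer_of_lt 𝒜 _ _ _ ha h]
      euler := fun n a ha => ?_ }
  have h1 : (n : A) * a = ∑ j, (decompose 𝒜 (f j * D j a) n : A) := by
    rw [← eulerDer_of_mem 𝒜 ha]
    have h2 : eulerDer 𝒜 a = ∑ j, f j * D j a := by
      rw [hE]
      have : (∑ j, f j • D j) a = ∑ j, (f j • D j) a := by
        rw [← Derivation.coeFnAddMonoidHom_apply, map_sum, Finset.sum_apply]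
        rfl
      rw [this]
      rfl
    have h3 : eulerDer 𝒜 a ∈ 𝒜 n := by
      rw [eulerDer_of_mem 𝒜 ha, ← nsmul_eq_mul]
      exact Submodule.smul_of_tower_mem _ n ha
    rw [← decompose_of_mem_same 𝒜 h3, h2, decompose_sum, DFinsupp.finsetSum_apply]
    push_cast
    rfl
  rw [h1, Fintype.sum_prod_type, ← Equiv.sum_comp e]
  refine Finset.sum_congr rfl fun j _ => ?_
  simp only [Equiv.symm_apply_apply, relDer_apply]
  -- expand `f j`
  have h4 : f j = ∑ l ∈ Finset.range M, (decompose 𝒜 (f j) l : A) := by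
    conv_lhs => rw [← sum_support_decompose 𝒜 (f j)]
    refine Finset.sum_subset ?_ ?_
    · intro n hn
      rw [Finset.mem_range]
      by_contra h
      rw [DFinsupp.mem_support_iff] at hn
      exact hn (Subtype.ext (hM j n (not_lt.1 h)))
    · intro n _ hn
      rw [DFinsupp.notMem_support_iff] at hn
      rw [hn]; rfl
  have h5 : f j = ∑ l ∈ Finset.range M, (decompose 𝒜 (f j) (l + 1) : A) := by
    have h6 : ∑ l ∈ Finset.range (M + 1), (decompose 𝒜 (f j) l : A) = f j := by
      rw [Finset.sum_range_succ, hM j M le_rfl, add_zero, ← h4]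
    rw [Finset.sum_range_succ'] at h6
    have h7 : (decompose 𝒜 (f j) 0 : A) = 0 := by
      have := congrArg (fun x : 𝒜 0 => (x : A)) (hf j)
      simpa using this
    rw [h7, add_zero] at h6
    exact h6.symm
  conv_rhs => rw [h5, Finset.sum_mul, decompose_sum, DFinsupp.finsetSum_apply]
  rw [Finset.sum_range]
  push_cast
  refine Finset.sum_congr rfl fun l _ => ?_
  have hmem : ((decompose 𝒜 (f j) (l.1 + 1) : 𝒜 _) : A) ∈ 𝒜 (l.1 + 1) := SetLike.coe_mem _
  by_cases h : l.1 + 1 ≤ n
  · rw [compDer_of_le 𝒜 _ _ _ ha h, coe_decompose_mul_of_left_mem_of_le 𝒜 hmem h]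
  · rw [compDer_of_lt 𝒜 _ _ _ ha (not_le.1 h), coe_decompose_mul_of_left_mem_of_not_le 𝒜 hmem h,
      mul_zero]

end Homog

end Vale.Agent.P266
end
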