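import Mathlib
import Vale.Agent.P266.Bdl.B2
import Vale.Agent.P266.Bdl.B1

set_option linter.all false

section

/-!
# P266: linear forms on the derivation module take the Euler derivation into the irrelevant ideal
-/

namespace Vale.Agent.P266

open MvPolynomial

section Aux

/-- a derivation over another base, if it kills it -/
def derOfKill {R : Type*} (k : Type*) {T : Type*} [CommRing R] [CommRing k] [CommRing T]
    [Algebra R T] [Algebra k T] (D : Derivation R T T) (h : ∀ c : k, D (algebraMap k T c) = 0) :
    Derivation k T T :=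
  Derivation.mk'
    { toFun := D
      map_add' := map_add D
      map_smul' := fun s t => by
        have h1 : ∀ x : T, s • x = algebraMap k T s * x := fun x => Algebra.smul_def s x
        rw [h1, Derivation.leibniz, h, smul_zero, add_zero, RingHom.id_apply, h1, smul_eq_mul] }
    (fun a b => D.leibniz a b)

lemma derOfKill_apply {R k T : Type*} [CommRing R] [CommRing k] [CommRing T]
    [Algebra R T] [Algebra k T] (D : Derivation R T T) (h) (t : T) :
    derOfKill k D h t = D t := rfl

/-- integrality descends to a ring mapping onto the base -/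
lemma isIntegral_of_surj {B S K : Type*} [CommRing B] [CommRing S] [Nontrivial S] [CommRing K]
    [Algebra B K]
    [Algebra S K] (g : B →+* S) (hg : Function.Surjective g)
    (h : (algebraMap S K).comp g = algebraMap B K) {z : K} (hz : IsIntegral S z) :
    IsIntegral B z := by
  obtain ⟨p, hp, hpz⟩ := hz
  have hlift : p ∈ Polynomial.lifts g := by
    rw [Polynomial.lifts_iff_coeff_lifts]
    intro n
    exact hg _
  obtain ⟨q, hq, -, hqm⟩ := Polynomial.lifts_and_degree_eq_and_monic hlift hp
  refine ⟨q, hqm, ?_⟩
  rw [← h, ← Polynomial.eval₂_map, hq, hpz]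

lemma isIntegral_mvPolynomial {K₀ K ι : Type*} [CommRing K₀] [CommRing K] [Nontrivial K]
    [Algebra K₀ K] (y : ι → K) [Algebra (MvPolynomial ι K₀) K]
    (h : ∀ b : MvPolynomial ι K₀, algebraMap (MvPolynomial ι K₀) K b = aeval y b) {z : K}
    (hz : IsIntegral (Algebra.adjoin K₀ (Set.range y)) z) :
    IsIntegral (MvPolynomial ι K₀) z := by
  rw [Algebra.adjoin_range_eq_range_aeval] at hz
  refine isIntegral_of_surj
    ((aeval y : MvPolynomial ι K₀ →ₐ[K₀] K).rangeRestrict : MvPolynomial ι K₀ →+* _)
    (AlgHom.rangeRestrict_surjective _) ?_ hz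
  exact RingHom.ext fun b => (h b).symm

end Aux

section Main

variable {k A : Type*} [Field k] [CharZero k] [CommRing A] [IsDomain A] [Algebra k A]
  [Algebra.FiniteType k A]
  (K₀ K : Type*) [Field K₀] [Field K] [Algebra A K] [IsFractionRing A K] [Algebra K₀ K]

omit [CharZero k] [IsDomain A] in
/-- finiteness of the function field -/
lemma finiteDimensional_of_integral {B L : Type*} [CommRing B] [IsDomain B] [Field L]
    [Algebra B L] [IsFractionRing B L] [Algebra L K] [Algebra B K] [IsScalarTower B L K]
    (hk : ∀ c : k, algebraMap A K (algebraMap k A c) ∈ (algebraMap L K).range)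
    (hA : ∀ a : A, IsIntegral B (algebraMap A K a)) : FiniteDimensional L K := by
  classical
  obtain ⟨S, hS⟩ := (Algebra.FiniteType.out (R := k) (A := A))
  let F := IntermediateField.adjoin L (algebraMap A K '' (S : Set A))
  have hF : FiniteDimensional L F := by
    have : Finite (algebraMap A K '' (S : Set A)) := (S.finite_toSet.image _).to_subtype
    refine IntermediateField.finiteDimensional_adjoin fun x hx => ?_
    obtain ⟨a, _, rfl⟩ := hx
    exact (hA a).tower_top
  have hAF : ∀ a : A, algebraMap A K a ∈ F := by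
    intro a
    have ha : a ∈ Algebra.adjoin k (S : Set A) := by rw [hS]; trivial
    induction ha using Algebra.adjoin_induction with
    | mem x hx => exact IntermediateField.subset_adjoin _ _ ⟨x, hx, rfl⟩
    | algebraMap r =>
      obtain ⟨l, hl⟩ := hk r
      rw [← hl]
      exact F.algebraMap_mem l
    | add x y _ _ hx hy => rw [map_add]; exact F.add_mem hx hy
    | mul x y _ _ hx hy => rw [map_mul]; exact F.mul_mem hx hy
  have htop : F = ⊤ := by
    rw [eq_top_iff]
    rintro x -
    obtain ⟨a, b, hb, rfl⟩ := IsFractionRing.div_surjective (A := A) x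
    exact F.div_mem (hAF a) (hAF b)
  rw [htop] at hF
  exact Module.Finite.equiv (IntermediateField.topEquiv (F := L) (E := K)).toLinearEquiv

/-- Data of a graded Noether normalization, on the polynomial ring side. -/
theorem eps_omega_euler [IsIntegrallyClosed A] (𝒜 : ℕ → Submodule k A) [GradedAlgebra 𝒜]
    [Algebra (𝒜 0) K₀] [IsFractionRing (𝒜 0) K₀] [Algebra (𝒜 0) K]
    [IsScalarTower (𝒜 0) A K] [IsScalarTower (𝒜 0) K₀ K]
    (w : ℕ) (c : ℕ) (x : Fin c → A) (hx : ∀ i, x i ∈ 𝒜 w)
    (hind : AlgebraicIndependent K₀ (fun i => algebraMap A K (x i)))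
    (hint : ∀ a : A, IsIntegral (Algebra.adjoin K₀ (Set.range fun i => algebraMap A K (x i)))
      (algebraMap A K a))
    (ω : Derivation k A A →ₗ[A] A) : EulerData.ε 𝒜 (ω (eulerDer 𝒜)) = 0 := by
  classical
  let B := MvPolynomial (Fin c) K₀
  let _ : Algebra B K := (aeval (R := K₀) fun i => algebraMap A K (x i)).toAlgebra
  have hBK : ∀ b : B, algebraMap B K b = aeval (R := K₀) (fun i => algebraMap A K (x i)) b :=
    fun b => rfl
  have hBKinj : Function.Injective (algebraMap B K) := hind
  have hst₀ : IsScalarTower K₀ B K := IsScalarTower.of_algebraMap_eq fun r => by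
    rw [hBK, MvPolynomial.algebraMap_eq, aeval_C]
  let L := FractionRing B
  have hfs : FaithfulSMul B K := (faithfulSMul_iff_algebraMap_injective B K).2 hBKinj
  let _ : Algebra L K := FractionRing.liftAlgebra B K
  have hst : IsScalarTower B L K := inferInstance
  have h0K : ∀ r : 𝒜 0, algebraMap A K (r : A) = algebraMap K₀ K (algebraMap (𝒜 0) K₀ r) := by
    intro r
    rw [← IsScalarTower.algebraMap_apply (𝒜 0) K₀ K, IsScalarTower.algebraMap_apply (𝒜 0) A K]
    rfl
  have h0B : ∀ r : 𝒜 0, algebraMap A K (r : A) = algebraMap B K (C (algebraMap (𝒜 0) K₀ r)) := by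
    intro r
    rw [h0K, hBK, aeval_C]
  -- integrality over `B`
  have hA : ∀ a : A, IsIntegral B (algebraMap A K a) := by
    intro a
    exact isIntegral_mvPolynomial (fun i => algebraMap A K (x i)) hBK (hint a)
  have hnt : Nontrivial (𝒜 0) := (algebraMap (𝒜 0) A).domain_nontrivial
  -- denominators
  have hB : ∀ b : B, ∃ s : A, UnitIn B K s ∧
      ∃ a : A, algebraMap A K a = algebraMap A K s * algebraMap B K b := by
    intro b
    induction b using MvPolynomial.induction_on with
    | C κ =>
      obtain ⟨r, s, hs, rfl⟩ := IsFractionRing.div_surjective (A := 𝒜 0) κ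
      have hs0 : algebraMap (𝒜 0) K₀ s ≠ 0 := by
        intro h
        rw [map_eq_zero_iff _ (IsFractionRing.injective (𝒜 0) K₀)] at h
        exact nonZeroDivisors.ne_zero hs h
      refine ⟨(s : A), ⟨Units.map (C : K₀ →+* B).toMonoidHom (Units.mk0 _ hs0), ?_⟩, (r : A), ?_⟩
      · rw [h0B]
        rfl
      · rw [h0B, h0B, ← map_mul, ← map_mul, mul_div_cancel₀ _ hs0]
    | add p q hp hq =>
      obtain ⟨s, hs, a, ha⟩ := hp
      obtain ⟨t, ht, b, hb⟩ := hq
      refine ⟨s * t, hs.mul ht, t * a + s * b, ?_⟩
      rw [map_add, map_mul, map_mul, map_mul, map_add, ha, hb]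
      ring
    | mul_X p i hp =>
      obtain ⟨s, hs, a, ha⟩ := hp
      refine ⟨s, hs, a * x i, ?_⟩
      rw [map_mul, ha, map_mul]
      have : algebraMap B K (X i) = algebraMap A K (x i) := by rw [hBK, aeval_X]
      rw [this]
      ring
  have hXK : ∀ i, algebraMap B K (X i) = algebraMap A K (x i) := fun i => by rw [hBK, aeval_X]
  -- the base field
  have hchar₀ : CharZero K₀ := by
    refine charZero_of_inj_zero fun n hn => ?_
    by_contra h
    have h1 : algebraMap K₀ K (n : K₀) = algebraMap A K (algebraMap k A (n : k)) := by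
      rw [map_natCast, map_natCast, map_natCast]
    rw [hn, map_zero] at h1
    have h2 := (map_eq_zero_iff _ (IsFractionRing.injective A K)).1 h1.symm
    rw [map_eq_zero_iff _ (algebraMap k A).injective] at h2
    exact h (by exact_mod_cast h2)
  have hQ : ∀ n : ℕ, n ≠ 0 → IsUnit (n : B) := by
    intro n hn
    have h1 : IsUnit (n : K₀) := isUnit_iff_ne_zero.2 (by exact_mod_cast hn)
    have := h1.map (C : K₀ →+* B)
    rwa [map_natCast] at this
  let _ : Algebra k K := ((algebraMap A K).comp (algebraMap k A)).toAlgebra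
  have hstk : IsScalarTower k A K := IsScalarTower.of_algebraMap_eq' rfl
  have hkB : ∀ c : k, algebraMap k K c =
      algebraMap B K (C (algebraMap (𝒜 0) K₀ (algebraMap k (𝒜 0) c))) := by
    intro c
    rw [← h0B]
    rfl
  have hfd : FiniteDimensional L K := by
    refine finiteDimensional_of_integral (k := k) (A := A) K (B := B) (fun c => ?_) hA
    refine ⟨algebraMap B L (C (algebraMap (𝒜 0) K₀ (algebraMap k (𝒜 0) c))), ?_⟩
    rw [← IsScalarTower.algebraMap_apply B L K]
    exact (hkB c).symm
  have hcharL : CharZero L := by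
    have : CharZero B := inferInstance
    exact charZero_of_injective_algebraMap (IsFractionRing.injective B L)
  have hsep : Algebra.IsSeparable L K := inferInstance
  have het1 : Algebra.FormallyEtale B L :=
    Algebra.FormallyEtale.of_isLocalization (nonZeroDivisors B)
  have het2 : Algebra.FormallyEtale L K := Algebra.FormallyEtale.of_isSeparable L K
  have het : Algebra.FormallyEtale B K := Algebra.FormallyEtale.comp B L K
  have hetA : Algebra.FormallyEtale A K :=
    Algebra.FormallyEtale.of_isLocalization (nonZeroDivisors A)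
  -- the partial derivatives
  have hθex : ∀ j : Fin c, ∃ θ : Derivation k K K,
      ∀ b : B, θ (algebraMap B K b) = algebraMap B K (pderiv j b) := by
    intro j
    obtain ⟨D, hD⟩ := exists_der_ext K₀ (S := B) (T := K)
      ((Algebra.linearMap B K).compDer (pderiv j))
    refine ⟨derOfKill k D fun c => ?_, fun b => ?_⟩
    · rw [hkB, hD]
      change algebraMap B K (pderiv j _) = 0
      rw [pderiv_C, map_zero]
    · exact hD b
  choose θ hθ using hθex
  obtain ⟨E, hE⟩ := exists_der_ext k (S := A) (T := K) (derToFrac k A K (eulerDer 𝒜))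
  have hE' : ∀ a, E (algebraMap A K a) = algebraMap A K (eulerDer 𝒜 a) := hE
  -- `E` on `B`
  have hEC : ∀ κ : K₀, E (algebraMap B K (C κ)) = 0 := by
    intro κ
    obtain ⟨r, s, hs, rfl⟩ := IsFractionRing.div_surjective (A := 𝒜 0) κ
    have h1 : ∀ r : 𝒜 0, E (algebraMap A K (r : A)) = 0 := by
      intro r
      rw [hE', eulerDer_of_mem 𝒜 r.2]
      simp
    have h2 : algebraMap B K (C (algebraMap (𝒜 0) K₀ r / algebraMap (𝒜 0) K₀ s)) =
        algebraMap A K (r : A) / algebraMap A K (s : A) := by
      rw [hBK, aeval_C, map_div₀, h0K, h0K]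
    rw [h2, Derivation.leibniz_div, h1, h1]
    simp
  have hEsum : E = ∑ j, ((w : K) * algebraMap A K (x j)) • θ j := by
    rw [← sub_eq_zero]
    refine der_eq_zero_of_unramified (S := B) _ fun b => ?_
    have hsum : ∀ y : K, (E - ∑ j, ((w : K) * algebraMap A K (x j)) • θ j) y =
        E y - ∑ j, ((w : K) * algebraMap A K (x j)) * θ j y := by
      intro y
      rw [Derivation.sub_apply]
      congr 1
      rw [← Derivation.coeFnAddMonoidHom_apply, map_sum, Finset.sum_apply]
      rfl
    rw [hsum, sub_eq_zero]
    induction b using MvPolynomial.induction_on with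
    | C κ =>
      rw [hEC]
      simp [hθ]
    | add p q hp hq =>
      simp only [map_add, hp, hq, mul_add, Finset.sum_add_distrib]
    | mul_X p i hp =>
      rw [map_mul, Derivation.leibniz, hp]
      simp only [Derivation.leibniz, smul_eq_mul, mul_add, Finset.sum_add_distrib]
      congr 1
      · rw [hXK, hE', eulerDer_of_mem 𝒜 (hx i), map_mul, map_natCast]
        have h3 : ∀ j, θ j (algebraMap A K (x i)) = if j = i then 1 else 0 := by
          intro j
          rw [← hXK, hθ, pderiv_X, Pi.single_apply]
          split_ifs with h h' h' <;> simp_all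
        simp only [h3]
        simp [mul_comm]
      · rw [Finset.mul_sum]
        exact Finset.sum_congr rfl fun j _ => by ring
  -- the action of `E` on `B`
  let EB : B → B := fun b => ∑ j, (w : B) * X j * pderiv j b
  have hEB : ∀ b, E (algebraMap B K b) = algebraMap B K (EB b) := by
    intro b
    have h4 : E (algebraMap B K b) = ∑ j, ((w : K) * algebraMap A K (x j)) * θ j (algebraMap B K b) := by
      conv_lhs => rw [hEsum]
      rw [← Derivation.coeFnAddMonoidHom_apply, map_sum, Finset.sum_apply]
      rfl
    rw [h4, map_sum]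
    refine Finset.sum_congr rfl fun j _ => ?_
    rw [hθ, map_mul, map_mul, map_natCast, hXK]
  have hEBc : ∀ b, constantCoeff (EB b) = 0 := by
    intro b
    simp [EB]
  -- the trace of a homogeneous element of positive degree
  have hBint : IsIntegrallyClosed B := inferInstance
  have htrpos : ∀ (d : ℕ) (a : A), 0 < d → a ∈ 𝒜 d →
      ∃ b : B, Algebra.trace L K (algebraMap A K a) = algebraMap B L b ∧ constantCoeff b = 0 := by
    intro d a hd ha
    set p : Polynomial B := minpoly B (algebraMap A K a) with hp
    have hpm : p.Monic := minpoly.monic (hA a)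
    have hp0 : Polynomial.aeval (algebraMap A K a) p = 0 := minpoly.aeval _ _
    set n := p.natDegree with hn
    have hnpos : 0 < n := minpoly.natDegree_pos (hA a)
    have hmin : minpoly L (algebraMap A K a) = p.map (algebraMap B L) :=
      minpoly.isIntegrallyClosed_eq_field_fractions L K (hA a)
    -- differentiate
    have hEa : E (algebraMap A K a) = (d : K) * algebraMap A K a := by
      rw [hE', eulerDer_of_mem 𝒜 ha, map_mul, map_natCast]
    have hdiff : ∀ q : Polynomial B, E (Polynomial.aeval (algebraMap A K a) q) =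
        ∑ i ∈ Finset.range (q.natDegree + 1),
          algebraMap B K (EB (q.coeff i) + (i * d : ℕ) * q.coeff i) * (algebraMap A K a) ^ i := by
      intro q
      rw [Polynomial.aeval_eq_sum_range, map_sum]
      refine Finset.sum_congr rfl fun i _ => ?_
      rw [Algebra.smul_def, Derivation.leibniz, hEB, Derivation.leibniz_pow, hEa]
      rcases Nat.eq_zero_or_pos i with rfl | hi
      · simp
      · obtain ⟨i', rfl⟩ : ∃ i', i = i' + 1 := ⟨i - 1, by omega⟩
        simp only [smul_eq_mul, nsmul_eq_mul, Nat.add_sub_cancel, map_add, map_mul, map_natCast,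
          Nat.cast_mul]
        ring
    set q : Polynomial B := ∑ i ∈ Finset.range n,
      Polynomial.monomial i (EB (p.coeff i) + (i * d : ℕ) * p.coeff i - (n * d : ℕ) * p.coeff i)
      with hq
    have hqc : ∀ i, i < n → q.coeff i =
        EB (p.coeff i) + (i * d : ℕ) * p.coeff i - (n * d : ℕ) * p.coeff i := by
      intro i hi
      rw [hq, Polynomial.finsetSum_coeff]
      simp only [Polynomial.coeff_monomial]
      rw [Finset.sum_ite_eq' (Finset.range n) i, if_pos (Finset.mem_range.2 hi)]
    have hqdeg : q.degree < p.degree := by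
      rw [Polynomial.degree_eq_natDegree hpm.ne_zero, ← hn, Polynomial.degree_lt_iff_coeff_zero]
      intro m hm
      rw [hq, Polynomial.finsetSum_coeff]
      refine Finset.sum_eq_zero fun i hi => ?_
      rw [Polynomial.coeff_monomial, if_neg]
      have := Finset.mem_range.1 hi
      omega
    have hq0 : Polynomial.aeval (algebraMap A K a) q = 0 := by
      have h1 := hdiff p
      rw [hp0, map_zero, ← hn, Finset.sum_range_succ] at h1
      have hlc : p.coeff n = 1 := hpm.coeff_natDegree
      have hEB1 : EB 1 = 0 := by simp [EB]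
      rw [hlc, hEB1, zero_add, mul_one] at h1
      have h2 := hp0
      rw [Polynomial.aeval_eq_sum_range, ← hn, Finset.sum_range_succ, hlc, one_smul] at h2
      rw [hq, map_sum]
      have h3 : ∀ i ∈ Finset.range n, Polynomial.aeval (algebraMap A K a)
          (Polynomial.monomial i
            (EB (p.coeff i) + (i * d : ℕ) * p.coeff i - (n * d : ℕ) * p.coeff i)) =
          algebraMap B K (EB (p.coeff i) + (i * d : ℕ) * p.coeff i) * (algebraMap A K a) ^ i -
          ((n * d : ℕ) : K) * (p.coeff i • (algebraMap A K a) ^ i) := by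
        intro i _
        rw [Polynomial.aeval_monomial, Algebra.smul_def, map_sub, map_mul _ ((n * d : ℕ) : B),
          map_natCast]
        ring
      rw [Finset.sum_congr rfl h3, Finset.sum_sub_distrib, ← Finset.mul_sum]
      rw [map_natCast] at h1
      linear_combination -h1 - ((n * d : ℕ) : K) * h2
    have hqz : q = 0 := by
      by_contra h
      exact absurd (minpoly.IsIntegrallyClosed.degree_le_of_ne_zero h hq0)
        (not_le.2 hqdeg)
    have hlast : constantCoeff (p.coeff (n - 1)) = 0 := by
      have h1 := hqc (n - 1) (by omega)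
      rw [hqz, Polynomial.coeff_zero] at h1
      have h2 := congrArg constantCoeff h1
      rw [map_zero, map_sub, map_add, hEBc, map_mul, map_mul, map_natCast, map_natCast] at h2
      have h3 : ((n * d : ℕ) : K₀) = ((n - 1) * d : ℕ) + d := by
        obtain ⟨n', hn'⟩ : ∃ n', n = n' + 1 := ⟨n - 1, by omega⟩
        rw [hn', Nat.add_sub_cancel]
        push_cast
        ring
      rw [h3] at h2
      have h4 : (d : K₀) * constantCoeff (p.coeff (n - 1)) = 0 := by
        linear_combination h2
      rcases mul_eq_zero.1 h4 with h5 | h5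
      · exact absurd (by exact_mod_cast h5) hd.ne'
      · exact h5
    refine ⟨-(Module.finrank (IntermediateField.adjoin L {algebraMap A K a}) K : B) *
      p.coeff (n - 1), ?_, ?_⟩
    · rw [trace_eq_finrank_mul_minpoly_nextCoeff, hmin, Polynomial.nextCoeff_map,
        Polynomial.nextCoeff_of_natDegree_pos hnpos, map_mul, map_neg, map_natCast]
      · ring
      · exact IsFractionRing.injective B L
    · rw [map_mul, hlast, mul_zero]
  -- the main computation
  obtain ⟨Ω, hΩ⟩ := exists_omegaExt (K := K) ω
  have hΩA : ∀ D : Derivation k K K, (∀ a : A, D (algebraMap A K a) ∈ (algebraMap A K).range) →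
      Ω D ∈ (algebraMap A K).range := by
    intro D hD
    obtain ⟨D₀, hD₀⟩ := exists_der_of_range (D.compAlgebraMap A) hD
    exact ⟨ω D₀, (hΩ D D₀ fun a => (hD₀ a).symm).symm⟩
  have htrθ : ∀ j, ∃ b : B, Algebra.trace L K (Ω (θ j)) = algebraMap B L b := fun j =>
    trace_omega_mem (A := A) (B := B) (L := L) hA hB hQ (θ j) (fun b => ⟨_, hθ j b⟩) Ω hΩA
  choose β hβ using htrθ
  set f := ω (eulerDer 𝒜) with hf
  have hf1 : algebraMap A K f = ∑ j, ((w : K) * algebraMap A K (x j)) * Ω (θ j) := by
    rw [hf, ← hΩ E _ hE', hEsum, map_sum]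
    exact Finset.sum_congr rfl fun j _ => by rw [map_smul, smul_eq_mul]
  have hf2 : Algebra.trace L K (algebraMap A K f) =
      algebraMap B L (∑ j, (w : B) * X j * β j) := by
    rw [hf1, map_sum, map_sum]
    refine Finset.sum_congr rfl fun j _ => ?_
    have h1 : ((w : K) * algebraMap A K (x j)) * Ω (θ j) =
        (algebraMap B L ((w : B) * X j)) • Ω (θ j) := by
      rw [Algebra.smul_def, ← IsScalarTower.algebraMap_apply B L K, map_mul, hXK, map_natCast]
    rw [h1, map_smul, hβ, smul_eq_mul, ← map_mul]
  -- decompose `f`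
  have hf3 : ∃ b : B, Algebra.trace L K (algebraMap A K (f - (DirectSum.decompose 𝒜 f 0 : A))) =
      algebraMap B L b ∧ constantCoeff b = 0 := by
    have h1 : f - (DirectSum.decompose 𝒜 f 0 : A) =
        ∑ i ∈ (DirectSum.decompose 𝒜 f).support.erase 0, (DirectSum.decompose 𝒜 f i : A) := by
      rw [sub_eq_iff_eq_add]
      conv_lhs => rw [← DirectSum.sum_support_decompose 𝒜 f]
      by_cases h : 0 ∈ (DirectSum.decompose 𝒜 f).support
      · rw [← Finset.sum_erase_add _ _ h]
      · rw [Finset.erase_eq_of_notMem h]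
        rw [DFinsupp.notMem_support_iff] at h
        rw [h]
        simp
    have h2 : ∀ i ∈ (DirectSum.decompose 𝒜 f).support.erase 0, ∃ b : B,
        Algebra.trace L K (algebraMap A K (DirectSum.decompose 𝒜 f i : A)) = algebraMap B L b ∧
        constantCoeff b = 0 := by
      intro i hi
      exact htrpos i _ (Nat.pos_of_ne_zero (Finset.ne_of_mem_erase hi)) (SetLike.coe_mem _)
    choose! g hg1 hg2 using h2
    refine ⟨∑ i ∈ (DirectSum.decompose 𝒜 f).support.erase 0, g i, ?_, ?_⟩
    · rw [h1, map_sum, map_sum, map_sum]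
      exact Finset.sum_congr rfl hg1
    · rw [map_sum]
      exact Finset.sum_eq_zero hg2
  obtain ⟨b, hb1, hb2⟩ := hf3
  have hf4 : Algebra.trace L K (algebraMap A K (DirectSum.decompose 𝒜 f 0 : A)) =
      algebraMap B L ((Module.finrank L K : B) * C (algebraMap (𝒜 0) K₀
        (DirectSum.decompose 𝒜 f 0))) := by
    have h1 : algebraMap A K (DirectSum.decompose 𝒜 f 0 : A) = algebraMap L K
        (algebraMap B L (C (algebraMap (𝒜 0) K₀ (DirectSum.decompose 𝒜 f 0)))) := by
      rw [← IsScalarTower.algebraMap_apply B L K, ← h0B]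
    rw [h1, Algebra.trace_algebraMap, map_mul, map_natCast, nsmul_eq_mul]
  have hf5 : (Module.finrank L K : B) * C (algebraMap (𝒜 0) K₀ (DirectSum.decompose 𝒜 f 0)) + b =
      ∑ j, (w : B) * X j * β j := by
    apply IsFractionRing.injective B L
    rw [← hf2, map_add, ← hf4, ← hb1, ← map_add, ← map_add, add_sub_cancel]
  have hf6 := congrArg constantCoeff hf5
  rw [map_add, hb2, add_zero, map_mul, map_natCast, constantCoeff_C] at hf6
  have hf7 : constantCoeff (∑ j, (w : B) * X j * β j) = (0 : K₀) := by
    simp
  rw [hf7] at hf6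
  have hfin : (Module.finrank L K : K₀) ≠ 0 := by
    exact_mod_cast (Module.finrank_pos (R := L) (M := K)).ne'
  have hf8 := (mul_eq_zero.1 hf6).resolve_left hfin
  rw [map_eq_zero_iff _ (IsFractionRing.injective (𝒜 0) K₀)] at hf8
  ext
  rw [GradedRing.coe_projZeroRingHom'_apply, GradedRing.projZeroRingHom_apply, hf8]

end Main

end Vale.Agent.P266
end

section

/-!
# P266: the graded reduction theorem for normal domains
-/

namespace Vale.Agent.P266

section

variable {k A : Type*} [Field k] [CharZero k] [CommRing A] [Algebra k A]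
  (𝒜 : ℕ → Submodule k A) [GradedAlgebra 𝒜]

omit [CharZero k] in
theorem isScalarTower_zero : IsScalarTower k (𝒜 0) A :=
  ⟨fun a b c => by
    rw [Algebra.smul_def (a • b), Algebra.smul_def b, SetLike.GradeZero.algebraMap_apply,
      SetLike.GradeZero.algebraMap_apply, Submodule.coe_smul, smul_mul_assoc]⟩

/-- projection to degree zero as an algebra map -/
noncomputable def projAlg : A →ₐ[𝒜 0] 𝒜 0 :=
  { GradedRing.projZeroRingHom' 𝒜 with
    commutes' := fun r => GradedRing.projZeroRingHom'_apply_coe 𝒜 r }

/-- if the derivation module is projective and `A` is a normal domain, the Euler derivation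
decomposes. -/
theorem nonempty_eulerData [IsDomain A] [IsIntegrallyClosed A] [Algebra.FiniteType k A]
    [Module.Projective A (Derivation k A A)] :
    ∃ (ι : Type) (_ : Fintype ι), Nonempty (EulerData 𝒜 ι) := by
  classical
  have hdom : IsDomain (𝒜 0) := (FaithfulSMul.algebraMap_injective (𝒜 0) A).isDomain
    (algebraMap (𝒜 0) A)
  let K₀ := FractionRing (𝒜 0)
  let K := FractionRing A
  have hinj : Function.Injective (algebraMap (𝒜 0) K) := by
    rw [IsScalarTower.algebraMap_eq (𝒜 0) A K]
    exact (IsFractionRing.injective A K).comp (FaithfulSMul.algebraMap_injective (𝒜 0) A)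
  have hfs := (faithfulSMul_iff_algebraMap_injective (𝒜 0) K).2 hinj
  let _ : Algebra K₀ K := FractionRing.liftAlgebra (𝒜 0) K
  have hst2 : IsScalarTower (𝒜 0) K₀ K := inferInstance
  obtain ⟨w, hw, c, x, hx, hind, hint⟩ := graded_noether 𝒜 K₀ K
  obtain ⟨s, hs⟩ := Module.projective_def'.1
    (inferInstance : Module.Projective A (Derivation k A A))
  let E := eulerDer 𝒜
  let J := {D // D ∈ (s E).support}
  refine exists_eulerData 𝒜 (J := J) (fun D => s E D) (fun D => D) ?_ ?_
  · intro D
    exact eps_omega_euler K₀ K 𝒜 w c x hx hind hint ((Finsupp.lapply D.1).comp s)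
  · have h1 : Finsupp.linearCombination A id (s E) = E := congrArg (fun f => f E) hs
    conv_lhs => rw [show eulerDer 𝒜 = E from rfl, ← h1]
    rw [Finsupp.linearCombination_apply, Finsupp.sum, ← Finset.sum_coe_sort]
    rfl

/-- **Graded reduction theorem**, normal case. -/
theorem graded_main_of_normal [IsDomain A] [IsIntegrallyClosed A] [Algebra.FiniteType k A]
    [Module.Projective A (Derivation k A A)] :
    Algebra.Smooth (𝒜 0) A ∧ Module.Projective (𝒜 0) (Derivation k (𝒜 0) (𝒜 0)) ∧
      ∃ (ι : Type) (_ : Fintype ι) (σ : A →ₐ[𝒜 0] MvPolynomial ι (𝒜 0))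
        (φ : MvPolynomial ι (𝒜 0) →ₐ[𝒜 0] A), ∀ a, φ (σ a) = a := by
  have hN : IsNoetherianRing A := Algebra.FiniteType.isNoetherianRing k A
  have hst := isScalarTower_zero 𝒜
  obtain ⟨ι, hι, ⟨E⟩⟩ := nonempty_eulerData 𝒜
  exact ⟨smooth_of_retract (ι := ι) E.sec E.φ E.φ_sec,
    projective_derivation_of_retract (ι := ι) E.sec E.φ E.φ_sec (projAlg 𝒜),
    ι, hι, E.sec, E.φ, E.φ_sec⟩

end

end Vale.Agent.P266
end

section

/-!
# P266: normal domains of dimension at most one are smooth in characteristic zero
-/

namespace Vale.Agent.P266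

open Polynomial

universe u

section

variable (k : Type u) {A : Type u} [Field k] [CharZero k] [CommRing A] [IsDomain A]
    [Algebra k A] [Algebra.FiniteType k A] [IsIntegrallyClosed A]

omit [IsIntegrallyClosed A] in
/-- smoothness at the generic point -/
theorem isSmoothAt_bot (q : Ideal A) [q.IsPrime] (hq : q = ⊥) : Algebra.IsSmoothAt k q := by
  subst hq
  have h1 : IsFractionRing A (Localization.AtPrime (⊥ : Ideal A)) := by
    have h2 : (⊥ : Ideal A).primeCompl = nonZeroDivisors A := by
      ext x
      rw [mem_nonZeroDivisors_iff_ne_zero]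
      simp [Ideal.primeCompl]
    rw [IsFractionRing, ← h2]
    infer_instance
  let _ : Field (Localization.AtPrime (⊥ : Ideal A)) := IsFractionRing.toField A
  have : Algebra.EssFiniteType k (Localization.AtPrime (⊥ : Ideal A)) :=
    Algebra.EssFiniteType.comp k A _
  exact Algebra.FormallySmooth.of_perfectField

theorem smooth_of_krullDimLE_one [Ring.KrullDimLE 1 A] : Algebra.Smooth k A := by
  have hN : IsNoetherianRing A := Algebra.FiniteType.isNoetherianRing k A
  have hfp : Algebra.FinitePresentation k A := Algebra.FinitePresentation.of_finiteType.1 inferInstance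
  refine ⟨Algebra.smoothLocus_eq_univ_iff.1 (Set.eq_univ_iff_forall.2 fun q => ?_), hfp⟩
  change Algebra.IsSmoothAt k q.asIdeal
  by_cases hq : q.asIdeal = ⊥
  · exact isSmoothAt_bot k q.asIdeal hq
  have hqm : q.asIdeal.IsMaximal := q.2.isMaximal_of_ne_bot hq
  have hdd : IsDedekindDomain A := by
    have h1 : Ring.DimensionLEOne A := ⟨fun hp hp' => hp'.isMaximal_of_ne_bot hp⟩
    have h2 : IsDedekindRing A := (isDedekindRing_iff A (FractionRing A)).2
      ⟨hN, h1, (isIntegrallyClosed_iff (FractionRing A)).1 inferInstance⟩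
    infer_instance
  set m := q.asIdeal with hm
  have hdvr : IsDiscreteValuationRing (Localization.AtPrime m) :=
    IsLocalization.AtPrime.isDiscreteValuationRing_of_dedekind_domain A hq _
  -- a uniformizer coming from `A`
  obtain ⟨t, ht⟩ : ∃ t : A, Irreducible (algebraMap A (Localization.AtPrime m) t) := by
    obtain ⟨π, hπ⟩ := IsDiscreteValuationRing.exists_irreducible (Localization.AtPrime m)
    obtain ⟨x, y, rfl⟩ := IsLocalization.exists_mk'_eq m.primeCompl π
    refine ⟨x, ?_⟩
    rw [← IsLocalization.mk'_spec (Localization.AtPrime m) x y]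
    exact (irreducible_mul_isUnit (IsLocalization.map_units _ y)).2 hπ
  have htm : t ∈ m := by
    by_contra h
    exact ht.not_isUnit ((IsLocalization.AtPrime.isUnit_to_map_iff _ m t).2 h)
  have ht0 : t ≠ 0 := by
    rintro rfl
    exact ht.ne_zero (map_zero _)
  let _ : Algebra k[X] A := (aeval t : k[X] →ₐ[k] A).toAlgebra
  have hmap : ∀ p : k[X], algebraMap k[X] A p = aeval t p := fun p => rfl
  have hst : IsScalarTower k k[X] A := IsScalarTower.of_algebraMap_eq fun c => by
    rw [hmap, Polynomial.algebraMap_apply, Algebra.algebraMap_self_apply, aeval_C]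
  have hft : Algebra.FiniteType k[X] A := Algebra.FiniteType.of_restrictScalars_finiteType k _ _
  have hfp' : Algebra.FinitePresentation k[X] A := Algebra.FinitePresentation.of_finiteType.1 hft
  have hinj : Function.Injective (algebraMap k[X] A) := by
    rw [injective_iff_map_eq_zero]
    intro p hp
    by_contra hp0
    have h1 : IsAlgebraic k t := ⟨p, hp0, hp⟩
    have h2 : IsUnit t := h1.isIntegral.isUnit ht0
    exact hqm.ne_top (Ideal.eq_top_of_isUnit_mem _ htm h2)
  have htf : Module.IsTorsionFree k[X] A := by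
    rw [Module.isTorsionFree_iff_algebraMap_injective]
    exact hinj
  have hflat : Module.Flat k[X] A := inferInstance
  -- the prime below
  let p : Ideal k[X] := m.under k[X]
  have hXp : (X : k[X]) ∈ p := by
    change algebraMap k[X] A X ∈ m
    rw [hmap, aeval_X]
    exact htm
  let _ := Localization.AtPrime.algebraOfLiesOver p m
  have hunr : Algebra.IsUnramifiedAt k[X] m := by
    rw [Algebra.isUnramifiedAt_iff_map_eq k[X] p m]
    constructor
    · have h1 : Algebra.FiniteType k m.ResidueField := by
        have : Algebra.FiniteType A m.ResidueField := inferInstance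
        exact Algebra.FiniteType.trans (S := A) inferInstance this
      have h2 : Module.Finite k m.ResidueField := finite_of_finite_type_of_isJacobsonRing _ _
      have h3 : CharZero p.ResidueField :=
        charZero_of_injective_algebraMap (algebraMap k p.ResidueField).injective
      have h4 : Algebra.IsAlgebraic p.ResidueField m.ResidueField :=
        Algebra.IsAlgebraic.tower_top (K := k) p.ResidueField
      infer_instance
    · apply le_antisymm
      · rw [Ideal.map_le_iff_le_comap]
        intro x hx
        rw [Ideal.mem_comap, IsScalarTower.algebraMap_apply k[X] A (Localization.AtPrime m),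
          IsLocalization.AtPrime.to_map_mem_maximal_iff _ m]
        exact hx
      · rw [ht.maximalIdeal_eq, Ideal.span_singleton_le_iff_mem]
        have h5 : algebraMap A (Localization.AtPrime m) t =
            algebraMap k[X] (Localization.AtPrime m) X := by
          rw [IsScalarTower.algebraMap_apply k[X] A (Localization.AtPrime m), hmap, aeval_X]
        rw [h5]
        exact Ideal.mem_map_of_mem _ hXp
  have het : Algebra.FormallyEtale k[X] (Localization.AtPrime m) :=
    Algebra.IsEtaleAt.of_isUnramifiedAt_of_flat m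
  exact Algebra.FormallySmooth.comp k k[X] (Localization.AtPrime m)

/-- T4: a normal domain of finite type and dimension at most one is smooth over `k`. -/
theorem smooth_of_dim_le_one (h : ringKrullDim A ≤ 1) : Algebra.Smooth k A := by
  have : Ring.KrullDimLE 1 A := Ring.krullDimLE_iff.2 h
  exact smooth_of_krullDimLE_one k

end

end Vale.Agent.P266
end

section

/-!
# P266: the graded reduction theorem, with its consequences
-/

namespace Vale.Agent.P266

section

variable {k A : Type*} [Field k] [CommRing A] [Algebra k A]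
  (𝒜 : ℕ → Submodule k A) [GradedAlgebra 𝒜]

/-- the degree zero part of a normal domain is normal -/
theorem isIntegrallyClosed_zero [IsDomain A] [IsIntegrallyClosed A] :
    IsIntegrallyClosed (𝒜 0) := by
  have hdom : IsDomain (𝒜 0) := (FaithfulSMul.algebraMap_injective (𝒜 0) A).isDomain
    (algebraMap (𝒜 0) A)
  rw [isIntegrallyClosed_iff (FractionRing (𝒜 0))]
  intro x hx
  have hinj : Function.Injective (algebraMap (𝒜 0) (FractionRing A)) := by
    rw [IsScalarTower.algebraMap_eq (𝒜 0) A (FractionRing A)]
    exact (IsFractionRing.injective A _).comp (FaithfulSMul.algebraMap_injective (𝒜 0) A)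
  have hfs := (faithfulSMul_iff_algebraMap_injective (𝒜 0) (FractionRing A)).2 hinj
  let _ : Algebra (FractionRing (𝒜 0)) (FractionRing A) :=
    FractionRing.liftAlgebra (𝒜 0) (FractionRing A)
  have h1 : IsIntegral (𝒜 0) (algebraMap (FractionRing (𝒜 0)) (FractionRing A) x) :=
    hx.map (IsScalarTower.toAlgHom (𝒜 0) (FractionRing (𝒜 0)) (FractionRing A))
  have h2 : IsIntegral A (algebraMap (FractionRing (𝒜 0)) (FractionRing A) x) := h1.tower_top
  obtain ⟨z, hz⟩ := IsIntegrallyClosed.isIntegral_iff.1 h2
  obtain ⟨a, b, hb, rfl⟩ := IsFractionRing.div_surjective (A := 𝒜 0) x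
  have hb0 : (b : A) ≠ 0 := by
    intro h
    exact nonZeroDivisors.ne_zero hb (Subtype.ext h)
  have h3 : (b : A) * z = a := by
    apply IsFractionRing.injective A (FractionRing A)
    have hbK : algebraMap (𝒜 0) (FractionRing A) b ≠ 0 := by
      intro h
      rw [map_eq_zero_iff _ hinj] at h
      exact nonZeroDivisors.ne_zero hb h
    have e1 : ∀ r : 𝒜 0, algebraMap A (FractionRing A) (r : A) =
        algebraMap (𝒜 0) (FractionRing A) r := fun r => by
      rw [IsScalarTower.algebraMap_apply (𝒜 0) A (FractionRing A)]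
      rfl
    rw [map_mul, hz, e1, e1, map_div₀, ← IsScalarTower.algebraMap_apply (𝒜 0) (FractionRing (𝒜 0)),
      ← IsScalarTower.algebraMap_apply (𝒜 0) (FractionRing (𝒜 0)), mul_div_cancel₀ _ hbK]
  have h4 : (b : A) * (GradedRing.projZeroRingHom 𝒜 z) = a := by
    have h5 := congrArg (GradedRing.projZeroRingHom 𝒜) h3
    rw [map_mul] at h5
    have h6 : ∀ r : 𝒜 0, GradedRing.projZeroRingHom 𝒜 (r : A) = r := fun r => by
      rw [GradedRing.projZeroRingHom_apply, DirectSum.decompose_of_mem_same 𝒜 r.2]
    rwa [h6, h6] at h5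
  have h5 : z ∈ 𝒜 0 := by
    have h6 : GradedRing.projZeroRingHom 𝒜 z = z := mul_left_cancel₀ hb0 (h4.trans h3.symm)
    rw [← h6]
    exact SetLike.coe_mem _
  refine ⟨⟨z, h5⟩, ?_⟩
  apply (algebraMap (FractionRing (𝒜 0)) (FractionRing A)).injective
  rw [← hz, ← IsScalarTower.algebraMap_apply (𝒜 0) (FractionRing (𝒜 0)),
    IsScalarTower.algebraMap_apply (𝒜 0) A (FractionRing A)]
  rfl

end

end Vale.Agent.P266
end

section

/-!
# P266: derivations extend to the integral closure, minimal primes of stable ideals are stable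
-/

namespace Vale.Agent.P266

open Polynomial

theorem deriv_iterate_pow_mul {S : Type*} [CommRing S] (D : S → S)
    (hadd : ∀ a b, D (a + b) = D a + D b) (hmul : ∀ a b, D (a * b) = a * D b + b * D a) (u : S) :
    ∀ (m n : ℕ) (y : S), m ≤ n → ∃ w, D^[m] (u ^ n * y) =
      (n.descFactorial m : S) * u ^ (n - m) * (D u) ^ m * y + u ^ (n - m + 1) * w := by
  have hpow : ∀ n : ℕ, D (u ^ (n + 1)) = ((n + 1 : ℕ) : S) * u ^ n * D u := by
    intro n
    induction n with
    | zero => simp
    | succ n ih =>
      rw [pow_succ, hmul, ih]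
      push_cast
      ring
  have hit : ∀ (m : ℕ) (a b : S), D^[m] (a + b) = D^[m] a + D^[m] b := by
    intro m
    induction m with
    | zero => intro a b; rfl
    | succ m ih =>
      intro a b
      rw [Function.iterate_succ_apply, Function.iterate_succ_apply, Function.iterate_succ_apply,
        hadd, ih]
  intro m
  induction m with
  | zero => intro n y _; exact ⟨0, by simp⟩
  | succ m ih =>
    intro n y hmn
    obtain ⟨n', rfl⟩ : ∃ n', n = n' + 1 := ⟨n - 1, by omega⟩
    have h0 : D (u ^ (n' + 1) * y) = u ^ n' * (((n' + 1 : ℕ) : S) * D u * y) +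
        u ^ (n' + 1) * D y := by
      rw [hmul, hpow]
      ring
    obtain ⟨w₁, h₁⟩ := ih n' (((n' + 1 : ℕ) : S) * D u * y) (by omega)
    obtain ⟨w₂, h₂⟩ := ih (n' + 1) (D y) (by omega)
    refine ⟨w₁ + ((n' + 1).descFactorial m : S) * (D u) ^ m * D y + u * w₂, ?_⟩
    rw [Function.iterate_succ_apply, h0, hit, h₁, h₂]
    have e1 : n' + 1 - (m + 1) = n' - m := by omega
    have e2 : n' + 1 - m = n' - m + 1 := by omega
    have e3 : ((n' + 1).descFactorial (m + 1) : S) = ((n' + 1 : ℕ) : S) * (n'.descFactorial m : S) := by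
      rw [Nat.succ_descFactorial_succ]
      push_cast
      ring
    rw [e1, e2, e3]
    ring

section Seidenberg

variable {A K : Type*} [CommRing A] [IsDomain A] [IsNoetherianRing A] [Field K] [Algebra A K]
  [IsFractionRing A K]

omit [IsDomain A] [IsNoetherianRing A] [IsFractionRing A K] in
theorem iterate_mem (D : Derivation ℤ K K)
    (hD : ∀ a : A, D (algebraMap A K a) ∈ (algebraMap A K).range) (n : ℕ) {x : K}
    (hx : x ∈ (algebraMap A K).range) : (⇑D)^[n] x ∈ (algebraMap A K).range := by
  induction n with
  | zero => exact hx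
  | succ n ih =>
    rw [Function.iterate_succ_apply']
    obtain ⟨a, ha⟩ := ih
    rw [← ha]
    exact hD a

theorem seidenberg (hQ : ∀ n : ℕ, n ≠ 0 → IsUnit (n : A)) (D : Derivation ℤ K K)
    (hD : ∀ a : A, D (algebraMap A K a) ∈ (algebraMap A K).range)
    (z : K) (hz : IsIntegral A z) : IsIntegral A (D z) := by
  classical
  obtain ⟨d, hd, hdz⟩ := hz.isAlmostIntegral
  have hdz' : ∀ n, algebraMap A K d * z ^ n ∈ (algebraMap A K).range := fun n => by
    rw [← Algebra.smul_def]; exact hdz n
  suffices h : IsAlmostIntegral A (D z) by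
    refine h.isIntegral_of_nonZeroDivisors_le_comap ?_
    intro x hx
    rw [Submonoid.mem_comap, mem_nonZeroDivisors_iff_ne_zero]
    intro h
    rw [map_eq_zero_iff _ (IsFractionRing.injective A K)] at h
    exact nonZeroDivisors.ne_zero hx h
  refine ⟨d * d, mul_mem hd hd, ?_⟩
  intro n
  -- work in `K[X]`
  let _ : Differential K := ⟨D⟩
  let E : K[X] → K[X] := fun p => Differential.mapCoeffs p
  have hEc : ∀ p i, (E p).coeff i = D (p.coeff i) := fun p i => Differential.coeff_mapCoeffs p i
  have hE : ∀ (m : ℕ) (p : K[X]) (i : ℕ), (E^[m] p).coeff i = (⇑D)^[m] (p.coeff i) := by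
    intro m
    induction m with
    | zero => intro p i; rfl
    | succ m ih =>
      intro p i
      rw [Function.iterate_succ_apply', Function.iterate_succ_apply', hEc, ih]
  let P : K[X] := (C z - X) ^ n * C (algebraMap A K d)
  obtain ⟨w, hw⟩ := deriv_iterate_pow_mul E (fun a b => map_add _ a b)
    (fun a b => Derivation.leibniz _ a b) (C z - X) n n (C (algebraMap A K d)) le_rfl
  have hEu : E (C z - X) = C (D z) := by
    ext i
    rw [hEc, coeff_sub, map_sub, coeff_C, coeff_C, coeff_X]
    split_ifs <;> simp
  rw [hEu, Nat.sub_self, Nat.descFactorial_self] at hw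
  have h1 : (E^[n] P).eval z = (n.factorial : K) * (D z) ^ n * algebraMap A K d := by
    have h1 := congrArg (eval z) hw
    simp only [pow_zero, mul_one, zero_add, pow_one, eval_add, eval_mul, eval_natCast, eval_pow,
      eval_C, eval_sub, eval_X, sub_self, zero_mul, add_zero] at h1
    exact h1
  have hPc : ∀ i, P.coeff i ∈ (algebraMap A K).range := by
    intro i
    have : P = ∑ m ∈ Finset.range (n + 1),
        C (algebraMap A K d * z ^ m * (-1) ^ (n - m) * (n.choose m : K)) * X ^ (n - m) := by
      simp only [P]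
      rw [sub_eq_add_neg, add_pow, Finset.sum_mul]
      refine Finset.sum_congr rfl fun m _ => ?_
      rw [neg_pow (X : K[X])]
      simp only [map_mul, map_pow, map_neg, map_one, map_natCast]
      ring
    rw [this, finsetSum_coeff]
    refine sum_mem fun m _ => ?_
    rw [coeff_C_mul_X_pow]
    split_ifs
    · exact mul_mem (mul_mem (hdz' m) (pow_mem (neg_mem (one_mem _)) _)) (natCast_mem _ _)
    · exact zero_mem _
  have h2 : algebraMap A K d * (E^[n] P).eval z ∈ (algebraMap A K).range := by
    rw [eval_eq_sum_range, Finset.mul_sum]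
    refine sum_mem fun i _ => ?_
    rw [hE]
    obtain ⟨a, ha⟩ := iterate_mem D hD n (hPc i)
    obtain ⟨b, hb⟩ := hdz' i
    exact ⟨a * b, by rw [map_mul, ha, hb]; ring⟩
  rw [h1] at h2
  obtain ⟨a, ha⟩ := h2
  obtain ⟨u, hu⟩ := hQ n.factorial n.factorial_ne_zero
  refine ⟨(u⁻¹ : Aˣ) * a, ?_⟩
  rw [map_mul, ha, Algebra.smul_def, map_mul]
  have h3 : algebraMap A K ((u⁻¹ : Aˣ) : A) * (n.factorial : K) = 1 := by
    rw [← map_natCast (algebraMap A K), ← map_mul, ← hu, Units.inv_mul, map_one]
  calc _ = (algebraMap A K ((u⁻¹ : Aˣ) : A) * (n.factorial : K)) *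
        (algebraMap A K d * algebraMap A K d * D z ^ n) := by ring
    _ = _ := by rw [h3, one_mul]

end Seidenberg

section MinPrimes

variable {A : Type*} [CommRing A]

lemma exists_mul_pow_mem_of_mem_minimalPrimes {J P : Ideal A} (hP : P ∈ J.minimalPrimes)
    {a : A} (ha : a ∈ P) : ∃ s ∉ P, ∃ n : ℕ, s * a ^ n ∈ J := by
  have hprime : P.IsPrime := hP.1.1
  by_contra h
  push Not at h
  let S : Submonoid A :=
    { carrier := {x | ∃ s ∉ P, ∃ n : ℕ, x = s * a ^ n}
      one_mem' := ⟨1, fun h1 => hprime.ne_top ((Ideal.eq_top_iff_one _).2 h1), 0, by simp⟩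
      mul_mem' := by
        rintro x y ⟨s, hs, n, rfl⟩ ⟨t, ht, m, rfl⟩
        refine ⟨s * t, fun h1 => ?_, n + m, by ring⟩
        rcases hprime.mem_or_mem h1 with h2 | h2
        · exact hs h2
        · exact ht h2 }
  have hdisj : Disjoint (J : Set A) S := by
    rw [Set.disjoint_left]
    rintro x hx ⟨s, hs, n, rfl⟩
    exact h s hs n hx
  obtain ⟨Q, hQ, hJQ, hQS⟩ := Ideal.exists_le_prime_disjoint J S hdisj
  have hQP : Q ≤ P := by
    intro x hx
    by_contra hxP
    exact Set.disjoint_left.1 hQS hx ⟨x, hxP, 0, by simp⟩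
  have haQ : a ∉ Q := fun haQ => Set.disjoint_left.1 hQS haQ
    ⟨1, fun h1 => hprime.ne_top ((Ideal.eq_top_iff_one _).2 h1), 1, by simp⟩
  exact haQ (hP.2 ⟨hQ, hJQ⟩ hQP ha)

/-- minimal primes over a stable ideal are stable -/
theorem stable_of_mem_minimalPrimes {R : Type*} [CommRing R] [Algebra R A]
    (hQ : ∀ n : ℕ, n ≠ 0 → IsUnit (n : A)) (D : Derivation R A A) {J P : Ideal A}
    (hJ : ∀ x ∈ J, D x ∈ J) (hP : P ∈ J.minimalPrimes) : ∀ x ∈ P, D x ∈ P := by
  classical
  intro a ha
  by_contra hDa
  have hprime : P.IsPrime := hP.1.1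
  have hex : ∃ n : ℕ, ∃ s ∉ P, s * a ^ n ∈ J := by
    obtain ⟨s, hs, n, hn⟩ := exists_mul_pow_mem_of_mem_minimalPrimes hP ha
    exact ⟨n, s, hs, hn⟩
  obtain ⟨s, hs, hsn⟩ := Nat.find_spec hex
  have hmin := fun m => Nat.find_min hex (m := m)
  generalize Nat.find hex = n at hsn hmin
  rcases n with _ | n
  · rw [pow_zero, mul_one] at hsn
    exact hs (hP.1.2 hsn)
  · refine hmin n (Nat.lt_succ_self n) ⟨s * s * D a, ?_, ?_⟩
    · intro h
      rcases hprime.mem_or_mem h with h | h
      · rcases hprime.mem_or_mem h with h | h <;> exact hs h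
      · exact hDa h
    · have h1 := hJ _ hsn
      rw [Derivation.leibniz, Derivation.leibniz_pow] at h1
      simp only [smul_eq_mul, nsmul_eq_mul, Nat.add_sub_cancel] at h1
      have h2 : ((n + 1 : ℕ) : A) * (s * s * D a * a ^ n) =
          s * (s * (((n + 1 : ℕ) : A) * (a ^ n * D a)) + a ^ (n + 1) * D s) -
            D s * (s * a ^ (n + 1)) := by ring
      have h3 : ((n + 1 : ℕ) : A) * (s * s * D a * a ^ n) ∈ J := by
        rw [h2]
        exact J.sub_mem (J.mul_mem_left _ h1) (J.mul_mem_left _ hsn)
      exact (Ideal.unit_mul_mem_iff_mem J (hQ (n + 1) n.succ_ne_zero)).1 h3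

end MinPrimes

end Vale.Agent.P266
end

section

/-!
# P266: finiteness of `Der`, the conductor and its stability
-/

namespace Vale.Agent.P266

/-- the module of derivations of a finitely generated algebra is finitely generated -/
theorem finite_derivation (k A : Type*) [Field k] [CommRing A] [Algebra k A]
    [Algebra.FiniteType k A] : Module.Finite A (Derivation k A A) := by
  classical
  have hN : IsNoetherianRing A := Algebra.FiniteType.isNoetherianRing k A
  obtain ⟨s, hs⟩ := (Algebra.FiniteType.out (R := k) (A := A))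
  let φ : Derivation k A A →ₗ[A] (s → A) :=
    { toFun := fun D a => D a
      map_add' := fun _ _ => rfl
      map_smul' := fun _ _ => rfl }
  refine Module.Finite.of_injective φ ?_
  intro D D' h
  have h1 : Set.EqOn D D' (s : Set A) := fun a ha => congrFun h ⟨a, ha⟩
  exact Derivation.ext_of_adjoin_eq_top (s : Set A) hs h1

section Conductor

variable {k A K : Type*} [Field k] [CharZero k] [CommRing A] [IsDomain A] [Algebra k A]
  [Algebra.FiniteType k A] [Field K] [Algebra A K] [IsFractionRing A K] [Algebra k K]
  [IsScalarTower k A K]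

/-- the conductor of the integral closure -/
def conductor (A K : Type*) [CommRing A] [Field K] [Algebra A K] : Ideal A where
  carrier := {a | ∀ z : K, IsIntegral A z → algebraMap A K a * z ∈ (algebraMap A K).range}
  add_mem' := by
    intro a b ha hb z hz
    rw [map_add, add_mul]
    exact add_mem (ha z hz) (hb z hz)
  zero_mem' := by
    intro z _
    rw [map_zero, zero_mul]
    exact zero_mem _
  smul_mem' := by
    intro c a ha z hz
    rw [smul_eq_mul, map_mul, mul_assoc]
    exact mul_mem ⟨c, rfl⟩ (ha z hz)

theorem mem_conductor {A K : Type*} [CommRing A] [Field K] [Algebra A K] {a : A} :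
    a ∈ conductor A K ↔
      ∀ z : K, IsIntegral A z → algebraMap A K a * z ∈ (algebraMap A K).range := Iff.rfl

theorem conductor_stable (D : Derivation k A A) {a : A}
    (ha : a ∈ conductor A K) : D a ∈ conductor A K := by
  have hN : IsNoetherianRing A := Algebra.FiniteType.isNoetherianRing k A
  have hQ : ∀ n : ℕ, n ≠ 0 → IsUnit (n : A) := by
    intro n hn
    have h1 : IsUnit (n : k) := isUnit_iff_ne_zero.2 (Nat.cast_ne_zero.2 hn)
    have h2 := h1.map (algebraMap k A)
    rwa [map_natCast] at h2
  have hfe : Algebra.FormallyEtale A K := .of_isLocalization (nonZeroDivisors A)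
  obtain ⟨E, hE⟩ := exists_der_ext k (derToFrac k A K D)
  have hE' : ∀ x : A, E (algebraMap A K x) = algebraMap A K (D x) := hE
  let E₀ : Derivation ℤ K K := E.restrictScalars ℤ
  have hE₀ : ∀ z, E₀ z = E z := fun _ => rfl
  intro z hz
  have h1 : IsIntegral A (E z) := by
    have := seidenberg hQ E₀ (fun a => ⟨D a, by rw [hE₀, hE']⟩) z hz
    rwa [hE₀] at this
  obtain ⟨b, hb⟩ := ha z hz
  obtain ⟨c, hc⟩ := ha (E z) h1
  have h2 : E (algebraMap A K a * z) = algebraMap A K a * E z + z * algebraMap A K (D a) := by
    rw [Derivation.leibniz, hE', smul_eq_mul, smul_eq_mul]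
  rw [← hb, hE', ← hc] at h2
  refine ⟨D b - c, ?_⟩
  rw [map_sub, h2]
  ring

theorem conductor_ne_bot (k A K : Type*) [Field k] [CharZero k] [CommRing A] [IsDomain A]
    [Algebra k A] [Algebra.FiniteType k A] [Field K] [Algebra A K] [IsFractionRing A K]
    [Algebra k K] [IsScalarTower k A K] : conductor A K ≠ ⊥ := by
  classical
  obtain ⟨n, g, hg, hfin⟩ := exists_finite_inj_algHom_of_fg k A
  let B := MvPolynomial (Fin n) k
  let _ : Algebra B A := g.toRingHom.toAlgebra
  have _ : Module.Finite B A := hfin
  have _ : IsScalarTower k B A := .of_algebraMap_eq' g.comp_algebraMap.symm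
  let _ : Algebra B K := ((algebraMap A K).comp (algebraMap B A)).toAlgebra
  have hst : IsScalarTower B A K := .of_algebraMap_eq' rfl
  have hinj : Function.Injective (algebraMap B K) := (IsFractionRing.injective A K).comp hg
  have hfs : FaithfulSMul B K := (faithfulSMul_iff_algebraMap_injective B K).2 hinj
  let L := FractionRing B
  let _ : Algebra L K := FractionRing.liftAlgebra B K
  have _ : IsScalarTower B L K := inferInstance
  have hA : ∀ a : A, IsIntegral B (algebraMap A K a) := fun a =>
    (Algebra.IsIntegral.isIntegral (R := B) a).map (IsScalarTower.toAlgHom B A K)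
  have hfd : FiniteDimensional L K := by
    refine finiteDimensional_of_integral (k := k) (A := A) (B := B) K ?_ hA
    intro c
    refine ⟨algebraMap B L (algebraMap k B c), ?_⟩
    rw [← IsScalarTower.algebraMap_apply B L K, IsScalarTower.algebraMap_apply B A K,
      ← IsScalarTower.algebraMap_apply k B A]
  have hcz : CharZero L :=
    charZero_of_injective_algebraMap (algebraMap k L).injective
  let C := integralClosure B K
  have hC : Module.Finite B C := IsIntegralClosure.finite B L K C
  obtain ⟨s, hs⟩ := hC.fg_top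
  obtain ⟨d, hd⟩ := IsLocalization.exist_integer_multiples_of_finset (nonZeroDivisors A)
    (s.image fun c : C => (c : K))
  have hd0 : (d : A) ≠ 0 := nonZeroDivisors.ne_zero d.2
  refine fun hbot => hd0 ?_
  rw [← Ideal.mem_bot, ← hbot]
  intro z hz
  have hzB : IsIntegral B z := isIntegral_trans z hz
  have hmem : ∀ c ∈ Submodule.span B (s : Set C), algebraMap A K d * (c : K) ∈
      (algebraMap A K).range := by
    intro c hc
    induction hc using Submodule.span_induction with
    | mem x hx =>
      have h1 := hd (x : K) (Finset.mem_image_of_mem _ hx)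
      rw [Algebra.smul_def] at h1
      exact h1
    | zero =>
      rw [ZeroMemClass.coe_zero, mul_zero]
      exact zero_mem _
    | add x y _ _ hx hy =>
      rw [AddMemClass.coe_add, mul_add]
      exact add_mem hx hy
    | smul b x _ hx =>
      have h1 : ((b • x : C) : K) = algebraMap A K (algebraMap B A b) * (x : K) := by
        rw [← IsScalarTower.algebraMap_apply]
        exact Algebra.smul_def b (x : K)
      rw [h1, mul_left_comm]
      exact mul_mem ⟨_, rfl⟩ hx
  exact hmem ⟨z, hzB⟩ (by rw [hs]; trivial)

end Conductor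

end Vale.Agent.P266
end

section

/-!
# P266: algebraic independence from derivations, towards Lipman's normality theorem
-/

namespace Vale.Agent.P266

open MvPolynomial

section Indep

variable {k A : Type*} [Field k] [CharZero k] [CommRing A] [Algebra k A]

omit [CharZero k] in
lemma der_aeval_mv {ι : Type*} [Fintype ι] (D : Derivation k A A) (x : ι → A)
    (G : MvPolynomial ι k) :
    D (aeval x G) = ∑ j, aeval x (pderiv j G) * D (x j) := by
  classical
  induction G using MvPolynomial.induction_on with
  | C a =>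
    rw [aeval_C, Derivation.map_algebraMap]
    simp
  | add p q hp hq =>
    simp only [map_add, hp, hq, add_mul, Finset.sum_add_distrib]
  | mul_X p α hp =>
    rw [map_mul, Derivation.leibniz, hp]
    simp only [pderiv_mul, map_add, map_mul, add_mul, Finset.sum_add_distrib]
    rw [add_comm]
    congr 1
    · rw [smul_eq_mul, Finset.mul_sum]
      exact Finset.sum_congr rfl fun β _ => by ring
    · simp [pderiv_X, Pi.single_apply, apply_ite, mul_comm]

/-- if `det (D_i x_j)` is not in a stable prime `P`, then the `x_j` are independent modulo `P`. -/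
theorem eq_zero_of_aeval_mem {r : ℕ} (P : Ideal A) [P.IsPrime] (D : Fin r → Derivation k A A)
    (x : Fin r → A) (hD : ∀ i, ∀ a ∈ P, D i a ∈ P)
    (hdet : (Matrix.of fun i j => D i (x j)).det ∉ P) :
    ∀ (n : ℕ) (G : MvPolynomial (Fin r) k), G.totalDegree ≤ n → aeval x G ∈ P → G = 0 := by
  classical
  have hconst : ∀ c : k, algebraMap k A c ∈ P → c = 0 := by
    intro c hc
    by_contra h
    have h1 : IsUnit (algebraMap k A c) := (isUnit_iff_ne_zero.2 h).map (algebraMap k A)
    exact Ideal.IsPrime.ne_top ‹_› (Ideal.eq_top_of_isUnit_mem _ hc h1)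
  intro n
  induction n with
  | zero =>
    intro G hG hGP
    rw [Nat.le_zero, totalDegree_eq_zero_iff_eq_C] at hG
    rw [hG] at hGP ⊢
    rw [aeval_C] at hGP
    rw [hconst _ hGP, C_0]
  | succ n ih =>
    intro G hG hGP
    have h1 : ∀ i, ∑ j, D i (x j) * aeval x (pderiv j G) ∈ P := by
      intro i
      have h0 := hD i _ hGP
      rw [der_aeval_mv] at h0
      rw [Finset.sum_congr rfl fun j _ => mul_comm (D i (x j)) (aeval x (pderiv j G))]
      exact h0
    let M : Matrix (Fin r) (Fin r) A := Matrix.of fun i j => D i (x j)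
    let u : Fin r → A := fun j => aeval x (pderiv j G)
    have h2 : ∀ i, M.mulVec u i ∈ P := h1
    have h3 : ∀ j, M.det * u j ∈ P := by
      intro j
      have h4 : M.det • u = M.adjugate.mulVec (M.mulVec u) := by
        rw [Matrix.mulVec_mulVec, Matrix.adjugate_mul, Matrix.smul_mulVec, Matrix.one_mulVec]
      have h5 : M.det * u j = (M.adjugate.mulVec (M.mulVec u)) j := by
        rw [← h4]; rfl
      rw [h5]
      change ∑ i, M.adjugate j i * M.mulVec u i ∈ P
      exact P.sum_mem fun i _ => P.mul_mem_left _ (h2 i)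
    have h4 : ∀ j, aeval x (pderiv j G) ∈ P := fun j =>
      (Ideal.IsPrime.mem_or_mem ‹_› (h3 j)).resolve_left hdet
    have hz : ∀ j, pderiv j G = 0 := by
      intro j
      refine ih _ ?_ (h4 j)
      refine Finset.sup_le fun m hm => ?_
      have hm' : coeff m (pderiv j G) ≠ 0 := mem_support_iff.1 hm
      rw [coeff_pderiv] at hm'
      have h1 : coeff (m + Finsupp.single j 1) G ≠ 0 := left_ne_zero_of_mul hm'
      have h2 := (le_totalDegree (mem_support_iff.2 h1)).trans hG
      rw [Finsupp.sum_add_index' (fun _ => rfl) (fun _ _ _ => rfl),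
        Finsupp.sum_single_index rfl] at h2
      omega
    have hc : G = C (coeff 0 G) := by
      refine MvPolynomial.ext _ _ fun m => ?_
      rw [coeff_C]
      split_ifs with hm
      · rw [← hm]
      · have : ∃ i, m i ≠ 0 := by
          by_contra h
          push Not at h
          exact hm (Finsupp.ext fun i => (h i).symm)
        obtain ⟨i, hi⟩ := this
        have h1 := congrArg (coeff (m - Finsupp.single i 1)) (hz i)
        rw [coeff_pderiv, coeff_zero, tsub_add_cancel_of_le (by
          rw [Finsupp.single_le_iff]; omega)] at h1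
        rcases mul_eq_zero.1 h1 with h2 | h2
        · exact h2
        · exfalso
          have h3 : ∀ j : ℕ, ((j : k) + 1) ≠ 0 := fun j => by
            exact_mod_cast Nat.succ_ne_zero j
          exact h3 _ h2
    rw [hc] at hGP ⊢
    rw [aeval_C] at hGP
    rw [hconst _ hGP, C_0]

end Indep

end Vale.Agent.P266
end

section

/-!
# P266: module theoretic steps in Lipman's normality theorem
-/

namespace Vale.Agent.P266

open Matrix

section L3

variable {k A K : Type*} [Field k] [CommRing A] [IsDomain A] [Algebra k A]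
  [Field K] [Algebra A K] [IsFractionRing A K] [Algebra k K] [IsScalarTower k A K]

/-- a colon ideal -/
theorem apply_mem_of_colon (p : Ideal A) (z : K)
    (hp : ∀ a : A, a ∈ p ↔ algebraMap A K a * z ∈ (algebraMap A K).range)
    (D : Derivation k A A) (hD : ∀ a, D a ∈ p) (ω : Derivation k A A →ₗ[A] A) : ω D ∈ p := by
  have hinj := IsFractionRing.injective A K
  obtain ⟨D', hD'⟩ := exists_der_of_range (z • derToFrac k A K D) (fun a => by
    have h1 := (hp (D a)).1 (hD a)
    rw [Derivation.smul_apply, derToFrac_apply, smul_eq_mul, mul_comm]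
    exact h1)
  have hD'' : ∀ a, algebraMap A K (D' a) = z * algebraMap A K (D a) := fun a => by
    rw [hD', Derivation.smul_apply, derToFrac_apply, smul_eq_mul]
  obtain ⟨a, b, hb, hab⟩ := IsFractionRing.div_surjective (A := A) z
  have hb0 : algebraMap A K b ≠ 0 := by
    intro h
    rw [map_eq_zero_iff _ hinj] at h
    exact nonZeroDivisors.ne_zero hb h
  have hz : algebraMap A K a = algebraMap A K b * z := by
    rw [← hab, mul_div_cancel₀ _ hb0]
  have h1 : b • D' = a • D := by
    ext x
    apply hinj
    rw [Derivation.smul_apply, Derivation.smul_apply, smul_eq_mul, smul_eq_mul, map_mul, map_mul,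
      hD'', hz]
    ring
  have h2 := congrArg ω h1
  rw [map_smul, map_smul, smul_eq_mul, smul_eq_mul] at h2
  have h3 := congrArg (algebraMap A K) h2
  rw [map_mul, map_mul, hz] at h3
  rw [hp]
  refine ⟨ω D', mul_left_cancel₀ hb0 ?_⟩
  rw [h3]
  ring

theorem mem_smul_top_of_colon [Module.Projective A (Derivation k A A)] (p : Ideal A) (z : K)
    (hp : ∀ a : A, a ∈ p ↔ algebraMap A K a * z ∈ (algebraMap A K).range)
    (D : Derivation k A A) (hD : ∀ a, D a ∈ p) :
    D ∈ p • (⊤ : Submodule A (Derivation k A A)) := by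
  obtain ⟨s, hs⟩ := Module.projective_def'.1 (inferInstance : Module.Projective A (Derivation k A A))
  have h1 : Finsupp.linearCombination A id (s D) = D := LinearMap.congr_fun hs D
  rw [← h1, Finsupp.linearCombination_apply, Finsupp.sum]
  refine Submodule.sum_mem _ fun x _ => ?_
  refine Submodule.smul_mem_smul ?_ Submodule.mem_top
  exact apply_mem_of_colon p z hp D hD ((Finsupp.lapply x).comp s)

end L3

section L1

theorem der_sum_smul_apply {R S : Type*} [CommRing R] [CommRing S] [Algebra R S] {ι : Type*}
    (t : Finset ι) (c : ι → S) (D : ι → Derivation R S S) (y : S) :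
    (∑ i ∈ t, c i • D i) y = ∑ i ∈ t, c i * D i y := by
  classical
  induction t using Finset.induction_on with
  | empty => rfl
  | insert a t ha ih =>
    rw [Finset.sum_insert ha, Finset.sum_insert ha, Derivation.add_apply, ih,
      Derivation.smul_apply, smul_eq_mul]

variable {k A : Type*} [Field k] [CommRing A] [IsDomain A] [Algebra k A]

theorem le_finrank_of_det_ne_zero [Module.Finite A (Derivation k A A)] {r : ℕ}
    (D : Fin r → Derivation k A A) (x : Fin r → A)
    (hdet : (Matrix.of fun i j => D i (x j)).det ≠ 0) :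
    r ≤ Module.finrank A (Derivation k A A) := by
  have hli : LinearIndependent A D := by
    rw [Fintype.linearIndependent_iff]
    intro g hg
    have h1 : g ᵥ* (Matrix.of fun i j => D i (x j)) = 0 := by
      ext j
      have h2 : (∑ i, g i • D i) (x j) = 0 := by rw [hg]; rfl
      rw [der_sum_smul_apply] at h2
      exact h2
    have h2 := Matrix.eq_zero_of_vecMul_eq_zero hdet h1
    exact fun i => congrFun h2 i
  have := hli.fintype_card_le_finrank
  rwa [Fintype.card_fin] at this

theorem exists_max_minor [Module.Finite A (Derivation k A A)] (p : Ideal A) [hp : p.IsPrime] :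
    ∃ (r : ℕ) (D' : Fin r → Derivation k A A) (x : Fin r → A),
      (Matrix.of fun i j => D' i (x j)).det ∉ p ∧
      ∀ D : Derivation k A A, ∃ c : Fin r → A,
        ∀ y, ((Matrix.of fun i j => D' i (x j)).det • D - ∑ i, c i • D' i) y ∈ p := by
  classical
  let Pred : ℕ → Prop := fun r => ∃ (D' : Fin r → Derivation k A A) (x : Fin r → A),
    (Matrix.of fun i j => D' i (x j)).det ∉ p
  have h0 : Pred 0 := ⟨Fin.elim0, Fin.elim0, by
    rw [Matrix.det_fin_zero]
    exact fun h => hp.ne_top ((Ideal.eq_top_iff_one p).2 h)⟩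
  have hbd : ∀ r, Pred r → r ≤ Module.finrank A (Derivation k A A) := by
    rintro r ⟨D', x, h⟩
    exact le_finrank_of_det_ne_zero D' x (fun h1 => h (by rw [h1]; exact p.zero_mem))
  let r := Nat.findGreatest Pred (Module.finrank A (Derivation k A A))
  have hr : Pred r := Nat.findGreatest_spec (m := 0) (Nat.zero_le _) h0
  have hr' : ¬ Pred (r + 1) := by
    intro h
    have h1 := Nat.le_findGreatest (hbd _ h) h
    change r + 1 ≤ r at h1
    omega
  clear_value r
  obtain ⟨D', x, hdet⟩ := hr
  refine ⟨r, D', x, hdet, ?_⟩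
  intro D
  let M : Matrix (Fin r) (Fin r) A := Matrix.of fun i j => D' i (x j)
  let v : Fin r → A := fun j => D (x j)
  let c : Fin r → A := v ᵥ* M.adjugate
  let Ds : Derivation k A A := M.det • D - ∑ i, c i • D' i
  have hDs : ∀ y, Ds y = M.det * D y - ∑ i, c i * D' i y := by
    intro y
    rw [← der_sum_smul_apply]
    rfl
  have hDx : ∀ j, Ds (x j) = 0 := by
    intro j
    have h1 : c ᵥ* M = M.det • v := by
      rw [Matrix.vecMul_vecMul, Matrix.adjugate_mul, Matrix.vecMul_smul, Matrix.vecMul_one]
    have h2 : ∑ i, c i * D' i (x j) = M.det * D (x j) := congrFun h1 j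
    rw [hDs, h2, sub_self]
  refine ⟨c, fun y => ?_⟩
  change Ds y ∈ p
  by_contra hy
  apply hr'
  refine ⟨Fin.snoc D' Ds, Fin.snoc x y, ?_⟩
  rw [Matrix.det_succ_row _ (Fin.last r), Fin.sum_univ_castSucc]
  have h1 : ∀ j : Fin r, (Matrix.of fun i j => (Fin.snoc D' Ds : Fin (r + 1) → Derivation k A A) i
      ((Fin.snoc x y : Fin (r + 1) → A) j)) (Fin.last r) (Fin.castSucc j) = 0 := by
    intro j
    rw [Matrix.of_apply, Fin.snoc_last, Fin.snoc_castSucc, hDx]
  rw [Finset.sum_eq_zero fun j _ => by rw [h1, mul_zero, zero_mul], zero_add, Matrix.of_apply,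
    Fin.snoc_last, Fin.snoc_last]
  have h2 : (Matrix.of fun i j => (Fin.snoc D' Ds : Fin (r + 1) → Derivation k A A) i
      ((Fin.snoc x y : Fin (r + 1) → A) j)).submatrix (Fin.last r).succAbove
        (Fin.last r).succAbove = M := by
    ext i j
    rw [Matrix.submatrix_apply, Matrix.of_apply, Fin.succAbove_last, Fin.snoc_castSucc,
      Fin.snoc_castSucc]
    rfl
  rw [h2, Even.neg_one_pow ⟨_, rfl⟩, one_mul]
  intro h
  rcases hp.mem_or_mem h with h | h
  · exact hy h
  · exact hdet h

end L1

section L4

variable {A T : Type*} [CommRing A] [AddCommGroup T] [Module A T]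

theorem exists_smul_mem_of_smul_mem [Module.Finite A T] (p : Ideal A) [hp : p.IsPrime]
    (N : Submodule A T) (Δ : A) (hΔ : Δ ∉ p)
    (h : ∀ D : T, ∃ n ∈ N, Δ • D - n ∈ p • (⊤ : Submodule A T)) :
    ∃ s ∉ p, ∀ D : T, s • D ∈ N := by
  classical
  let f : Module.End A (T ⧸ N) := algebraMap A _ Δ
  have hf : LinearMap.range f ≤ p • ⊤ := by
    rintro _ ⟨q, rfl⟩
    obtain ⟨D, rfl⟩ := N.mkQ_surjective q
    obtain ⟨n, hn, hD⟩ := h D
    have h0 : N.mkQ n = 0 := (Submodule.Quotient.mk_eq_zero N).2 hn
    have h1 : f (N.mkQ D) = N.mkQ (Δ • D - n) := by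
      rw [map_sub, map_smul, h0, sub_zero]
      rfl
    rw [h1]
    have h2 := Submodule.mem_map_of_mem (f := N.mkQ) hD
    rw [Submodule.map_smul''] at h2
    exact Submodule.smul_mono le_rfl le_top h2
  obtain ⟨P, hPm, -, hPc, hP0⟩ :=
    LinearMap.exists_monic_and_natDegree_eq_and_coeff_mem_pow_and_aeval_eq_zero A f p hf
  refine ⟨P.eval Δ, ?_, ?_⟩
  · intro hmem
    rw [Polynomial.eval_eq_sum_range, Finset.sum_range_succ, hPm.coeff_natDegree, one_mul] at hmem
    have h1 : ∑ i ∈ Finset.range P.natDegree, P.coeff i * Δ ^ i ∈ p := by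
      refine p.sum_mem fun i hi => p.mul_mem_right _ ?_
      have h2 := Finset.mem_range.1 hi
      exact Ideal.pow_le_self (by omega) (hPc i)
    rw [Ideal.add_mem_iff_right _ h1] at hmem
    exact hΔ (hp.mem_of_pow_mem _ hmem)
  · intro D
    rw [← Submodule.Quotient.mk_eq_zero N, Submodule.Quotient.mk_smul]
    have h1 := LinearMap.congr_fun hP0 (N.mkQ D)
    rw [Polynomial.aeval_algebraMap_apply_eq_algebraMap_eval] at h1
    exact h1

end L4

end Vale.Agent.P266
end

section

/-!
# P266: Lipman's theorem, projective derivation module implies normal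
-/

namespace Vale.Agent.P266

open Matrix

section Main

variable {k A K : Type*} [Field k] [CharZero k] [CommRing A] [IsDomain A] [Algebra k A]
  [Algebra.FiniteType k A] [Field K] [Algebra A K] [IsFractionRing A K] [Algebra k K]
  [IsScalarTower k A K]

omit [CharZero k] in
theorem exists_combination {r : ℕ} (D' : Fin r → Derivation k A A) (s : A) (hs0 : s ≠ 0)
    (hs : ∀ D : Derivation k A A, s • D ∈ Submodule.span A (Set.range D'))
    (E : Derivation k K K) :
    ∃ c : Fin r → K, ∀ a : A, E (algebraMap A K a) = ∑ i, c i * algebraMap A K (D' i a) := by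
  classical
  obtain ⟨⟨D₀, b⟩, hb⟩ := IsLocalizedModule.surj (nonZeroDivisors A) (derToFrac k A K)
    (E.compAlgebraMap A)
  obtain ⟨g, hg⟩ := (Submodule.mem_span_range_iff_exists_fun A).1 (hs D₀)
  have hinj := IsFractionRing.injective A K
  have hb0 : algebraMap A K (b : A) ≠ 0 := by
    intro h
    rw [map_eq_zero_iff _ hinj] at h
    exact nonZeroDivisors.ne_zero b.2 h
  have hs0' : algebraMap A K s ≠ 0 := by
    intro h
    rw [map_eq_zero_iff _ hinj] at h
    exact hs0 h
  have h1 : ∀ a, algebraMap A K (b : A) * E (algebraMap A K a) = algebraMap A K (D₀ a) := by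
    intro a
    have h2 := congrArg (fun F : Derivation k A K => F a) hb
    have h3 : ((b : A) • (E.compAlgebraMap A : Derivation k A K)) a = derToFrac k A K D₀ a := h2
    rw [Derivation.smul_apply, derToFrac_apply, Algebra.smul_def] at h3
    exact h3
  have h2 : ∀ a, s * D₀ a = ∑ i, g i * D' i a := by
    intro a
    rw [← der_sum_smul_apply, hg]
    rfl
  refine ⟨fun i => algebraMap A K (g i) / (algebraMap A K s * algebraMap A K b), fun a => ?_⟩
  have h3 := congrArg (algebraMap A K) (h2 a)
  rw [map_mul, ← h1, map_sum] at h3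
  have h4 : ∑ i, algebraMap A K (g i) / (algebraMap A K s * algebraMap A K b) *
      algebraMap A K (D' i a) =
      (∑ i, algebraMap A K (g i * D' i a)) / (algebraMap A K s * algebraMap A K b) := by
    rw [Finset.sum_div]
    refine Finset.sum_congr rfl fun i _ => ?_
    rw [map_mul]
    ring
  rw [h4, ← h3, eq_div_iff (mul_ne_zero hs0' hb0)]
  ring

/-- any nonzero prime contracts to a nonzero ideal of `k[x₁, …, x_r]` -/
theorem exists_aeval_mem_of_combination {r : ℕ} (D' : Fin r → Derivation k A A) (x : Fin r → A)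
    (hdet : (Matrix.of fun i j => D' i (x j)).det ≠ 0)
    (hinj : Function.Injective (MvPolynomial.aeval (R := k) x))
    (hcomb : ∀ E : Derivation k K K, ∃ c : Fin r → K, ∀ a : A,
      E (algebraMap A K a) = ∑ i, c i * algebraMap A K (D' i a)) (P : Ideal A) (f : A)
    (hf : f ∈ P) (hf0 : f ≠ 0) :
    ∃ G : MvPolynomial (Fin r) k, G ≠ 0 ∧ MvPolynomial.aeval (R := k) x G ∈ P := by
  classical
  have hAK := IsFractionRing.injective A K
  let B := MvPolynomial (Fin r) k
  let _ : Algebra B A := (MvPolynomial.aeval (R := k) x).toRingHom.toAlgebra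
  have hBA : ∀ b : B, algebraMap B A b = MvPolynomial.aeval (R := k) x b := fun _ => rfl
  have _ : IsScalarTower k B A :=
    .of_algebraMap_eq' (MvPolynomial.aeval (R := k) x).comp_algebraMap.symm
  let _ : Algebra B K := ((algebraMap A K).comp (algebraMap B A)).toAlgebra
  have _ : IsScalarTower B A K := .of_algebraMap_eq' rfl
  have _ : IsScalarTower k B K := .of_algebraMap_eq fun c => by
    rw [IsScalarTower.algebraMap_apply B A K, ← IsScalarTower.algebraMap_apply k B A,
      ← IsScalarTower.algebraMap_apply]
  have hBK : Function.Injective (algebraMap B K) := hAK.comp hinj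
  have hfs : FaithfulSMul B K := (faithfulSMul_iff_algebraMap_injective B K).2 hBK
  let L := FractionRing B
  let _ : Algebra L K := FractionRing.liftAlgebra B K
  have _ : IsScalarTower B L K := inferInstance
  have _ : IsScalarTower k L K := .to₁₃₄ k B L K
  have hcz : CharZero L := charZero_of_injective_algebraMap (algebraMap k L).injective
  have h1 : Algebra.EssFiniteType A K := .of_isLocalization K (nonZeroDivisors A)
  have h2 : Algebra.EssFiniteType k K := .comp k A K
  have h3 : Algebra.EssFiniteType L K := .of_comp k L K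
  by_contra hcon
  push Not at hcon
  have halg : ¬ IsAlgebraic B f := by
    intro halg
    have h4 := Ideal.comap_ne_bot_of_algebraic_mem hf0 hf halg
    obtain ⟨G, hG, hG0⟩ := Submodule.exists_mem_ne_zero_of_ne_bot h4
    exact hcon G hG0 hG
  have halg' : ¬ IsAlgebraic L (algebraMap A K f) := by
    rw [← IsFractionRing.isAlgebraic_iff B L K, isAlgebraic_algebraMap_iff hAK]
    exact halg
  have h5 := FirstIntegral.D_ne_zero_of_transcendental L K halg'
  obtain ⟨g, hg⟩ : ∃ g : Module.Dual K Ω[K⁄L],
      g (KaehlerDifferential.D L K (algebraMap A K f)) ≠ 0 := by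
    by_contra hcon
    push Not at hcon
    exact h5 ((Module.forall_dual_apply_eq_zero_iff _ _).mp hcon)
  let E₀ : Derivation L K K := g.compDer (KaehlerDifferential.D L K)
  let E : Derivation k K K := E₀.restrictScalars k
  have hEf : E (algebraMap A K f) ≠ 0 := hg
  have hEx : ∀ j, E (algebraMap A K (x j)) = 0 := by
    intro j
    have h6 : algebraMap A K (x j) = algebraMap L K (algebraMap B L (MvPolynomial.X j)) := by
      rw [← IsScalarTower.algebraMap_apply B L K, IsScalarTower.algebraMap_apply B A K, hBA,
        MvPolynomial.aeval_X]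
    change E₀ (algebraMap A K (x j)) = 0
    rw [h6, Derivation.map_algebraMap]
  obtain ⟨c, hc⟩ := hcomb E
  have h7 : c ᵥ* ((Matrix.of fun i j => D' i (x j)).map (algebraMap A K)) = 0 := by
    ext j
    have := hc (x j)
    rw [hEx] at this
    exact this.symm
  have h8 : ((Matrix.of fun i j => D' i (x j)).map (algebraMap A K)).det ≠ 0 := by
    have h9 := RingHom.map_det (algebraMap A K) (Matrix.of fun i j => D' i (x j))
    rw [RingHom.mapMatrix_apply] at h9
    rw [← h9]
    intro h
    rw [map_eq_zero_iff _ hAK] at h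
    exact hdet h
  have h9 := Matrix.eq_zero_of_vecMul_eq_zero h8 h7
  apply hEf
  rw [hc]
  refine Finset.sum_eq_zero fun i _ => ?_
  rw [h9]
  exact zero_mul _

end Main

/-- **Lipman's theorem**: if the module of derivations is projective, the ring is normal. -/
theorem isIntegrallyClosed_of_projective (k A : Type*) [Field k] [CharZero k] [CommRing A]
    [IsDomain A] [Algebra k A] [Algebra.FiniteType k A]
    [Module.Projective A (Derivation k A A)] : IsIntegrallyClosed A := by
  classical
  have hN : IsNoetherianRing A := Algebra.FiniteType.isNoetherianRing k A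
  have hfinT : Module.Finite A (Derivation k A A) := finite_derivation k A
  let K := FractionRing A
  have hQ : ∀ n : ℕ, n ≠ 0 → IsUnit (n : A) := by
    intro n hn
    have h1 : IsUnit (n : k) := isUnit_iff_ne_zero.2 (Nat.cast_ne_zero.2 hn)
    have h2 := h1.map (algebraMap k A)
    rwa [map_natCast] at h2
  rw [isIntegrallyClosed_iff K]
  by_contra hcon
  push Not at hcon
  obtain ⟨z₀, hz₀, hz₀'⟩ := hcon
  -- a maximal colon ideal
  let S : Set (Ideal A) := {I | ∃ z : K, IsIntegral A z ∧ z ∉ (algebraMap A K).range ∧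
    ∀ a, a ∈ I ↔ algebraMap A K a * z ∈ (algebraMap A K).range}
  have hcolon : ∀ z : K, ∃ I : Ideal A, ∀ a, a ∈ I ↔ algebraMap A K a * z ∈
      (algebraMap A K).range := by
    intro z
    refine ⟨{ carrier := {a | algebraMap A K a * z ∈ (algebraMap A K).range}
              add_mem' := fun {a b} ha hb => ?_
              zero_mem' := ?_
              smul_mem' := fun c a ha => ?_ }, fun a => Iff.rfl⟩
    · rw [Set.mem_ofPred_eq, map_add, add_mul]
      exact add_mem ha hb
    · rw [Set.mem_ofPred_eq, map_zero, zero_mul]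
      exact zero_mem _
    · rw [Set.mem_ofPred_eq, smul_eq_mul, map_mul, mul_assoc]
      exact mul_mem ⟨c, rfl⟩ ha
  have hSne : S.Nonempty := by
    obtain ⟨I, hI⟩ := hcolon z₀
    exact ⟨I, z₀, hz₀, fun ⟨a, ha⟩ => hz₀' a ha, hI⟩
  obtain ⟨p, ⟨z, hz, hz', hpz⟩, hmax⟩ : ∃ p : Ideal A, p ∈ S ∧ ∀ I ∈ S, ¬ p < I :=
    set_has_maximal_iff_noetherian.2 hN S hSne
  have hp : p.IsPrime := by
    refine ⟨?_, ?_⟩
    · intro htop
      apply hz'
      have := (hpz 1).1 (by rw [htop]; trivial)
      rwa [map_one, one_mul] at this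
    · intro a b hab
      by_contra h
      push Not at h
      obtain ⟨I, hI⟩ := hcolon (algebraMap A K a * z)
      have hIS : I ∈ S := ⟨algebraMap A K a * z, isIntegral_algebraMap.mul hz,
        fun h' => h.1 ((hpz a).2 h'), hI⟩
      have hpI : p ≤ I := by
        intro c hc
        rw [hI, mul_left_comm]
        exact mul_mem ⟨a, rfl⟩ ((hpz c).1 hc)
      have hbI : b ∈ I := by
        rw [hI, ← mul_assoc, ← map_mul, mul_comm b a]
        exact (hpz _).1 hab
      have hlt : p < I := lt_of_le_of_ne hpI fun h' => h.2 (by rw [h']; exact hbI)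
      exact hmax I hIS hlt
  -- the conductor and a minimal prime below `p`
  have hJ : conductor A K ≤ p := fun a ha => (hpz a).2 (ha z hz)
  obtain ⟨P, hP, hPp⟩ := Ideal.exists_minimalPrimes_le hJ
  have hPprime : P.IsPrime := hP.1.1
  have hPbot : P ≠ ⊥ := by
    intro h
    apply conductor_ne_bot k A K
    rw [eq_bot_iff, ← h]
    exact hP.1.2
  have hstab : ∀ D : Derivation k A A, ∀ x ∈ P, D x ∈ P := fun D =>
    stable_of_mem_minimalPrimes hQ D (fun x hx => conductor_stable (K := K) D hx) hP
  -- minors
  obtain ⟨r, D', x, hdet, hD⟩ := exists_max_minor (k := k) p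
  obtain ⟨s, hs, hsD⟩ := exists_smul_mem_of_smul_mem p (Submodule.span A (Set.range D'))
    (Matrix.of fun i j => D' i (x j)).det hdet (fun D => by
      obtain ⟨c, hc⟩ := hD D
      refine ⟨∑ i, c i • D' i, Submodule.sum_mem _ fun i _ =>
        Submodule.smul_mem _ _ (Submodule.subset_span ⟨i, rfl⟩), ?_⟩
      exact mem_smul_top_of_colon p z hpz _ hc)
  have hs0 : s ≠ 0 := fun h => hs (by rw [h]; exact p.zero_mem)
  have hdet0 : (Matrix.of fun i j => D' i (x j)).det ≠ 0 := fun h =>
    hdet (by rw [h]; exact p.zero_mem)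
  have hind : ∀ G : MvPolynomial (Fin r) k, MvPolynomial.aeval x G ∈ P → G = 0 := fun G hG =>
    eq_zero_of_aeval_mem P D' x (fun i => hstab (D' i)) (fun h => hdet (hPp h)) _ G le_rfl hG
  obtain ⟨f, hf, hf0⟩ := Submodule.exists_mem_ne_zero_of_ne_bot hPbot
  obtain ⟨G, hG0, hG⟩ := exists_aeval_mem_of_combination (K := K) D' x hdet0
    (by
      rw [injective_iff_map_eq_zero]
      intro G hG
      exact hind G (by rw [hG]; exact P.zero_mem))
    (fun E => exists_combination D' s hs0 hsD E) P f hf hf0
  exact hG0 (hind G hG)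

end Vale.Agent.P266
end
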